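import Vale.Agent.P159.H817.Id7

/-!
P159 / module STATG-IDEAL (helper817), part 8: the chain of doublings. The base pair at distance
`2^k0` on the torus `N_k0` against every ideal pair at a distance `R` in `[2^k, 2^(k+1)]` on the
torus `N_(k+1)`.
-/

set_option linter.unusedSectionVars false

namespace Vale.Agent.P159.H817

open Finset
open Vale.Agent.P159.TM.Spec (V)

noncomputable section

variable {b t a : ℝ} {n l : ℕ} {Λ ε₂ ε₃ L S B : ℝ} {D0 D1 : Dec} {b0 : ℤ → ℤ → Bool → ℝ}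

/-- one doubling -/
theorem rh_step {N N' r : ℕ} [NeZero N] [NeZero N'] (h : N' = 2 * N)
    (H : SysI N l r Λ ε₂ ε₃ D0 D1 (rh N b t a n))
    (H' : SysI N' l r Λ ε₂ ε₃ D0 D1 (rh N' b t a n))
    (hRb : RefB b0 (20 * l)) (hId : HasId N b0 l r L) (hId' : HasId N' b0 l r L)
    (hL : 0 ≤ L) (hn8 : 8 * n + 64 ≤ N)
    (hX : ∀ β : V N × Bool → ℝ, KK l r Λ D0 D1 β → (∀ e, N < 7 * sz e.1 → β e = 0) →
      KK l r Λ D0 D1 (ext 2 β) → |EZ (2 * N) b t (ext 2 β) - EZ N b t β| ≤ ε₃)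
    {s : ℕ} (hs : r = 64 * s) (hr : 4096 * l ≤ r)
    {F0 F1 : ℤ → ℤ → ℝ} (h0 : F0 ∈ D0) (h1 : F1 ∈ D1) (hLS : L ≤ S) (hB1 : 1 ≤ B)
    (hΛ : 10000000000 * (1 + CG + S + B) ≤ Λ) {R : ℕ} (hR1 : r ≤ R) (hR2 : R ≤ 2 * r)
    {g : V N → ℝ} (hg : GB (S / l) g) (hgB : ∀ x, |g x| ≤ B)
    (hgI : Idl b0 (20 * l) (0 : V N) (r • e1) g)
    {g' : V N' → ℝ} (hg' : GB (S / l) g') (hgB' : ∀ x, |g' x| ≤ B)
    (hgI' : Idl b0 (20 * l) (0 : V N') (R • e1) g') :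
    |rh N' b t a n (cfg F0 F1 0 (R • e1) g') - rh N b t a n (cfg F0 F1 0 (r • e1) g)| ≤
      500000 * eB N' l ε₂ ε₃ := by
  subst h
  refine statg_ideal (M := 2) H H' hRb hId hId' hL ?_ hs hr h0 h1 hLS hB1 hΛ hR1 hR2
    hg hgB hgI hg' hgB' hgI'
  intro β k1 hs k2
  have h := hX β k1 hs k2
  unfold rh
  rw [Qf_ext hn8 (fun e he => hs e (by omega))]
  have e : EZ (2 * N) b t (ext 2 β) - Qf a (t / a) n β / 2 -
      (EZ N b t β - Qf a (t / a) n β / 2) = EZ (2 * N) b t (ext 2 β) - EZ N b t β := by ring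
  rw [e]
  exact h

/-- the inputs of the chain at the scale `2^k` -/
structure ChI (b t a : ℝ) (n l : ℕ) (Λ ε₂ ε₃ L : ℝ) (D0 D1 : Dec) (b0 : ℤ → ℤ → Bool → ℝ)
    (N N' k : ℕ) [NeZero N] [NeZero N'] : Prop where
  dbl : N' = 2 * N
  sys : SysI N l (2 ^ k) Λ ε₂ ε₃ D0 D1 (rh N b t a n)
  sys' : SysI N' l (2 ^ k) Λ ε₂ ε₃ D0 D1 (rh N' b t a n)
  id : HasId N b0 l (2 ^ k) L
  id' : HasId N' b0 l (2 ^ k) L
  tor : ∀ β : V N × Bool → ℝ, KK l (2 ^ k) Λ D0 D1 β → (∀ e, N < 7 * sz e.1 → β e = 0) →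
      KK l (2 ^ k) Λ D0 D1 (ext 2 β) → |EZ (2 * N) b t (ext 2 β) - EZ N b t β| ≤ ε₃
  n8 : 8 * n + 64 ≤ N
  lr : 4096 * l ≤ 2 ^ k

/-- the tori grow -/
lemma tor_mono {Nf : ℕ → ℕ} {k0 k1 : ℕ} (h : ∀ k, k0 ≤ k → k ≤ k1 → Nf (k + 1) = 2 * Nf k) :
    ∀ d j, k0 ≤ j → j + d = k1 → Nf (j + 1) ≤ Nf (k1 + 1) := by
  intro d
  induction d with
  | zero =>
    intro j hj hd
    have : j = k1 := by omega
    subst this
    exact le_rfl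
  | succ d ih =>
    intro j hj hd
    have h1 := h (j + 1) (by omega) (by omega)
    have h2 := ih (j + 1) (by omega) (by omega)
    omega

lemma eB_le' {N N' : ℕ} (h : N ≤ N') (h2 : 0 ≤ 3 * ε₂ + ε₃) :
    eB N l ε₂ ε₃ ≤ eB N' l ε₂ ε₃ := by
  unfold eB
  refine mul_le_mul_of_nonneg_right ?_ h2
  refine mul_le_mul_of_nonneg_left ?_ (by norm_num)
  refine pow_le_pow_left₀ (by positivity) ?_ 2
  exact div_le_div_of_nonneg_right (by exact_mod_cast h) (Nat.cast_nonneg _)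

/-- every step of the chain costs at most the last one -/
lemma eB_chain {Nf : ℕ → ℕ} {k0 k1 : ℕ} (h : ∀ k, k0 ≤ k → k ≤ k1 → Nf (k + 1) = 2 * Nf k)
    (h2 : 0 ≤ 3 * ε₂ + ε₃) (j : ℕ) (hj : k0 ≤ j) (hj1 : j ≤ k1) :
    500000 * eB (Nf (j + 1)) l ε₂ ε₃ ≤ 500000 * eB (Nf (k1 + 1)) l ε₂ ε₃ :=
  mul_le_mul_of_nonneg_left (eB_le' (tor_mono h (k1 - j) j hj (by omega)) h2) (by norm_num)

lemma two_pow_64 {l k : ℕ} (hl : 4 ≤ l) (h : 4096 * l ≤ 2 ^ k) : ∃ s, 2 ^ k = 64 * s := by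
  have h1 : 6 ≤ k := by
    by_contra h2
    push Not at h2
    have h3 : 2 ^ k ≤ 2 ^ 6 := Nat.pow_le_pow_right (by norm_num) (by omega)
    omega
  obtain ⟨j, rfl⟩ := Nat.exists_eq_add_of_le h1
  exact ⟨2 ^ j, by rw [pow_add]; norm_num⟩

/-- an ideal field at the end of a step -/
lemma id_next {N' r l : ℕ} [NeZero N'] {L : ℝ} (hl : 4 ≤ l) (hlr : 256 * l ≤ r)
    (hrN : 64 * r ≤ N') (hId : HasId N' b0 l r L) (hL : 0 ≤ L) (hLS : L ≤ S) (hB1 : 1 ≤ B)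
    {R : ℕ} (hR1 : r ≤ R) (hR2 : R ≤ 2 * r) :
    ∃ g : V N' → ℝ, GB (S / l) g ∧ (∀ x, |g x| ≤ B) ∧
      Idl b0 (20 * l) (0 : V N') (R • e1) g := by
  have hf : Far r (0 : V N') (R • H817.e1) := by
    unfold Far
    rw [sub_zero, sz_ne1 (by omega)]
    omega
  obtain ⟨i1, i2, i3⟩ := gI_spec hId hf
  refine ⟨_, ?_, fun x => (i3 x).trans hB1, i1⟩
  exact (i2.rl hL (by omega) (by omega)).mono (div_le_div_of_nonneg_right hLS (Nat.cast_nonneg _))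

/-- **the chain of doublings**: every ideal decorated pair at a distance `R` in `[2^k, 2^(k+1)]` on
the torus `N_(k+1)`, against the base pair `2^k0` on the torus `N_k0` -/
theorem rh_chain {Nf : ℕ → ℕ} [∀ k, NeZero (Nf k)] {k0 k1 : ℕ} {E : ℝ}
    (H : ∀ k, k0 ≤ k → k ≤ k1 → ChI b t a n l Λ ε₂ ε₃ L D0 D1 b0 (Nf k) (Nf (k + 1)) k)
    (hE : ∀ k, k0 ≤ k → k ≤ k1 → 500000 * eB (Nf (k + 1)) l ε₂ ε₃ ≤ E)
    (hRb : RefB b0 (20 * l)) (hL : 0 ≤ L)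
    {F0 F1 : ℤ → ℤ → ℝ} (h0 : F0 ∈ D0) (h1 : F1 ∈ D1) (hLS : L ≤ S) (hB1 : 1 ≤ B)
    (hΛ : 10000000000 * (1 + CG + S + B) ≤ Λ)
    {g : V (Nf k0) → ℝ} (hg : GB (S / l) g) (hgB : ∀ x, |g x| ≤ B)
    (hgI : Idl b0 (20 * l) (0 : V (Nf k0)) ((2 ^ k0) • e1) g)
    {k R : ℕ} (hk : k0 ≤ k) (hk1 : k ≤ k1) (hR1 : 2 ^ k ≤ R) (hR2 : R ≤ 2 ^ (k + 1))
    {g' : V (Nf (k + 1)) → ℝ} (hg' : GB (S / l) g') (hgB' : ∀ x, |g' x| ≤ B)
    (hgI' : Idl b0 (20 * l) (0 : V (Nf (k + 1))) (R • e1) g') :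
    |rh (Nf (k + 1)) b t a n (cfg F0 F1 0 (R • e1) g') -
      rh (Nf k0) b t a n (cfg F0 F1 0 ((2 ^ k0) • e1) g)| ≤ (k - k0 + 1) * E := by
  -- a pair at the scale `2^j` on the torus `N_j`
  have A : ∀ d j, j = k0 + d → j ≤ k1 → ∃ gj : V (Nf j) → ℝ, GB (S / l) gj ∧
      (∀ x, |gj x| ≤ B) ∧ Idl b0 (20 * l) (0 : V (Nf j)) ((2 ^ j) • e1) gj ∧
      |rh (Nf j) b t a n (cfg F0 F1 0 ((2 ^ j) • e1) gj) -
        rh (Nf k0) b t a n (cfg F0 F1 0 ((2 ^ k0) • e1) g)| ≤ d * E := by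
    intro d
    induction d with
    | zero =>
      intro j hj hj1
      have : j = k0 := by omega
      subst this
      refine ⟨g, hg, hgB, hgI, ?_⟩
      simp
    | succ d ih =>
      intro j hj hj1
      obtain ⟨i, rfl⟩ : ∃ i, j = i + 1 := ⟨k0 + d, by omega⟩
      obtain ⟨gi, a1, a2, a3, a4⟩ := ih i (by omega) (by omega)
      have Hi := H i (by omega) (by omega)
      obtain ⟨s, hs⟩ := two_pow_64 Hi.sys.hl Hi.lr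
      obtain ⟨gj, c1, c2, c3⟩ := id_next (S := S) (B := B) Hi.sys'.hl Hi.sys'.hlr Hi.sys'.hrN
        Hi.id' hL hLS hB1 (R := 2 ^ (i + 1)) (by rw [pow_succ]; omega) (by rw [pow_succ]; omega)
      refine ⟨gj, c1, c2, c3, ?_⟩
      have st := rh_step Hi.dbl Hi.sys Hi.sys' hRb Hi.id Hi.id' hL Hi.n8 Hi.tor hs Hi.lr h0 h1
        hLS hB1 hΛ (R := 2 ^ (i + 1)) (by rw [pow_succ]; omega) (by rw [pow_succ]; omega)
        a1 a2 a3 c1 c2 c3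
      have st' := st.trans (hE i (by omega) (by omega))
      push_cast
      rw [abs_le] at st' a4 ⊢
      constructor <;> linarith [st'.1, st'.2, a4.1, a4.2]
  obtain ⟨gk, a1, a2, a3, a4⟩ := A (k - k0) k (by omega) hk1
  have Hk := H k hk hk1
  obtain ⟨s, hs⟩ := two_pow_64 Hk.sys.hl Hk.lr
  have st := rh_step Hk.dbl Hk.sys Hk.sys' hRb Hk.id Hk.id' hL Hk.n8 Hk.tor hs Hk.lr h0 h1
    hLS hB1 hΛ (R := R) hR1 (by rw [pow_succ] at hR2; omega) a1 a2 a3 hg' hgB' hgI'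
  have st' := st.trans (hE k hk hk1)
  rw [Nat.cast_sub hk] at a4
  rw [abs_le] at st' a4 ⊢
  constructor <;> linarith [st'.1, st'.2, a4.1, a4.2]

/-- **the chain for the partition functions** -/
theorem LPg_chain {Nf : ℕ → ℕ} [∀ k, NeZero (Nf k)] {k0 k1 : ℕ} {E ε₄ : ℝ}
    (H : ∀ k, k0 ≤ k → k ≤ k1 → ChI b t a n l Λ ε₂ ε₃ L D0 D1 b0 (Nf k) (Nf (k + 1)) k)
    (hE : ∀ k, k0 ≤ k → k ≤ k1 → 500000 * eB (Nf (k + 1)) l ε₂ ε₃ ≤ E)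
    (hRb : RefB b0 (20 * l)) (hL : 0 ≤ L)
    {F0 F1 : ℤ → ℤ → ℝ} (h0 : F0 ∈ D0) (h1 : F1 ∈ D1) (hLS : L ≤ S) (hB1 : 1 ≤ B)
    (hΛ : 10000000000 * (1 + CG + S + B) ≤ Λ)
    {g : V (Nf k0) → ℝ} (hg : GB (S / l) g) (hgB : ∀ x, |g x| ≤ B)
    (hgI : Idl b0 (20 * l) (0 : V (Nf k0)) ((2 ^ k0) • e1) g)
    {k R : ℕ} (hk : k0 ≤ k) (hk1 : k ≤ k1) (hR1 : 2 ^ k ≤ R) (hR2 : R ≤ 2 ^ (k + 1))
    {g' : V (Nf (k + 1)) → ℝ} (hg' : GB (S / l) g') (hgB' : ∀ x, |g' x| ≤ B)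
    (hgI' : Idl b0 (20 * l) (0 : V (Nf (k + 1))) (R • e1) g')
    (hreal : |rh (Nf (k + 1)) b t a n (gr fun x => edec F0 F1 0 (R • e1) x + g' x) -
      rh (Nf k0) b t a n (gr fun x => edec F0 F1 0 ((2 ^ k0) • e1) x + g x)| ≤ ε₄) :
    |LPg (Nf (k + 1)) b t F0 F1 0 (R • e1) g' - LPg (Nf k0) b t F0 F1 0 ((2 ^ k0) • e1) g -
      a / 2 * (eD (Nf (k + 1)) R - eD (Nf k0) (2 ^ k0))| ≤ (k - k0 + 1) * E + ε₄ := by
  have key := rh_chain H hE hRb hL h0 h1 hLS hB1 hΛ hg hgB hgI hk hk1 hR1 hR2 hg' hgB' hgI'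
  rw [LPg_rh (a := a) (n := n), LPg_rh (N := Nf k0) (a := a) (n := n), eD_eq, eD_eq]
  have c1 : ax (Nf (k + 1)) R = R • e1 := (nsmul_e1 R).symm
  have c2 : ax (Nf k0) (2 ^ k0) = (2 ^ k0) • e1 := (nsmul_e1 (2 ^ k0)).symm
  rw [c1, c2]
  rw [abs_le] at key hreal ⊢
  constructor <;> linarith [key.1, key.2, hreal.1, hreal.2]

end

end Vale.Agent.P159.H817
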