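import Vale.Agent.P159.H817.St10
import Vale.Agent.P159.H972.Good

/-!
P159 / module STATG (helper817), part 11: the flat form against the quadratic form of the neutral
free energy.
-/

set_option linter.unusedSectionVars false

namespace Vale.Agent.P159.H817

open Finset Polynomial
open Vale.Agent.P159.TM.Spec (V)
open Vale.Agent.P159.TM.H764 (cN EE dt EE_nonneg EE_zero)
open Vale.Agent.P159.H37 (qf)
open Vale.Agent.P159.H864 (TI sym lapM ti_lapM sym_lapM)
open Vale.Agent.P159.H963 (Pin Ank Anm)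

noncomputable section

variable {N : ℕ} [NeZero N] {a m t b η : ℝ} {n : ℕ}

lemma neg_one_le_cN (k : ZMod N) : -1 ≤ cN k := Real.neg_one_le_cos _

lemma EE_le8 (k : V N) : EE k ≤ 8 := by
  unfold EE
  have h1 := neg_one_le_cN k.1
  have h2 := neg_one_le_cN k.2
  linarith

/-- the flatness error -/
def kap0 (a t η : ℝ) (n : ℕ) : ℝ := η * (1 + 1 / a) + 2 * a / Db n (t / a)

lemma wb_pos (hn : 1 ≤ n) (hm : 0 < m) {E : ℝ} (h0 : 0 ≤ E) (h8 : E ≤ 8) :
    0 ≤ (wb n m).eval E ∧ (m + E) * (wb n m).eval E ≤ m * (1 + 2 / Db n m) := by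
  have hD := Db_pos hn hm
  have h1 := wb_eval hn hm E
  have h2 := Rb_abs hn hm h0 h8
  have h3 : 0 ≤ (Rb n m).eval E := by
    rw [Rb_eval]
    have h4 := (abs_le.1 (Cb_abs n h0 h8)).2
    have h5 : 0 ≤ m / Db n m := by positivity
    nlinarith
  rw [abs_of_nonneg h3] at h2
  constructor
  · have h6 : 0 < m + E := by linarith
    by_contra hcon
    push Not at hcon
    have := mul_neg_of_pos_of_neg h6 hcon
    linarith
  · rw [h1]
    have e : m * (1 + 2 / Db n m) = m + 2 / Db n m * m := by ring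
    linarith

/-- **symbols** -/
theorem flat_sym (hb : 0 < b) (ht : 0 < t) (ha : 0 < a) (hη : 0 ≤ η) (hn : 1 ≤ n)
    (hP : ∀ k : V N, k ≠ 0 → |Pin N b t k - a * EE k| ≤ η * EE k * (1 + EE k / t)) (k : V N) :
    |Ank N b t k - a * (EE k * (wb n (t / a)).eval (EE k))| ≤ kap0 a t η n * EE k := by
  have hm : 0 < t / a := by positivity
  have hD := Db_pos hn hm
  by_cases hk : k = 0
  · rw [hk, EE_zero, H963.Ank, if_pos rfl]
    simp
  have hE := EE_nonneg k
  have hE8 := EE_le8 k
  have hPn := H963.Pin_nonneg (N := N) hb ht hk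
  rw [H963.Ank_eq hb ht hk]
  set E := EE k with hEdef
  set Q := Pin N b t k with hQ
  have hw := wb_eval hn hm E
  have hR := Rb_abs hn hm hE hE8
  set w := (wb n (t / a)).eval E
  set R := (Rb n (t / a)).eval E
  have hw' : w = (t + a * R) / (t + a * E) := by
    rw [eq_div_iff (by positivity)]
    have : a * (t / a) = t := by field_simp
    linear_combination a * hw + this - this * w
  have h1 := hP k hk
  have d1 : 0 < t + Q := by linarith
  have d2 : 0 < t + a * E := by positivity
  have e1 : t * Q / (t + Q) - a * (E * w) =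
      t ^ 2 * (Q - a * E) / ((t + Q) * (t + a * E)) - a ^ 2 * E * R / (t + a * E) := by
    rw [hw']
    field_simp
    ring
  rw [e1]
  have b1 : |t ^ 2 * (Q - a * E) / ((t + Q) * (t + a * E))| ≤ η * (1 + 1 / a) * E := by
    rw [abs_div, abs_mul, abs_of_pos (mul_pos d1 d2), abs_of_nonneg (sq_nonneg t), div_le_iff₀
      (mul_pos d1 d2)]
    calc t ^ 2 * |Q - a * E| ≤ t ^ 2 * (η * E * (1 + E / t)) :=
          mul_le_mul_of_nonneg_left h1 (sq_nonneg t)
      _ = η * E * (t * (t + E)) := by field_simp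
      _ ≤ η * E * ((1 + 1 / a) * ((t + Q) * (t + a * E))) := by
          refine mul_le_mul_of_nonneg_left ?_ (by positivity)
          have c1 : t + E ≤ (1 + 1 / a) * (t + a * E) := by
            have : (1 + 1 / a) * (t + a * E) = t + E + t / a + a * E := by
              field_simp
              ring
            rw [this]
            have : 0 ≤ t / a + a * E := by positivity
            linarith
          calc t * (t + E) ≤ (t + Q) * ((1 + 1 / a) * (t + a * E)) :=
                mul_le_mul (by linarith) c1 (by positivity) d1.le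
            _ = _ := by ring
      _ = _ := by ring
  have b2 : |a ^ 2 * E * R / (t + a * E)| ≤ 2 * a / Db n (t / a) * E := by
    rw [abs_div, abs_of_pos d2, abs_mul, abs_of_nonneg (by positivity : 0 ≤ a ^ 2 * E),
      div_le_iff₀ d2]
    calc a ^ 2 * E * |R| ≤ a ^ 2 * E * (2 / Db n (t / a) * (t / a)) :=
          mul_le_mul_of_nonneg_left hR (by positivity)
      _ = 2 * a / Db n (t / a) * E * t := by field_simp
      _ ≤ 2 * a / Db n (t / a) * E * (t + a * E) :=
          mul_le_mul_of_nonneg_left (by nlinarith) (by positivity)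
  unfold kap0
  refine (abs_sub _ _).trans ((add_le_add b1 b2).trans (le_of_eq ?_))
  ring

/-- **flatness** -/
theorem flat_qf (hb : 0 < b) (ht : 0 < t) (ha : 0 < a) (hη : 0 ≤ η) (hn : 1 ≤ n)
    (hP : ∀ k : V N, k ≠ 0 → |Pin N b t k - a * EE k| ≤ η * EE k * (1 + EE k / t))
    (F : V N → ℝ) :
    |qf (Anm N b t) F - Qf a (t / a) n (gr F)| ≤ kap0 a t η n * nrm (gr F) := by
  have hm : 0 < t / a := by positivity
  have hs := flat_sym hb ht ha hη hn hP
  rw [Qf_gr, ← qf_lap]
  have i1 := (H864.qf_le_iff (A := Anm N b t) (B := FM a (t / a) n + kap0 a t η n • lapM)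
    (H963.ti_Anm hb.le ht) (ti_FM.add (ti_lapM.smul _))).2 (fun k => by
      rw [H963.sym_Anm, H864.sym_add, H864.sym_smul, sym_FM hn hm, sym_lapM]
      have := (abs_le.1 (hs k)).2
      linarith) F
  have i2 := (H864.qf_le_iff (A := FM a (t / a) n - kap0 a t η n • lapM) (B := Anm N b t)
    (ti_FM.sub (ti_lapM.smul _)) (H963.ti_Anm hb.le ht)).2 (fun k => by
      rw [H963.sym_Anm, H864.sym_sub, H864.sym_smul, sym_FM hn hm, sym_lapM]
      have := (abs_le.1 (hs k)).1
      linarith) F
  have e1 : qf (FM a (t / a) n + kap0 a t η n • lapM) F =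
      qf (FM a (t / a) n) F + kap0 a t η n * qf (lapM : Matrix (V N) (V N) ℝ) F := by
    rw [← H864.qf_smul_mat]
    unfold H37.qf
    simp only [Matrix.add_apply, mul_add, add_mul, Finset.sum_add_distrib]
  have e2 : qf (FM a (t / a) n - kap0 a t η n • lapM) F =
      qf (FM a (t / a) n) F - kap0 a t η n * qf (lapM : Matrix (V N) (V N) ℝ) F := by
    rw [H864.qf_sub_mat, H864.qf_smul_mat]
  rw [e1] at i1
  rw [e2] at i2
  rw [abs_le]
  constructor <;> linarith

/-- the form on gradients is nonnegative -/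
lemma Qf_gr_nonneg (ha : 0 < a) (hm : 0 < m) (hn : 1 ≤ n) (F : V N → ℝ) :
    0 ≤ Qf a m n (gr F) := by
  rw [Qf_gr]
  refine (H864.psd_iff ti_FM).2 (fun k => ?_) F
  rw [sym_FM hn hm]
  have := (wb_pos hn hm (EE_nonneg k) (EE_le8 k)).1
  have hE := EE_nonneg k
  positivity

/-- upper bound of the form on gradients -/
lemma Qf_gr_le (ha : 0 < a) (hm : 0 < m) (hn : 1 ≤ n) (F : V N → ℝ) :
    Qf a m n (gr F) ≤ a * (1 + 2 / Db n m) * nrm (gr F) := by
  have hD := Db_pos hn hm
  rw [Qf_gr, ← qf_lap, ← H864.qf_smul_mat]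
  refine (H864.qf_le_iff ti_FM (ti_lapM.smul _)).2 (fun k => ?_) F
  rw [sym_FM hn hm, H864.sym_smul, sym_lapM]
  have h1 := wb_pos hn hm (EE_nonneg k) (EE_le8 k)
  have hE := EE_nonneg k
  have h2 : (wb n m).eval (EE k) ≤ 1 + 2 / Db n m := by
    have h3 : m * (wb n m).eval (EE k) ≤ m * (1 + 2 / Db n m) := by
      nlinarith [mul_nonneg hE h1.1]
    exact le_of_mul_le_mul_left h3 hm
  calc a * (EE k * (wb n m).eval (EE k)) ≤ a * (EE k * (1 + 2 / Db n m)) :=
        mul_le_mul_of_nonneg_left (mul_le_mul_of_nonneg_left h2 hE) ha.le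
    _ = _ := by ring

end

end Vale.Agent.P159.H817
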