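import Vale.Agent.P159.H817.St1

/-!
P159 / module STATG (helper817), part 2: unit paths of dislocations, the canonical field `bD p q` of
a pair, its potential away from the path, cutting the pair.
-/

set_option linter.unusedSectionVars false

namespace Vale.Agent.P159.H817

open Finset
open Vale.Agent.P159.TM.Spec (V)

noncomputable section

variable {N : ℕ} [NeZero N]

/-! ### paths -/

/-- `η` is an integer field with circulation `δ_p - δ_q`, of total flux `(v1, v2)`, supported in the
box of radius `L` around `p`, with total variation at most `L` -/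
structure IsPath (p q : V N) (v1 v2 : ℤ) (L : ℕ) (η : V N × Bool → ℤ) : Prop where
  cu : ∀ x, cu (fun e => (η e : ℝ)) x = (if x = p then 1 else 0) - if x = q then 1 else 0
  hor : ∑ x : V N, (η (x, false) : ℝ) = -v2
  ver : ∑ x : V N, (η (x, true) : ℝ) = v1
  tot : ∑ e, |(η e : ℝ)| ≤ L
  sup : ∀ e, η e ≠ 0 → sz (e.1 - p) ≤ L
  len : sz (q - p) ≤ L

lemma IsPath.concat {p q r : V N} {v1 v2 w1 w2 : ℤ} {L L' : ℕ} {η η' : V N × Bool → ℤ}
    (h : IsPath p q v1 v2 L η) (h' : IsPath q r w1 w2 L' η') :
    IsPath p r (v1 + w1) (v2 + w2) (L + L') (fun e => η e + η' e) where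
  cu x := by
    have e : (fun e : V N × Bool => (((η e + η' e : ℤ)) : ℝ)) = fun e => (η e : ℝ) + (η' e : ℝ) := by
      funext e; push_cast; rfl
    rw [e, cu_add (fun e => (η e : ℝ)) (fun e => (η' e : ℝ)), h.cu, h'.cu]
    ring
  hor := by
    push_cast
    rw [Finset.sum_add_distrib, h.hor, h'.hor]
    ring
  ver := by
    push_cast
    rw [Finset.sum_add_distrib, h.ver, h'.ver]
  tot := by
    push_cast
    calc ∑ e, |(η e : ℝ) + η' e| ≤ ∑ e, (|(η e : ℝ)| + |(η' e : ℝ)|) :=
          Finset.sum_le_sum fun e _ => abs_add_le _ _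
      _ ≤ L + L' := by
          rw [Finset.sum_add_distrib]
          exact add_le_add h.tot h'.tot
  sup e he := by
    by_cases h1 : η e = 0
    · have h2 : η' e ≠ 0 := by
        intro h2
        rw [h1, h2, add_zero] at he
        exact he rfl
      have h3 := h'.sup e h2
      have h4 := sz_add_le (e.1 - q) (q - p)
      rw [sub_add_sub_cancel] at h4
      have h5 := h.len
      omega
    · have h3 := h.sup e h1
      omega
  len := by
    have h4 := sz_add_le (r - q) (q - p)
    rw [sub_add_sub_cancel] at h4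
    have h5 := h.len
    have h6 := h'.len
    omega

lemma IsPath.nil (p : V N) : IsPath p p 0 0 0 (fun _ => 0) where
  cu x := by
    unfold H817.cu
    simp
  hor := by simp
  ver := by simp
  tot := by simp
  sup e he := absurd rfl he
  len := by rw [sub_self, sz_zero]

/-- the field `c` on one edge -/
def one (c : ℤ) (e0 : V N × Bool) (e : V N × Bool) : ℤ := if e = e0 then c else 0

lemma tot_one (c : ℤ) (hc : |c| ≤ 1) (e0 : V N × Bool) : ∑ e, |((one c e0 e : ℤ) : ℝ)| ≤ ((1 : ℕ) : ℝ) := by
  have h1 : ∀ e : V N × Bool, |((one c e0 e : ℤ) : ℝ)| = if e = e0 then |(c : ℝ)| else 0 := by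
    intro e
    unfold one
    split_ifs <;> simp
  simp_rw [h1]
  rw [Finset.sum_ite_eq']
  simp only [Finset.mem_univ, if_true, Nat.cast_one]
  exact_mod_cast hc

lemma sum_one (c : ℤ) (x0 : V N) (b0 b : Bool) :
    ∑ x : V N, ((one c (x0, b0) (x, b) : ℤ) : ℝ) = if b = b0 then (c : ℝ) else 0 := by
  by_cases h : b = b0
  · subst h
    have h1 : ∀ x : V N, ((one c (x0, b) (x, b) : ℤ) : ℝ) = if x = x0 then (c : ℝ) else 0 := by
      intro x
      unfold one
      by_cases h2 : x = x0
      · subst h2; simp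
      · rw [if_neg h2, if_neg]
        · simp
        · intro h3; exact h2 (Prod.ext_iff.1 h3).1
    simp_rw [h1]
    rw [Finset.sum_ite_eq']
    simp
  · rw [if_neg h]
    refine Finset.sum_eq_zero fun x _ => ?_
    unfold one
    rw [if_neg]
    · simp
    · intro h3; exact h (Prod.ext_iff.1 h3).2

lemma one_ne {c : ℤ} {x0 : V N} {b0 : Bool} {e : V N × Bool} (h : one c (x0, b0) e ≠ 0) :
    e = (x0, b0) := by
  by_contra h1
  exact h (if_neg h1)

lemma sz_e (b : Bool) : sz (eb b : V N) ≤ 1 := sz_unit (eb_cases b)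

/-- step to the right -/
lemma IsPath.right (p : V N) : IsPath p (p + e1) 1 0 1 (one 1 (p + e1, true)) where
  cu x := by
    unfold H817.cu one
    simp only [Prod.mk.injEq, Bool.false_eq_true, and_false, and_true, if_false, Int.cast_zero,
      Int.cast_ite, Int.cast_one]
    have h : (x + e1 = p + e1) ↔ (x = p) := add_left_inj _
    simp only [h]
    ring
  hor := by rw [sum_one]; simp
  ver := by rw [sum_one]; simp
  tot := tot_one 1 (by norm_num) _
  sup e he := by
    rw [one_ne he, add_sub_cancel_left]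
    exact sz_e false
  len := by
    rw [add_sub_cancel_left]
    exact sz_e false

lemma IsPath.left (p : V N) : IsPath p (p - e1) (-1) 0 1 (one (-1) (p, true)) where
  cu x := by
    unfold H817.cu one
    simp only [Prod.mk.injEq, Bool.false_eq_true, and_false, and_true, if_false, Int.cast_zero,
      Int.cast_ite, Int.cast_neg, Int.cast_one]
    have h : (x = p - e1) ↔ (x + e1 = p) := eq_sub_iff_add_eq
    simp only [h]
    split_ifs <;> ring
  hor := by rw [sum_one]; simp
  ver := by rw [sum_one]; simp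
  tot := tot_one (-1) (by norm_num) _
  sup e he := by
    rw [one_ne he, sub_self, sz_zero]
    omega
  len := by
    rw [sub_sub_cancel_left, sz_neg]
    exact sz_e false

lemma IsPath.up (p : V N) : IsPath p (p + e2) 0 1 1 (one (-1) (p + e2, false)) where
  cu x := by
    unfold H817.cu one
    simp only [Prod.mk.injEq, Bool.true_eq_false, and_false, and_true, if_false, Int.cast_zero,
      Int.cast_ite, Int.cast_neg, Int.cast_one]
    have h : (x + e2 = p + e2) ↔ (x = p) := add_left_inj _
    simp only [h]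
    split_ifs <;> ring
  hor := by rw [sum_one]; simp
  ver := by rw [sum_one]; simp
  tot := tot_one (-1) (by norm_num) _
  sup e he := by
    rw [one_ne he, add_sub_cancel_left]
    exact sz_e true
  len := by
    rw [add_sub_cancel_left]
    exact sz_e true

lemma IsPath.down (p : V N) : IsPath p (p - e2) 0 (-1) 1 (one 1 (p, false)) where
  cu x := by
    unfold H817.cu one
    simp only [Prod.mk.injEq, Bool.true_eq_false, and_false, and_true, if_false, Int.cast_zero,
      Int.cast_ite, Int.cast_one]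
    have h : (x = p - e2) ↔ (x + e2 = p) := eq_sub_iff_add_eq
    simp only [h]
    ring
  hor := by rw [sum_one]; simp
  ver := by rw [sum_one]; simp
  tot := tot_one 1 (by norm_num) _
  sup e he := by
    rw [one_ne he, sub_self, sz_zero]
    omega
  len := by
    rw [sub_sub_cancel_left, sz_neg]
    exact sz_e true

lemma path_hor (p : V N) (n : ℕ) :
    (∃ η, IsPath p (p + n • e1) n 0 n η) ∧ (∃ η, IsPath p (p - n • e1) (-n) 0 n η) := by
  induction n with
  | zero =>
    constructor
    · refine ⟨fun _ => 0, ?_⟩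
      have := IsPath.nil p
      simpa using this
    · refine ⟨fun _ => 0, ?_⟩
      have := IsPath.nil p
      simpa using this
  | succ n ih =>
    obtain ⟨⟨η, h⟩, ⟨ζ, k⟩⟩ := ih
    constructor
    · have h1 := h.concat (IsPath.right (p + n • e1))
      rw [add_assoc, ← succ_nsmul, add_zero] at h1
      have e : (n : ℤ) + 1 = ((n + 1 : ℕ) : ℤ) := by push_cast; rfl
      rw [e] at h1
      exact ⟨_, h1⟩
    · have h1 := k.concat (IsPath.left (p - n • e1))
      rw [sub_sub, ← succ_nsmul, add_zero] at h1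
      have e : -(n : ℤ) + -1 = -((n + 1 : ℕ) : ℤ) := by push_cast; ring
      rw [e] at h1
      exact ⟨_, h1⟩

lemma path_ver (p : V N) (n : ℕ) :
    (∃ η, IsPath p (p + n • e2) 0 n n η) ∧ (∃ η, IsPath p (p - n • e2) 0 (-n) n η) := by
  induction n with
  | zero =>
    constructor
    · refine ⟨fun _ => 0, ?_⟩
      have := IsPath.nil p
      simpa using this
    · refine ⟨fun _ => 0, ?_⟩
      have := IsPath.nil p
      simpa using this
  | succ n ih =>
    obtain ⟨⟨η, h⟩, ⟨ζ, k⟩⟩ := ih
    constructor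
    · have h1 := h.concat (IsPath.up (p + n • e2))
      rw [add_assoc, ← succ_nsmul, add_zero] at h1
      have e : (n : ℤ) + 1 = ((n + 1 : ℕ) : ℤ) := by push_cast; rfl
      rw [e] at h1
      exact ⟨_, h1⟩
    · have h1 := k.concat (IsPath.down (p - n • e2))
      rw [sub_sub, ← succ_nsmul, add_zero] at h1
      have e : -(n : ℤ) + -1 = -((n + 1 : ℕ) : ℤ) := by push_cast; ring
      rw [e] at h1
      exact ⟨_, h1⟩

lemma nsmul_e1 (n : ℕ) : (n • (e1 : V N) : V N) = ((n : ZMod N), 0) := by
  ext <;> simp [e1]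

lemma nsmul_e2 (n : ℕ) : (n • (e2 : V N) : V N) = (0, (n : ZMod N)) := by
  ext <;> simp [e2]

/-- **existence of a path** for every integer displacement -/
theorem exists_path (p : V N) (v1 v2 : ℤ) :
    ∃ η, IsPath p (p + ((v1 : ZMod N), (v2 : ZMod N))) v1 v2 (v1.natAbs + v2.natAbs) η := by
  have h1 : ∃ η, IsPath p (p + ((v1 : ZMod N), 0)) v1 0 v1.natAbs η := by
    rcases Int.natAbs_eq v1 with h | h
    · obtain ⟨η, hη⟩ := (path_hor p v1.natAbs).1
      refine ⟨η, ?_⟩
      rw [nsmul_e1] at hη
      have e : ((v1.natAbs : ℕ) : ZMod N) = (v1 : ZMod N) := by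
        conv_rhs => rw [h]
        simp
      rw [e, ← h] at hη
      exact hη
    · obtain ⟨η, hη⟩ := (path_hor p v1.natAbs).2
      refine ⟨η, ?_⟩
      rw [nsmul_e1] at hη
      have e : p - (((v1.natAbs : ℕ) : ZMod N), (0 : ZMod N)) = p + ((v1 : ZMod N), 0) := by
        have e2 : (v1 : ZMod N) = -((v1.natAbs : ℕ) : ZMod N) := by
          conv_lhs => rw [h]
          simp
        rw [e2]
        ext <;> simp [sub_eq_add_neg]
      rw [e, ← h] at hη
      exact hη
  obtain ⟨η, hη⟩ := h1
  set q := p + ((v1 : ZMod N), (0 : ZMod N)) with hq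
  have h2 : ∃ η, IsPath q (q + (0, (v2 : ZMod N))) 0 v2 v2.natAbs η := by
    rcases Int.natAbs_eq v2 with h | h
    · obtain ⟨η, hη⟩ := (path_ver q v2.natAbs).1
      refine ⟨η, ?_⟩
      rw [nsmul_e2] at hη
      have e : ((v2.natAbs : ℕ) : ZMod N) = (v2 : ZMod N) := by
        conv_rhs => rw [h]
        simp
      rw [e, ← h] at hη
      exact hη
    · obtain ⟨η, hη⟩ := (path_ver q v2.natAbs).2
      refine ⟨η, ?_⟩
      rw [nsmul_e2] at hη
      have e : q - ((0 : ZMod N), ((v2.natAbs : ℕ) : ZMod N)) = q + (0, (v2 : ZMod N)) := by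
        have e2 : (v2 : ZMod N) = -((v2.natAbs : ℕ) : ZMod N) := by
          conv_lhs => rw [h]
          simp
        rw [e2]
        ext <;> simp [sub_eq_add_neg]
      rw [e, ← h] at hη
      exact hη
  obtain ⟨ζ, hζ⟩ := h2
  have h3 := hη.concat hζ
  have e : q + ((0 : ZMod N), (v2 : ZMod N)) = p + ((v1 : ZMod N), (v2 : ZMod N)) := by
    rw [hq, add_assoc]
    congr 1
    ext <;> simp
  rw [e, add_zero, zero_add] at h3
  exact ⟨_, h3⟩

/-! ### the canonical field of a pair -/

/-- displacement -/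
def v1 (p q : V N) : ℤ := (q - p).1.valMinAbs
def v2 (p q : V N) : ℤ := (q - p).2.valMinAbs

/-- **the canonical field of the pair** `(p, q)` -/
def bD (p q : V N) : V N × Bool → ℝ := jD p q (-(v2 p q : ℝ) / (N : ℝ) ^ 2) ((v1 p q : ℝ) / (N : ℝ) ^ 2)

lemma exists_path' (p q : V N) : ∃ η, IsPath p q (v1 p q) (v2 p q) (l1 (q - p)) η := by
  obtain ⟨η, hη⟩ := exists_path p (v1 p q) (v2 p q)
  refine ⟨η, ?_⟩
  have e : p + (((v1 p q : ℤ) : ZMod N), ((v2 p q : ℤ) : ZMod N)) = q := by
    unfold v1 v2
    rw [ZMod.coe_valMinAbs, ZMod.coe_valMinAbs]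
    show p + (q - p) = q
    abel
  rw [e] at hη
  exact hη

lemma dv_bD (p q x : V N) : dv (bD p q) x = 0 := dv_jD _ _ _ _ x

lemma cu_bD (p q x : V N) : cu (bD p q) x = (if x = p then 1 else 0) - if x = q then 1 else 0 :=
  cu_jD _ _ _ _ x

/-- potential of a field -/
def pot (η : V N × Bool → ℝ) (x : V N) : ℝ := -cG (dv η) x

/-- the Hodge decomposition with the explicit potential -/
theorem hodge_pot {p q : V N} {η : V N × Bool → ℝ}
    (hη : ∀ x, cu η x = (if x = p then 1 else 0) - if x = q then 1 else 0) (e : V N × Bool) :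
    η e + gr (pot η) e = jD p q (mnj η false) (mnj η true) e := by
  obtain ⟨f, hf⟩ := hodge hη
  have h1 : ∀ x, lp f x = dv η x := by
    intro x
    have h2 : dv (fun e => η e + gr f e) x = 0 := by
      have : (fun e => η e + gr f e) = jD p q (mnj η false) (mnj η true) := funext hf
      rw [this]
      exact dv_jD _ _ _ _ x
    rw [dv_add, dv_gr] at h2
    linarith
  have h2 : ∀ x, lp (pot η) x = dv η x := by
    intro x
    have h1 := lp_cG (sum_dv η) x
    have h2 : lp (pot η) x = -lp (cG (dv η)) x := by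
      unfold pot lp
      ring
    rw [h2, h1, neg_neg]
  have h3 : ∀ x, lp (fun x => pot η x - f x) x = 0 := by
    intro x
    have h4 : lp (fun x => pot η x - f x) x = lp (pot η) x - lp f x := by
      unfold lp
      ring
    rw [h4, h1, h2, sub_self]
  have h4 := const_of_harm h3
  have h5 : gr (pot η) e = gr f e := by
    obtain ⟨x, b⟩ := e
    rw [gr_eq, gr_eq]
    have a1 := h4 (x + eb b)
    have a2 := h4 x
    linarith
  rw [h5]
  exact hf e

lemma IsPath.bD_eq {p q : V N} {L : ℕ} {η : V N × Bool → ℤ}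
    (h : IsPath p q (v1 p q) (v2 p q) L η) (e : V N × Bool) :
    bD p q e = (η e : ℝ) + gr (pot fun e => (η e : ℝ)) e := by
  have h1 := hodge_pot h.cu e
  rw [h1]
  unfold bD mnj
  rw [h.hor, h.ver]

/-- the potential far from a path -/
theorem pot_bound {η : V N × Bool → ℝ} {p : V N} {L : ℕ} (htot : ∑ e, |η e| ≤ L)
    (hsup : ∀ e, η e ≠ 0 → sz (e.1 - p) ≤ L) {x : V N} {ρ : ℕ} (hx : L + ρ ≤ sz (x - p)) :
    |pot η x| ≤ 2 * CG * L / (1 + ρ) := by
  have hC := CG_pos
  have e0 : pot η x = -∑ e, η e * gr (fun y => G0 (x - y)) e := by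
    unfold pot cG
    rw [parts]
  rw [e0, abs_neg]
  refine (Finset.abs_sum_le_sum_abs _ _).trans ?_
  have h1 : ∀ e : V N × Bool, |η e * gr (fun y => G0 (x - y)) e| ≤
      |η e| * (2 * CG / (1 + ρ)) := by
    rintro ⟨y, b⟩
    rw [abs_mul]
    by_cases h0 : η (y, b) = 0
    · rw [h0, abs_zero, zero_mul, zero_mul]
    refine mul_le_mul_of_nonneg_left ?_ (abs_nonneg _)
    have h2 := hsup _ h0
    have h3 : ρ ≤ sz (x - y) := by
      have h4 := sz_add_le (x - y) (y - p)
      rw [sub_add_sub_cancel] at h4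
      simp only at h2
      omega
    rw [gr_eq]
    have h5 : G0 (x - (y + eb b)) - G0 (x - y) = -D (eb b) G0 (x - (y + eb b)) := by
      unfold D
      have : x - (y + eb b) + eb b = x - y := by abel
      rw [this]
      ring
    rw [h5, abs_neg]
    refine (grad_G0 (eb_cases b) _).trans ?_
    rw [pow_one, div_le_div_iff₀ (by positivity) (by positivity)]
    have h6 : sz (x - y) ≤ sz (x - (y + eb b)) + 1 := by
      have h7 := sz_add_le (x - (y + eb b)) (eb b)
      have h8 : x - (y + eb b) + eb b = x - y := by abel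
      rw [h8] at h7
      have := sz_e (N := N) b
      omega
    have h7 : (1 : ℝ) + ρ ≤ 2 * (1 + sz (x - (y + eb b))) := by
      have : 1 + ρ ≤ 2 * (1 + sz (x - (y + eb b))) := by omega
      exact_mod_cast this
    nlinarith
  refine (Finset.sum_le_sum fun e _ => h1 e).trans ?_
  rw [← Finset.sum_mul]
  calc (∑ e, |η e|) * (2 * CG / (1 + ρ)) ≤ L * (2 * CG / (1 + ρ)) :=
        mul_le_mul_of_nonneg_right htot (by positivity)
    _ = _ := by ring

end

end Vale.Agent.P159.H817
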