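import Vale.Agent.P159.H817.St7

/-!
P159 / module STATG (helper817), part 8: the theorem `(N, x) → (M N, 2 x)`.
-/

set_option linter.unusedSectionVars false

namespace Vale.Agent.P159.H817

open Finset
open Vale.Agent.P159.TM.Spec (V)

noncomputable section

/-! ### the straight path -/

section

variable {N : ℕ} [NeZero N]

/-- the straight path from `0` to `n e1` -/
def etr (N : ℕ) [NeZero N] (n : ℕ) (e : V N × Bool) : ℤ :=
  ∑ j ∈ range n, one 1 ((j + 1) • (e1 : V N), true) e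

lemma path_etr (n : ℕ) : IsPath (0 : V N) (n • e1) n 0 n (etr N n) := by
  induction n with
  | zero =>
    have h := IsPath.nil (0 : V N)
    have e : etr N 0 = fun _ => 0 := by
      funext e
      unfold etr
      simp
    rw [e, zero_smul]
    exact_mod_cast h
  | succ n ih =>
    have h := ih.concat (IsPath.right (n • (e1 : V N)))
    have e : etr N (n + 1) = fun e => etr N n e + one 1 (n • (e1 : V N) + e1, true) e := by
      funext e
      unfold etr
      rw [Finset.sum_range_succ, succ_nsmul]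
    rw [e, succ_nsmul]
    push_cast
    simpa using h

lemma v_etr {n : ℕ} (h : 2 * n ≤ N) : v1 (0 : V N) (n • e1) = n ∧ v2 (0 : V N) (n • e1) = 0 := by
  unfold v1 v2
  rw [sub_zero, nsmul_e1]
  simp only [ZMod.valMinAbs_zero, and_true]
  exact ZMod.valMinAbs_natCast_of_le_half (by omega)

lemma path_etr' {n : ℕ} (h : 2 * n ≤ N) :
    IsPath (0 : V N) (n • e1) (v1 0 (n • (e1 : V N))) (v2 0 (n • (e1 : V N))) n (etr N n) := by
  rw [(v_etr h).1, (v_etr h).2]
  exact path_etr n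

lemma sz_ne1 {n : ℕ} (h : 2 * n ≤ N) : sz (n • (e1 : V N)) = n := by
  have h1 : ((n : ZMod N)).valMinAbs = n := ZMod.valMinAbs_natCast_of_le_half (by omega)
  rw [nsmul_e1]
  unfold sz
  simp only [ZMod.valMinAbs_zero]
  rw [h1]
  simp

end

section

variable {N : ℕ} [NeZero N] {M : ℕ} [NeZero M]

lemma prj_inj {x y : V (M * N)} (h : sz (x - y) < N) : prj (N := N) M x = prj M y ↔ x = y := by
  constructor
  · intro h1
    have h2 : prj (N := N) M (x - y) = 0 := by rw [prj_sub, h1, sub_self]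
    exact sub_eq_zero.1 (eq_zero_of_prj h h2)
  · intro h1
    rw [h1]

lemma etr_prj {n : ℕ} (hn : 2 * n ≤ N) {x : V (M * N)} (hx : 2 * sz x < N) (b : Bool) :
    etr N n (prj M x, b) = etr (M * N) n (x, b) := by
  have hMN : N ≤ M * N := Nat.le_mul_of_pos_left N (NeZero.pos M)
  unfold etr one
  refine Finset.sum_congr rfl fun j hj => ?_
  rw [Finset.mem_range] at hj
  have h1 : sz (x - (j + 1) • (e1 : V (M * N))) < N := by
    have h2 := sz_add_le x (-((j + 1) • (e1 : V (M * N))))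
    rw [← sub_eq_add_neg, sz_neg, sz_ne1 (by omega)] at h2
    omega
  have h2 : prj (N := N) M ((j + 1) • (e1 : V (M * N))) = (j + 1) • e1 := by
    rw [prj_nsmul, prj_e1]
  simp only [Prod.mk.injEq]
  refine if_congr ?_ rfl rfl
  rw [← h2, prj_inj h1]

/-- the difference of the potentials of the straight path on the two tori -/
def kk (N M n : ℕ) [NeZero N] [NeZero M] (x : V (M * N)) : ℝ :=
  pot (fun e => (etr N n e : ℝ)) (prj (N := N) M x) - pot (fun e => (etr (M * N) n e : ℝ)) x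

lemma gr_kk {n : ℕ} (hn : 2 * n ≤ N) {x : V (M * N)} (hx : 2 * sz x < N) (b : Bool) :
    gr (kk N M n) (x, b) = bD (0 : V N) (n • e1) (prj M x, b) -
      bD (0 : V (M * N)) (n • e1) (x, b) := by
  have hMN : N ≤ M * N := Nat.le_mul_of_pos_left N (NeZero.pos M)
  rw [(path_etr' (N := N) hn).bD_eq, (path_etr' (N := M * N) (by omega)).bD_eq]
  rw [etr_prj hn hx b, gr_eq, gr_eq, gr_eq]
  unfold kk
  rw [prj_add, prj_eb]
  ring

lemma abs_gr_kk {n K : ℕ} (hn : 1 ≤ n) (hK : 4 * (K + n + 1) + 4 ≤ N) {x : V (M * N)}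
    (hx : sz x ≤ K) (b : Bool) : |gr (kk N M n) (x, b)| ≤ (1 + 32 * CG) / N := by
  have hC := CG_pos
  have hN := N_pos_real (N := N)
  have hMN : N ≤ M * N := Nat.le_mul_of_pos_left N (NeZero.pos M)
  have hMN' : (N : ℝ) ≤ ((M * N : ℕ) : ℝ) := by exact_mod_cast hMN
  rw [gr_kk (by omega) (by omega)]
  set q : V (M * N) := n • e1 with hq
  have hpq : prj (N := N) M q = n • e1 := by rw [hq, prj_nsmul, prj_e1]
  have hsq : sz q = n := sz_ne1 (by omega)
  have hv := v_etr (N := N) (n := n) (by omega)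
  have hv' := v_etr (N := M * N) (n := n) (by omega)
  rw [← hq] at hv'
  have hph : ∀ y : V (M * N), ph (0 : V N) (n • e1) (prj M y) - ph 0 q y =
      HG N M (y - q) - HG N M y := by
    intro y
    unfold ph HG
    rw [← hpq, ← prj_sub, sub_zero, sub_zero]
    ring
  set J : ℕ := K + n + 1 with hJ
  have hD : ∀ e : V (M * N), e = e1 ∨ e = e2 → ∀ y : V (M * N), sz y ≤ J →
      |D e (HG N M) y| ≤ 16 * CG / N := by
    intro e he y hy
    -- the maximum principle on the largest box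
    have h1 := D_HG (N := N) (M := M) he (K := (N - 4) / 4) (by omega) (x := y) (by omega)
    refine h1.trans ?_
    rw [div_le_div_iff₀ (by positivity) hN]
    have h2 : (N : ℝ) ≤ 8 * (1 + (((N - 4) / 4 : ℕ) : ℝ)) := by
      have : N ≤ 8 * (1 + (N - 4) / 4) := by omega
      exact_mod_cast this
    nlinarith
  have hsz : ∀ e : V (M * N), e = e1 ∨ e = e2 → sz (x - e) ≤ K + 1 ∧ sz (x - e - q) ≤ J := by
    intro e he
    have h1 := sz_nb x
    have h2 : sz (x - e) ≤ sz x + 1 := by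
      rcases he with rfl | rfl
      · exact h1.2.1
      · exact h1.2.2.2
    have h3 := sz_add_le (x - e) (-q)
    rw [← sub_eq_add_neg, sz_neg, hsq] at h3
    omega
  have hcst : 0 ≤ (n : ℝ) / (N : ℝ) ^ 2 - n / ((M * N : ℕ) : ℝ) ^ 2 ∧
      (n : ℝ) / (N : ℝ) ^ 2 - n / ((M * N : ℕ) : ℝ) ^ 2 ≤ 1 / N := by
    have hn' : (0 : ℝ) < n := by exact_mod_cast hn
    have a1 : (n : ℝ) / ((M * N : ℕ) : ℝ) ^ 2 ≤ (n : ℝ) / (N : ℝ) ^ 2 := by
      refine div_le_div_of_nonneg_left hn'.le (by positivity) ?_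
      exact pow_le_pow_left₀ hN.le hMN' 2
    have a2 : 0 ≤ (n : ℝ) / ((M * N : ℕ) : ℝ) ^ 2 := by positivity
    have a3 : (n : ℝ) / (N : ℝ) ^ 2 ≤ 1 / N := by
      rw [div_le_div_iff₀ (by positivity) hN]
      have : (n : ℝ) ≤ N := by exact_mod_cast (by omega : n ≤ N)
      nlinarith
    constructor <;> linarith
  unfold bD jD
  rw [hv.1, hv.2, hv'.1, hv'.2]
  cases b
  · simp only [rot_false, cst_false]
    have h1 := hph x
    have h2 := hph (x - e2)
    rw [prj_sub, prj_e2] at h2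
    have h3 : (ph (0 : V N) (n • e1) (prj M x - e2) - ph (0 : V N) (n • e1) (prj M x) +
        -((0 : ℤ) : ℝ) / (N : ℝ) ^ 2) - (ph 0 q (x - e2) - ph 0 q x +
        -((0 : ℤ) : ℝ) / ((M * N : ℕ) : ℝ) ^ 2) =
        D e2 (HG N M) (x - e2) - D e2 (HG N M) (x - e2 - q) := by
      have e3 : x - e2 + e2 = x := sub_add_cancel _ _
      have e4 : x - e2 - q + e2 = x - q := by abel
      unfold D
      rw [e3, e4]
      have : (ph (0 : V N) (n • e1) (prj M x - e2) - ph (0 : V N) (n • e1) (prj M x) +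
        -((0 : ℤ) : ℝ) / (N : ℝ) ^ 2) - (ph 0 q (x - e2) - ph 0 q x +
        -((0 : ℤ) : ℝ) / ((M * N : ℕ) : ℝ) ^ 2) =
        (ph (0 : V N) (n • e1) (prj M x - e2) - ph 0 q (x - e2)) -
          (ph (0 : V N) (n • e1) (prj M x) - ph 0 q x) := by
        push_cast
        ring
      rw [this, h1, h2]
      ring
    rw [h3]
    have hs := hsz e2 (Or.inr rfl)
    have b1 := hD e2 (Or.inr rfl) (x - e2) (by omega)
    have b2 := hD e2 (Or.inr rfl) (x - e2 - q) hs.2
    refine (abs_sub _ _).trans ?_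
    have e5 : (1 + 32 * CG) / (N : ℝ) = 1 / N + 16 * CG / N + 16 * CG / N := by ring
    rw [e5]
    have : 0 ≤ 1 / (N : ℝ) := by positivity
    linarith
  · simp only [rot_true, cst_true]
    have h1 := hph x
    have h2 := hph (x - e1)
    rw [prj_sub, prj_e1] at h2
    have h3 : (ph (0 : V N) (n • e1) (prj M x) - ph (0 : V N) (n • e1) (prj M x - e1) +
        ((n : ℤ) : ℝ) / (N : ℝ) ^ 2) - (ph 0 q x - ph 0 q (x - e1) +
        ((n : ℤ) : ℝ) / ((M * N : ℕ) : ℝ) ^ 2) =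
        (D e1 (HG N M) (x - e1 - q) - D e1 (HG N M) (x - e1)) +
        ((n : ℝ) / (N : ℝ) ^ 2 - n / ((M * N : ℕ) : ℝ) ^ 2) := by
      have e3 : x - e1 + e1 = x := sub_add_cancel _ _
      have e4 : x - e1 - q + e1 = x - q := by abel
      unfold D
      rw [e3, e4]
      have : (ph (0 : V N) (n • e1) (prj M x) - ph (0 : V N) (n • e1) (prj M x - e1) +
        ((n : ℤ) : ℝ) / (N : ℝ) ^ 2) - (ph 0 q x - ph 0 q (x - e1) +
        ((n : ℤ) : ℝ) / ((M * N : ℕ) : ℝ) ^ 2) =
        (ph (0 : V N) (n • e1) (prj M x) - ph 0 q x) -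
          (ph (0 : V N) (n • e1) (prj M x - e1) - ph 0 q (x - e1)) +
          ((n : ℝ) / (N : ℝ) ^ 2 - n / ((M * N : ℕ) : ℝ) ^ 2) := by
        push_cast
        ring
      rw [this, h1, h2]
      ring
    rw [h3]
    have hs := hsz e1 (Or.inl rfl)
    have b1 := hD e1 (Or.inl rfl) (x - e1) (by omega)
    have b2 := hD e1 (Or.inl rfl) (x - e1 - q) hs.2
    have e5 : (1 + 32 * CG) / (N : ℝ) = 1 / N + 16 * CG / N + 16 * CG / N := by ring
    rw [e5]
    rw [abs_le] at b1 b2 ⊢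
    constructor <;> linarith [hcst.1, hcst.2]

lemma lp_kk {n : ℕ} (hn : 2 * n ≤ N) {x : V (M * N)} (hx : 2 * (sz x + 1) < N) :
    lp (kk N M n) x = 0 := by
  have hs := sz_nb x
  have h1 := dv_gr (kk N M n) x
  have h2 : dv (gr (kk N M n)) x = 0 := by
    have a1 := dv_bD (0 : V N) (n • e1) (prj M x)
    have a2 := dv_bD (0 : V (M * N)) (n • e1) x
    unfold dv at a1 a2 ⊢
    rw [gr_kk hn (by omega), gr_kk hn (by omega), gr_kk hn (by omega), gr_kk hn (by omega),
      prj_sub, prj_sub, prj_e1, prj_e2]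
    linarith
  linarith

lemma abs_kk {n : ℕ} (hn : 1 ≤ n) (hN : 64 * n ≤ N) {x : V (M * N)} (hx : sz x ≤ N / 4) :
    |kk N M n x| ≤ 4 * CG := by
  have hC := CG_pos
  have hMN : N ≤ M * N := Nat.le_mul_of_pos_left N (NeZero.pos M)
  refine max_abs (K := N / 4) (by omega) (fun y hy => lp_kk (by omega) (by omega)) ?_ hx
  intro y hy
  have h1 := (path_etr' (N := N) (n := n) (by omega)).pot_le (R := 2 * n + 2) le_rfl
    (x := prj M y) (by rw [sub_zero, sz_prj (by omega)]; omega)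
  have h2 := (path_etr' (N := M * N) (n := n) (by omega)).pot_le (R := 2 * n + 2) le_rfl
    (x := y) (by rw [sub_zero]; omega)
  unfold kk
  refine (abs_sub _ _).trans ?_
  linarith


/-! ### the comparison -/

/-- extension by zero to the larger torus -/
def ext (M : ℕ) [NeZero M] (β : V N × Bool → ℝ) (e : V (M * N) × Bool) : ℝ :=
  if 4 * sz e.1 ≤ N then β (prj M e.1, e.2) else 0

lemma dec_prj (F : ℤ → ℤ → ℝ) {p x : V (M * N)} (h : 2 * sz (x - p) < N) :
    dec F (prj (N := N) M p) (prj M x) = dec F p x := by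
  have h1 : 2 * (x - p).1.valMinAbs.natAbs < N := by
    unfold sz at h
    omega
  have h2 : 2 * (x - p).2.valMinAbs.natAbs < N := by
    unfold sz at h
    omega
  have e1 : (prj (N := N) M x - prj M p).1.valMinAbs = (x - p).1.valMinAbs := by
    rw [← prj_sub]
    exact vma_pr1 h1
  have e2 : (prj (N := N) M x - prj M p).2.valMinAbs = (x - p).2.valMinAbs := by
    rw [← prj_sub]
    exact vma_pr1 h2
  unfold dec
  rw [e1, e2]

lemma U_prj (m l : ℕ) {x : V (M * N)} (h : 2 * sz x < N) :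
    U m l (prj (N := N) M x) = U m l x := by
  unfold U
  rw [sz_prj h]

/-- the cut pair -/
def gcut (N r : ℕ) [NeZero N] (x : V N) : ℝ :=
  (1 - U (4 * r) (4 * r) (x - 0)) * pot (fun e => (etr N r e : ℝ)) x

/-- the correction on the larger torus -/
def gext (N M r : ℕ) [NeZero N] [NeZero M] (x : V (M * N)) : ℝ :=
  U (4 * r) (4 * r) (x - 0) * kk N M r x - gcut (M * N) r x

/-- **extension of the cut pair** -/
theorem ext_cfg {l r : ℕ} {F0 F1 : ℤ → ℤ → ℝ} (h0 : SuppD l F0) (h1 : SuppD l F1) (hl : 1 ≤ l)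
    (hlr : 256 * l ≤ r) (hrN : 64 * r ≤ N) :
    ext M (cfg F0 F1 (0 : V N) (r • e1) (fun x => -gcut N r x)) =
      cfg F0 F1 (0 : V (M * N)) (r • e1) (gext N M r) := by
  have hMN : N ≤ M * N := Nat.le_mul_of_pos_left N (NeZero.pos M)
  funext e
  obtain ⟨x, b⟩ := e
  have hst := sz_step x b
  have hsq : sz (r • (e1 : V (M * N))) = r := sz_ne1 (by omega)
  have hpq : prj (N := N) M (r • e1) = r • e1 := by rw [prj_nsmul, prj_e1]
  have hp0 : prj (N := N) M 0 = 0 := prj_zero M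
  unfold ext
  by_cases h : 4 * sz x ≤ N
  · rw [if_pos h]
    have hx : 2 * sz x < N := by omega
    have hx' : 2 * sz (x + eb b) < N := by omega
    have q1 := sz_add_le x (-(r • (e1 : V (M * N))))
    rw [← sub_eq_add_neg, sz_neg, hsq] at q1
    have q2 := sz_add_le (x + eb b) (-(r • (e1 : V (M * N))))
    rw [← sub_eq_add_neg, sz_neg, hsq] at q2
    have d0 : gr (dec F0 (0 : V N)) (prj M x, b) = gr (dec F0 (0 : V (M * N))) (x, b) := by
      rw [gr_eq, gr_eq, ← prj_eb (N := N) M b, ← prj_add]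
      conv_lhs => rw [← hp0]
      rw [dec_prj F0 (by rw [sub_zero]; omega), dec_prj F0 (by rw [sub_zero]; omega)]
    have d1 : gr (dec F1 (r • (e1 : V N))) (prj M x, b) =
        gr (dec F1 (r • (e1 : V (M * N)))) (x, b) := by
      rw [gr_eq, gr_eq, ← prj_eb (N := N) M b, ← prj_add]
      conv_lhs => rw [← hpq]
      rw [dec_prj F1 (by omega), dec_prj F1 (by omega)]
    have d2 := gr_kk (N := N) (M := M) (n := r) (by omega) hx b
    have hs1 := U_prj (N := N) (M := M) (4 * r) (4 * r) hx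
    have hs2 := U_prj (N := N) (M := M) (4 * r) (4 * r) hx'
    have d3 : gr (fun x => -gcut N r x) (prj (N := N) M x, b) =
        -((1 - U (4 * r) (4 * r) (x + eb b)) *
            pot (fun e => (etr N r e : ℝ)) (prj M (x + eb b))) +
          (1 - U (4 * r) (4 * r) x) * pot (fun e => (etr N r e : ℝ)) (prj M x) := by
      rw [gr_eq, ← prj_eb (N := N) M b, ← prj_add]
      unfold gcut
      rw [sub_zero, sub_zero, hs1, hs2]
      ring
    have d4 : gr (gext N M r) (x, b) =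
        (U (4 * r) (4 * r) (x + eb b) * kk N M r (x + eb b) -
          (1 - U (4 * r) (4 * r) (x + eb b)) *
            pot (fun e => (etr (M * N) r e : ℝ)) (x + eb b)) -
        (U (4 * r) (4 * r) x * kk N M r x -
          (1 - U (4 * r) (4 * r) x) * pot (fun e => (etr (M * N) r e : ℝ)) x) := by
      rw [gr_eq]
      unfold gext gcut
      rw [sub_zero, sub_zero]
    have d5 : gr (kk N M r) (x, b) = kk N M r (x + eb b) - kk N M r x := gr_eq _ _ _
    have d6 : ∀ y : V (M * N), kk N M r y = pot (fun e => (etr N r e : ℝ)) (prj (N := N) M y) -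
      pot (fun e => (etr (M * N) r e : ℝ)) y := fun y => rfl
    unfold cfg
    rw [d0, d1, d3, d4]
    rw [d5] at d2
    rw [d6, d6] at d2 ⊢
    linear_combination -d2
  · rw [if_neg h]
    have g1 := sz_add_le (x - r • (e1 : V (M * N))) (r • e1)
    rw [sub_add_cancel, hsq] at g1
    have u1 : U (4 * r) (4 * r) (x - 0) = 0 := U_zero (by rw [sub_zero]; omega)
    have u2 : U (4 * r) (4 * r) (x + eb b - 0) = 0 := U_zero (by rw [sub_zero]; omega)
    have c1 : gr (gext N M r) (x, b) = -bD (0 : V (M * N)) (r • e1) (x, b) := by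
      have h2 := (path_etr' (N := M * N) (n := r) (by omega)).bD_eq (x, b)
      have h3 : etr (M * N) r (x, b) = 0 := by
        by_contra h4
        have h5 := (path_etr' (N := M * N) (n := r) (by omega)).sup _ h4
        rw [sub_zero] at h5
        simp only at h5
        omega
      rw [h2, h3, gr_eq, gr_eq]
      unfold gext gcut
      rw [u1, u2]
      push_cast
      ring
    unfold cfg
    rw [gr_dec_zero h0 b (by rw [sub_zero]; omega), gr_dec_zero h1 b (by omega), c1]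
    ring

lemma gcut_GB {r : ℕ} (hr : 1 ≤ r) (hrN : 64 * r ≤ N) :
    GB ((1 + 10 * CG) / r) (gcut N r) ∧ ∀ x, |gcut N r x| ≤ 2 * CG := by
  have hC := CG_pos
  have hr0 : (0 : ℝ) < r := by exact_mod_cast hr
  have h := cut_path (path_etr' (N := N) (n := r) (by omega)) (R := 4 * r) (by omega) (by omega)
  refine ⟨h.2.1.mono ?_, h.2.2.1⟩
  refine div_le_div_of_nonneg_left (by positivity) hr0 ?_
  push_cast
  linarith

lemma gcut_zero {l r : ℕ} {F0 F1 : ℤ → ℤ → ℝ} (h0 : SuppD l F0) (h1 : SuppD l F1) (hl : 1 ≤ l)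
    (hlr : 256 * l ≤ r) (hrN : 64 * r ≤ N) (e : V N × Bool) (he : N < 4 * sz e.1) :
    cfg F0 F1 (0 : V N) (r • e1) (fun x => -gcut N r x) e = 0 := by
  obtain ⟨x, b⟩ := e
  simp only at he
  have hsq : sz (r • (e1 : V N)) = r := sz_ne1 (by omega)
  have g1 := sz_add_le (x - r • (e1 : V N)) (r • e1)
  rw [sub_add_cancel, hsq] at g1
  have h := (cut_path (path_etr' (N := N) (n := r) (by omega)) (R := 4 * r) (by omega)
    (by omega)).2.2.2 x b (by rw [sub_zero]; omega)
  have h2 : gr (fun x => -gcut N r x) (x, b) = -bD (0 : V N) (r • e1) (x, b) := by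
    rw [← h]
    exact gr_neg (gcut N r) (x, b)
  unfold cfg
  rw [gr_dec_zero h0 b (by rw [sub_zero]; omega), gr_dec_zero h1 b (by omega), h2]
  ring

lemma gext_GB {r : ℕ} (hr : 1 ≤ r) (hrN : 64 * r ≤ N) :
    GB (3 * (1 + 10 * CG) / r) (gext N M r) ∧ ∀ x, |gext N M r x| ≤ 6 * CG := by
  have hC := CG_pos
  have hMN : N ≤ M * N := Nat.le_mul_of_pos_left N (NeZero.pos M)
  have hr0 : (0 : ℝ) < r := by exact_mod_cast hr
  have hN := N_pos_real (N := N)
  have hg := gcut_GB (N := M * N) hr (by omega)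
  have h1 := GB.cut (w := (0 : V (M * N))) (m := 8 * r + 1) (k := 4 * r) (l := 4 * r)
    (s := (1 + 32 * CG) / N) (B := 4 * CG) (f := kk N M r) (by omega) (by omega) (by positivity)
    (fun x b hx => abs_gr_kk hr (K := 8 * r + 1) (by omega) (by rwa [sub_zero] at hx) b)
    (fun x hx => abs_kk hr hrN (by rw [sub_zero] at hx; omega))
  constructor
  · refine (h1.sub hg.1).mono ?_
    have a1 : (1 + 32 * CG) / (N : ℝ) ≤ (1 + 10 * CG) / r := by
      rw [div_le_div_iff₀ hN hr0]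
      have : 64 * (r : ℝ) ≤ N := by exact_mod_cast hrN
      have h5 : (1 + 32 * CG) * (r : ℝ) ≤ 64 * (1 + 10 * CG) * r :=
        mul_le_mul_of_nonneg_right (by linarith) hr0.le
      have h6 : 64 * (1 + 10 * CG) * (r : ℝ) ≤ (1 + 10 * CG) * N := by
        have := mul_le_mul_of_nonneg_left this (by positivity : 0 ≤ 1 + 10 * CG)
        linarith
      linarith
    have a2 : 4 * CG / ((4 * r : ℕ) : ℝ) ≤ (1 + 10 * CG) / r := by
      rw [div_le_div_iff₀ (by positivity) hr0]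
      push_cast
      have : 0 < CG * r := by positivity
      nlinarith
    have e : 3 * (1 + 10 * CG) / (r : ℝ) = (1 + 10 * CG) / r + (1 + 10 * CG) / r +
        (1 + 10 * CG) / r := by ring
    rw [e]
    linarith
  · intro x
    unfold gext
    refine (abs_sub _ _).trans ?_
    have a1 := hg.2 x
    have a2 : |U (4 * r) (4 * r) (x - 0) * kk N M r x| ≤ 4 * CG := by
      rcases le_or_gt (sz x) (N / 4) with h | h
      · rw [abs_mul]
        calc _ ≤ 1 * |kk N M r x| := mul_le_mul_of_nonneg_right (abs_U _ _ _) (abs_nonneg _)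
          _ ≤ _ := by rw [one_mul]; exact abs_kk hr hrN h
      · rw [U_zero (by rw [sub_zero]; omega), zero_mul, abs_zero]
        positivity
    linarith

end

section

variable {N : ℕ} [NeZero N] {M : ℕ} [NeZero M] {l r : ℕ} {Λ ε₁ ε₂ ε₃ : ℝ} {D0 D1 : Dec}
  {ρ : (V N × Bool → ℝ) → ℝ} {ρ' : (V (M * N) × Bool → ℝ) → ℝ}

lemma eM_nonneg (H : Sys N l r Λ ε₁ ε₂ ε₃ D0 D1 ρ) (hΛ : 0 ≤ Λ) {F0 F1 : ℤ → ℤ → ℝ}
    (h0 : F0 ∈ D0) (h1 : F1 ∈ D1) {p q : V N} (hf : Far r p q) :
    0 ≤ eB N l ε₂ ε₃ ∧ 0 ≤ 1000000000 * (1 + CG) * (l / r) * ε₁ := by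
  have hC := CG_pos
  have h2 := H.eps hΛ
  have h3 := H.eps1 hΛ h0 h1 hf
  unfold eB
  constructor
  · have := h2.1
    have := h2.2
    positivity
  · positivity

/-- **the same pair on the tori `N` and `M N`** -/
theorem Sys.torus (H : Sys N l r Λ ε₁ ε₂ ε₃ D0 D1 ρ) (H' : Sys (M * N) l r Λ ε₁ ε₂ ε₃ D0 D1 ρ')
    (hX : ∀ β : V N × Bool → ℝ, KK l r Λ D0 D1 β → (∀ e, N < 4 * sz e.1 → β e = 0) →
      KK l r Λ D0 D1 (ext M β) → |ρ' (ext M β) - ρ β| ≤ ε₃)
    {F0 F1 : ℤ → ℤ → ℝ} (h0 : F0 ∈ D0) (h1 : F1 ∈ D1)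
    (hΛ : 10000000000 * (1 + CG) ≤ Λ) (hr : 10000000000 * (1 + CG) * l ≤ r) :
    |sg ρ' F0 F1 0 (r • e1) - sg ρ F0 F1 0 (r • e1)| ≤ 3 * eM (M * N) l r ε₁ ε₂ ε₃ := by
  have hC := CG_pos
  have hMN : N ≤ M * N := Nat.le_mul_of_pos_left N (NeZero.pos M)
  have hl4 := H.hl
  have hl0 : 0 < l := by omega
  have hlr := H.hlr
  have hrN := H.hrN
  have hl' : (0 : ℝ) < l := by exact_mod_cast hl0
  have hr0 : (0 : ℝ) < r := by exact_mod_cast (by omega : 0 < r)
  have hΛ0 : 0 ≤ Λ := by nlinarith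
  have hf : Far r (0 : V N) (r • e1) := by
    unfold Far
    rw [sub_zero, sz_ne1 (by omega)]
    omega
  have hf' : Far r (0 : V (M * N)) (r • e1) := by
    unfold Far
    rw [sub_zero, sz_ne1 (by omega)]
    omega
  have hg := gcut_GB (N := N) (r := r) (by omega) hrN
  have hg' := gext_GB (N := N) (M := M) (r := r) (by omega) hrN
  set L : ℝ := 3 * (1 + 10 * CG) with hL
  have hL0 : 0 ≤ L := by positivity
  have hgL : GB (L / r) (fun x => -gcut N r x) := by
    refine (hg.1.mono ?_).neg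
    exact div_le_div_of_nonneg_right (by rw [hL]; nlinarith) hr0.le
  have hLR : 10000000 * (1 + CG + L + 6 * CG) ≤ 10000000000 * (1 + CG) := by
    rw [hL]
    nlinarith
  have t1 := H.lr h0 h1 hf (g0 := fun _ => 0) (g := fun x => -gcut N r x) (L := L)
    (B := 6 * CG) hL0 (GB.zero (by positivity)) hgL
    (fun x => by rw [abs_neg]; exact (hg.2 x).trans (by linarith)) (by linarith)
    (le_trans (mul_le_mul_of_nonneg_right hLR hl'.le) hr)
  have t2 := H'.lr h0 h1 hf' (g0 := fun _ => 0) (g := gext N M r) (L := L)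
    (B := 6 * CG) hL0 (GB.zero (by positivity)) hg'.1 hg'.2 (by linarith)
    (le_trans (mul_le_mul_of_nonneg_right hLR hl'.le) hr)
  have e1 : (fun x => (fun _ : V N => (0 : ℝ)) x + (fun x => -gcut N r x) x) =
      fun x => -gcut N r x := by
    funext x
    simp
  have e2 : (fun x => (fun _ : V (M * N) => (0 : ℝ)) x + gext N M r x) = gext N M r := by
    funext x
    simp
  rw [e1] at t1
  rw [e2] at t2
  have hk1 : KK l r Λ D0 D1 (cfg F0 F1 (0 : V N) (r • H817.e1) (fun x => -gcut N r x)) :=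
    KK.core' h0 h1 hf (hgL.rl hL0 hl0 (by omega)) (by rw [hL]; nlinarith)
  have hk2 : KK l r Λ D0 D1 (cfg F0 F1 (0 : V (M * N)) (r • H817.e1) (gext N M r)) :=
    KK.core' h0 h1 hf' (hg'.1.rl hL0 hl0 (by omega)) (by rw [hL]; nlinarith)
  have t3 := hX _ hk1 (gcut_zero (H.supp0 _ h0) (H.supp1 _ h1) (by omega) hlr hrN)
    (by
      rw [ext_cfg (H.supp0 _ h0) (H.supp1 _ h1) (by omega) hlr hrN]
      exact hk2)
  rw [ext_cfg (H.supp0 _ h0) (H.supp1 _ h1) (by omega) hlr hrN] at t3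
  have p1 := eM_nonneg H hΛ0 h0 h1 hf
  have p2 := eM_nonneg H' hΛ0 h0 h1 hf'
  have p3 := H.eB_ge hΛ0
  have hε1 := H.eps1 hΛ0 h0 h1 hf
  have p4 : eB N l ε₂ ε₃ ≤ eB (M * N) l ε₂ ε₃ := by
    have h2 := H.eps hΛ0
    unfold eB
    refine mul_le_mul_of_nonneg_right ?_ (by linarith)
    refine mul_le_mul_of_nonneg_left ?_ (by norm_num)
    refine pow_le_pow_left₀ (by positivity) ?_ 2
    exact div_le_div_of_nonneg_right (by exact_mod_cast hMN) hl'.le
  have p5 : 800000 * (1 + CG + L) * (l / r) * ε₁ ≤ 1000000000 * (1 + CG) * (l / r) * ε₁ := by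
    refine mul_le_mul_of_nonneg_right (mul_le_mul_of_nonneg_right ?_ (by positivity)) hε1
    rw [hL]
    nlinarith
  unfold eM
  unfold sg
  rw [abs_le] at t1 t2 t3 ⊢
  constructor <;> linarith

/-- **STATG**: `ρ` is almost the same at `(N, r e1)` and `(M N, R e1)`, `r ≤ R ≤ 2 r`, for all
decorations -/
theorem statg (H : Sys N l r Λ ε₁ ε₂ ε₃ D0 D1 ρ) (H' : Sys (M * N) l r Λ ε₁ ε₂ ε₃ D0 D1 ρ')
    (hX : ∀ β : V N × Bool → ℝ, KK l r Λ D0 D1 β → (∀ e, N < 4 * sz e.1 → β e = 0) →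
      KK l r Λ D0 D1 (ext M β) → |ρ' (ext M β) - ρ β| ≤ ε₃)
    {s : ℕ} (hs : r = 64 * s) {F0 F1 : ℤ → ℤ → ℝ} (h0 : F0 ∈ D0) (h1 : F1 ∈ D1)
    (hΛ : 10000000000 * (1 + CG) ≤ Λ) (hr : 10000000000 * (1 + CG) * l ≤ r) {R : ℕ}
    (hR : r ≤ R) (hR2 : R ≤ 2 * r) :
    |sg ρ' F0 F1 0 (R • e1) - sg ρ F0 F1 0 (r • e1)| ≤
      12500 * eM (M * N) l r ε₁ ε₂ ε₃ := by
  have hC := CG_pos
  have hMN : N ≤ M * N := Nat.le_mul_of_pos_left N (NeZero.pos M)
  have hΛ0 : 0 ≤ Λ := by nlinarith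
  have t1 := H.torus H' hX h0 h1 hΛ hr
  have t2 := H'.SS_all hs h0 h1 hΛ hr hR hR2
  have hl4 := H.hl
  have hlr := H.hlr
  have hrN := H.hrN
  have hf' : Far r (0 : V (M * N)) (r • H817.e1) := by
    unfold Far
    rw [sub_zero, sz_ne1 (by omega)]
    omega
  have p2 := eM_nonneg H' hΛ0 h0 h1 hf'
  have p3 : 0 ≤ eM (M * N) l r ε₁ ε₂ ε₃ := by
    unfold eM
    linarith [p2.1, p2.2]
  rw [abs_le] at t1 t2 ⊢
  constructor <;> linarith

end

end

end Vale.Agent.P159.H817
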