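import Vale.Agent.P159.H817.St11
import Vale.Agent.P159.H817.St8
import Vale.Agent.P159.H883.Twr4
import Vale.Agent.P159.H770.DisL
import Vale.Agent.P159.H770.DisN

/-!
P159 / module STATG (helper817), part 12: the neutral partition function of an edge field:
gauge invariance, `ZE`, `EZ`, symmetries.
-/

set_option linter.unusedSectionVars false

namespace Vale.Agent.P159.H817

open Finset
open Vale.Agent.P159.TM.Spec (V)
open Vale.Agent.P159.H37 (qf re Zn ZM Zs)
open Vale.Agent.P159.H770 (wTD Ed eS eT grd eW)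
open Vale.Agent.P159.TM.SpecC (wT)
open Vale.Agent.P159.H353 (wI wI_neg)

noncomputable section

variable {N : ℕ} [NeZero N] {b t : ℝ}

/-- the edge field of the group element `(η, F)` -/
def eF (η : V N × Bool → ℤ) (F : V N → ℝ) (e : V N × Bool) : ℝ := (η e : ℝ) + gr F e

/-- the gradient of an integer field -/
abbrev gi (k : V N → ℤ) : V N × Bool → ℤ := grd (eS N) (eT N) k

lemma gi_cast (k : V N → ℤ) (e : V N × Bool) : ((gi k e : ℤ) : ℝ) = gr (re k) e := by
  obtain ⟨x, c⟩ := e
  have h1 : gi k (x, c) = k (eT N (x, c)) - k (eS N (x, c)) := rfl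
  rw [h1, gr_eq]
  have h2 : eT N (x, c) = x + eb c := by
    unfold eT eb e1 e2
    cases c <;> rfl
  have h3 : eS N (x, c) = x := rfl
  rw [h2, h3]
  unfold H37.re
  push_cast
  ring

/-- **gauge invariance** of the neutral partition function -/
theorem Zn_gauge (b : ℝ) (M : Matrix (V N) (V N) ℝ) (η : V N × Bool → ℤ) (k : V N → ℤ)
    (F : V N → ℝ) : Zn (wTD N b (η + gi k)) M F = Zn (wTD N b η) M (F + re k) := by
  unfold Zn
  refine intervalIntegral.integral_congr fun c _ => ?_
  have h := H770.ZM_gauge (s := eS N) (t := eT N) (I := fun _ => wI b) M η k fun x => F x + c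
  have e1 : (fun x => (F + re k) x + c) = (fun x => F x + c) + re k := by
    funext x
    simp only [Pi.add_apply]
    ring
  simp only [e1]
  exact h

/-- equal edge fields are related by a gauge transformation and a constant -/
lemma eF_inj {η η' : V N × Bool → ℤ} {F F' : V N → ℝ} (h : eF η F = eF η' F') :
    ∃ (k : V N → ℤ) (c : ℝ), η' = η + gi k ∧ ∀ x, F x = F' x + re k x + c := by
  set G : V N → ℝ := fun x => F x - F' x with hG
  have hg : ∀ e, gr G e = ((η' e - η e : ℤ) : ℝ) := by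
    intro e
    have h1 := congrFun h e
    unfold eF at h1
    have h2 : gr G e = gr F e - gr F' e := by
      obtain ⟨x, c⟩ := e
      rw [gr_eq, gr_eq, gr_eq, hG]
      ring
    rw [h2]
    push_cast
    linarith
  have hstep : ∀ (x : V N) (c : Bool), G (x + eb c) = G x + ((η' (x, c) - η (x, c) : ℤ) : ℝ) := by
    intro x c
    have h1 := hg (x, c)
    rw [gr_eq] at h1
    linarith
  have hf : ∀ e, gr (fun x => Int.fract (G x)) e = 0 := by
    rintro ⟨x, c⟩
    rw [gr_eq, hstep, Int.fract_add_intCast, sub_self]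
  have hc := const_of_gr hf
  refine ⟨fun x => ⌊G x⌋, Int.fract (G 0), ?_, ?_⟩
  · funext e
    have h1 : ((η' e - η e : ℤ) : ℝ) = ((gi (fun x => ⌊G x⌋) e : ℤ) : ℝ) := by
      rw [gi_cast, ← hg]
      obtain ⟨x, c⟩ := e
      rw [gr_eq, gr_eq]
      have h2 := Int.floor_add_fract (G x)
      have h3 := Int.floor_add_fract (G (x + eb c))
      have h4 := hc x
      have h5 := hc (x + eb c)
      unfold H37.re
      simp only
      linarith
    have h2 : η' e - η e = gi (fun x => ⌊G x⌋) e := by exact_mod_cast h1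
    simp only [Pi.add_apply]
    linarith
  · intro x
    have h2 := Int.floor_add_fract (G x)
    have h4 := hc x
    unfold H37.re
    simp only [hG] at h2 h4 ⊢
    linarith

/-- **the neutral partition function sees the edge field only** -/
theorem Zn_eF (hb : 0 < b) {M : Matrix (V N) (V N) ℝ} {η η' : V N × Bool → ℤ} {F F' : V N → ℝ}
    (h : eF η F = eF η' F') : Zn (wTD N b η) M F = Zn (wTD N b η') M F' := by
  obtain ⟨k, c, h1, h2⟩ := eF_inj h
  rw [h1, Zn_gauge]
  have e1 : F = fun x => (F' + re k) x + c := by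
    funext x
    rw [h2 x]
    rfl
  rw [e1, (H883.bw_wTD hb η).Zn_cs]

open Classical in
/-- the neutral partition function of an edge field at mass `t` -/
def ZE (N : ℕ) [NeZero N] (b t : ℝ) (β : V N × Bool → ℝ) : ℝ :=
  if h : ∃ X : (V N × Bool → ℤ) × (V N → ℝ), eF X.1 X.2 = β then
    Zn (wTD N b h.choose.1) (t • (1 : Matrix (V N) (V N) ℝ)) h.choose.2 else 1

theorem ZE_eF (hb : 0 < b) (η : V N × Bool → ℤ) (F : V N → ℝ) :
    ZE N b t (eF η F) = Zn (wTD N b η) (t • (1 : Matrix (V N) (V N) ℝ)) F := by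
  have h : ∃ X : (V N × Bool → ℤ) × (V N → ℝ), eF X.1 X.2 = eF η F := ⟨(η, F), rfl⟩
  unfold ZE
  rw [dif_pos h]
  exact Zn_eF hb h.choose_spec

/-- the edge fields of the group -/
def EG (β : V N × Bool → ℝ) : Prop := ∃ η F, β = eF η F

lemma gr_eF (F : V N → ℝ) : gr F = eF 0 F := by
  funext e
  unfold eF
  simp

lemma EG.gr (F : V N → ℝ) : EG (gr F) := ⟨0, F, gr_eF F⟩

lemma EG.add_gr {β : V N × Bool → ℝ} (h : EG β) (g : V N → ℝ) :
    EG fun e => β e + H817.gr g e := by
  obtain ⟨η, F, rfl⟩ := h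
  refine ⟨η, fun x => F x + g x, ?_⟩
  funext e
  unfold eF
  rw [gr_add]
  ring

lemma EG.bD (p q : V N) : EG (bD p q) := by
  obtain ⟨η, hη⟩ := exists_path' p q
  exact ⟨η, pot fun e => (η e : ℝ), funext fun e => hη.bD_eq e⟩

lemma EG.cfg (F0 F1 : ℤ → ℤ → ℝ) (p q : V N) (g : V N → ℝ) : EG (cfg F0 F1 p q g) := by
  have h := (((EG.bD p q).add_gr (dec F0 p)).add_gr (dec F1 q)).add_gr g
  have e : H817.cfg F0 F1 p q g = fun e => H817.bD p q e + H817.gr (dec F0 p) e +
      H817.gr (dec F1 q) e + H817.gr g e := by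
    funext e
    unfold H817.cfg
    ring
  rw [e]
  exact h

lemma KK.eg {l r : ℕ} {Λ : ℝ} {D0 D1 : Dec} {β : V N × Bool → ℝ} (h : KK l r Λ D0 D1 β) :
    EG β := by
  rcases h with ⟨g, -, rfl⟩ | ⟨F0, -, F1, -, p, q, g, -, -, rfl⟩
  · exact EG.gr g
  · exact EG.cfg F0 F1 p q g

theorem ZE_pos (hb : 0 < b) (ht : 0 < t) {β : V N × Bool → ℝ} (h : EG β) : 0 < ZE N b t β := by
  obtain ⟨η, F, rfl⟩ := h
  rw [ZE_eF hb]
  exact (H883.bw_wTD hb η).Zn_pos (H883.mf_scalar ht) F

/-- the energy of an edge field -/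
def EZ (N : ℕ) [NeZero N] (b t : ℝ) (β : V N × Bool → ℝ) : ℝ :=
  -Real.log (ZE N b t β / ZE N b t 0)

/-! ### symmetries -/

/-- permutations of the sites -/
theorem Zn_perm (b : ℝ) (σ : V N ≃ V N) {η η' : V N × Bool → ℤ}
    (h : ∀ k : V N → ℤ, wTD N b η' (k ∘ σ) = wTD N b η k) (F : V N → ℝ) :
    Zn (wTD N b η') (t • (1 : Matrix (V N) (V N) ℝ)) (F ∘ σ) =
      Zn (wTD N b η) (t • (1 : Matrix (V N) (V N) ℝ)) F := by
  have hq : ∀ u : V N → ℝ, qf (t • (1 : Matrix (V N) (V N) ℝ)) (u ∘ σ) =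
      qf (t • (1 : Matrix (V N) (V N) ℝ)) u := by
    intro u
    have h1 : ∀ u : V N → ℝ, qf (t • (1 : Matrix (V N) (V N) ℝ)) u = t * ∑ x, u x ^ 2 := by
      intro u
      rw [H37.qf_eq, Matrix.smul_mulVec, Matrix.one_mulVec, dotProduct_smul, smul_eq_mul]
      congr 1
      exact Finset.sum_congr rfl fun x _ => (pow_two (u x)).symm
    rw [h1, h1]
    congr 1
    exact Equiv.sum_comp σ fun x => u x ^ 2
  unfold Zn ZM
  refine intervalIntegral.integral_congr fun c _ => ?_
  rw [← (Equiv.arrowCongr σ.symm (Equiv.refl ℤ)).tsum_eq]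
  refine tsum_congr fun k => ?_
  have e1 : (Equiv.arrowCongr σ.symm (Equiv.refl ℤ)) k = k ∘ σ := by
    funext x
    simp [Equiv.arrowCongr]
  rw [e1, h]
  congr 3
  have e2 : (re (k ∘ σ) - fun x => (F ∘ σ) x + c) = (re k - fun x => F x + c) ∘ σ := by
    funext x
    rfl
  rw [e2, hq]

/-- change of sign -/
theorem Zn_negD (hb : 0 < b) (ht : 0 < t) (η : V N × Bool → ℤ) (F : V N → ℝ) :
    Zn (wTD N b (-η)) (t • (1 : Matrix (V N) (V N) ℝ)) (-F) =
      Zn (wTD N b η) (t • (1 : Matrix (V N) (V N) ℝ)) F := by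
  have hW := H770.gwf_wTD (N := N) hb
  have hM := H883.mf_scalar (N := N) ht
  rw [hW.Zn_eq hM 0, hW.Zn_eq hM 0, H37.qf_neg, Matrix.mulVec_neg, (hW.disF_nM hM 0).neg]

theorem EZ_neg (hb : 0 < b) (ht : 0 < t) {β : V N × Bool → ℝ} (h : EG β) :
    EZ N b t (fun e => -β e) = EZ N b t β := by
  obtain ⟨η, F, rfl⟩ := h
  have e1 : (fun e => -eF η F e) = eF (-η) (-F) := by
    funext ⟨x, c⟩
    unfold eF
    rw [gr_eq, gr_eq]
    simp only [Pi.neg_apply]
    push_cast
    ring
  unfold EZ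
  rw [e1, ZE_eF hb, ZE_eF hb, Zn_negD hb ht]

/-- translations -/
theorem EZ_tr (hb : 0 < b) {β : V N × Bool → ℝ} (a : V N) (h : EG β) :
    EZ N b t (fun e => β (e.1 + a, e.2)) = EZ N b t β := by
  obtain ⟨η, F, rfl⟩ := h
  have e1 : (fun e : V N × Bool => eF η F (e.1 + a, e.2)) =
      eF (fun e => η (e.1 + a, e.2)) (F ∘ Equiv.addRight a) := by
    funext ⟨x, c⟩
    unfold eF
    rw [gr_eq, gr_eq]
    simp only [Function.comp_apply, Equiv.coe_addRight]
    rw [add_right_comm]
  unfold EZ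
  rw [e1, ZE_eF hb, ZE_eF hb]
  congr 3
  refine Zn_perm b (Equiv.addRight a) (fun k => ?_) F
  rw [H770.wTD_eq, H770.wTD_eq]
  refine Fintype.prod_equiv (Equiv.addRight a) _ _ fun x => ?_
  simp only [Function.comp_apply, Equiv.coe_addRight]
  have c1 : x + (1, 0) + a = x + a + (1, 0) := by abel
  have c2 : x + (0, 1) + a = x + a + (0, 1) := by abel
  rw [c1, c2]

/-- the reflection -/
def sRe : V N ≃ V N := ⟨sR, sR, sR_sR, sR_sR⟩

theorem EZ_rf (hb : 0 < b) {β : V N × Bool → ℝ} (h : EG β) :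
    EZ N b t (Rf β) = EZ N b t β := by
  obtain ⟨η, F, rfl⟩ := h
  set η' : V N × Bool → ℤ := fun e => if e.2 then -η (sR e.1 - e2, true) else η (sR e.1, false)
    with hη'
  have E1 : Rf (eF η F) = eF η' (F ∘ (sRe (N := N))) := by
    funext ⟨x, c⟩
    cases c
    · rw [Rf_false]
      unfold eF
      rw [gr_false, gr_false]
      have c1 : sR x + e1 = sR (x + e1) := by rw [sR_add, sR_e1]
      rw [c1]
      simp [hη', sRe]
    · rw [Rf_true]
      unfold eF
      rw [gr_true, gr_true]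
      have c1 : sR (x + e2) = sR x - e2 := by rw [sR_add, sR_e2]; abel
      have c2 : sR x - e2 + e2 = sR x := by abel
      simp only [hη', sRe, if_true, Function.comp_apply, Equiv.coe_fn_mk]
      rw [c1, c2]
      push_cast
      ring
  unfold EZ
  rw [E1, ZE_eF hb, ZE_eF hb]
  congr 3
  refine Zn_perm b sRe (fun k => ?_) F
  rw [H770.wTD_eq, H770.wTD_eq, Finset.prod_mul_distrib, Finset.prod_mul_distrib]
  congr 1
  · refine Fintype.prod_equiv sRe _ _ fun x => ?_
    have c1 : sR (x + (1, 0)) = sR x + (1, 0) := by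
      have := sR_add x e1
      rw [sR_e1] at this
      exact this
    simp only [hη', sRe, Function.comp_apply, Equiv.coe_fn_mk, Bool.false_eq_true, if_false]
    rw [c1]
  · refine Fintype.prod_equiv (sRe.trans (Equiv.subRight e2)) _ _ fun x => ?_
    have c1 : sR (x + (0, 1)) = sR x - e2 := by
      have := sR_add x e2
      rw [sR_e2] at this
      rw [← sub_eq_add_neg] at this
      exact this
    have c2 : sR x - e2 + (0, 1) = sR x := by
      have : ((0, 1) : V N) = e2 := rfl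
      rw [this]
      abel
    simp only [hη', sRe, Function.comp_apply, Equiv.coe_fn_mk, if_true, Equiv.trans_apply,
      Equiv.subRight_apply]
    rw [c1, c2, ← wI_neg]
    congr 1
    ring

end

end Vale.Agent.P159.H817
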