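import Vale.Agent.P159.H817.St2

/-!
P159 / module STATG (helper817), part 3: algebra of the pair fields `bD p q`, cutting, decorated
configurations.
-/

set_option linter.unusedSectionVars false

namespace Vale.Agent.P159.H817

open Finset
open Vale.Agent.P159.TM.Spec (V)

noncomputable section

variable {N : ℕ} [NeZero N]

lemma N_pos_real : (0 : ℝ) < N := Nat.cast_pos.2 (NeZero.pos N)

/-! ### displacements -/

lemma vma_add {a b : ZMod N} (h : 2 * (a.valMinAbs.natAbs + b.valMinAbs.natAbs) < N) :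
    (a + b).valMinAbs = a.valMinAbs + b.valMinAbs := by
  refine (ZMod.valMinAbs_spec _ _).2 ⟨by push_cast; rfl, ?_⟩
  rw [Set.mem_Ioc]
  omega

lemma vma_neg {a : ZMod N} (h : 2 * a.valMinAbs.natAbs < N) : (-a).valMinAbs = -a.valMinAbs := by
  refine (ZMod.valMinAbs_spec _ _).2 ⟨by push_cast; rfl, ?_⟩
  rw [Set.mem_Ioc]
  omega

lemma natAbs_le_sz (x : V N) : x.1.valMinAbs.natAbs ≤ sz x ∧ x.2.valMinAbs.natAbs ≤ sz x := by
  unfold sz
  omega

lemma v_add {p q r : V N} (h : 2 * (sz (q - p) + sz (r - q)) < N) :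
    v1 p r = v1 p q + v1 q r ∧ v2 p r = v2 p q + v2 q r := by
  have h1 := natAbs_le_sz (q - p)
  have h2 := natAbs_le_sz (r - q)
  have e1 : (r - p).1 = (q - p).1 + (r - q).1 := by
    simp only [Prod.fst_sub]; ring
  have e2 : (r - p).2 = (q - p).2 + (r - q).2 := by
    simp only [Prod.snd_sub]; ring
  unfold v1 v2
  constructor
  · rw [e1, vma_add (by omega)]
  · rw [e2, vma_add (by omega)]

lemma v_neg {p q : V N} (h : 2 * sz (q - p) < N) : v1 q p = -v1 p q ∧ v2 q p = -v2 p q := by
  have h1 := natAbs_le_sz (q - p)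
  have e1 : (p - q).1 = -(q - p).1 := by simp only [Prod.fst_sub]; ring
  have e2 : (p - q).2 = -(q - p).2 := by simp only [Prod.snd_sub]; ring
  unfold v1 v2
  constructor
  · rw [e1, vma_neg (by omega)]
  · rw [e2, vma_neg (by omega)]

/-- additivity -/
theorem bD_add {p q r : V N} (h : 2 * (sz (q - p) + sz (r - q)) < N) (e : V N × Bool) :
    bD p r e = bD p q e + bD q r e := by
  obtain ⟨h1, h2⟩ := v_add h
  obtain ⟨x, b⟩ := e
  unfold bD jD ph
  rw [h1, h2]
  push_cast
  cases b
  · simp only [rot_false, cst_false]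
    ring
  · simp only [rot_true, cst_true]
    ring

theorem bD_neg {p q : V N} (h : 2 * sz (q - p) < N) (e : V N × Bool) :
    bD q p e = -bD p q e := by
  obtain ⟨h1, h2⟩ := v_neg h
  obtain ⟨x, b⟩ := e
  unfold bD jD ph
  rw [h1, h2]
  push_cast
  cases b
  · simp only [rot_false, cst_false]
    ring
  · simp only [rot_true, cst_true]
    ring

/-- translation -/
theorem bD_shift (p q a x : V N) (b : Bool) : bD (p + a) (q + a) (x + a, b) = bD p q (x, b) := by
  have h1 : v1 (p + a) (q + a) = v1 p q := by unfold v1; rw [add_sub_add_right_eq_sub]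
  have h2 : v2 (p + a) (q + a) = v2 p q := by unfold v2; rw [add_sub_add_right_eq_sub]
  unfold bD jD ph
  rw [h1, h2]
  have e : ∀ y z : V N, x + a - y - (z + a) = x - y - z := fun y z => by abel
  cases b
  · simp only [rot_false, cst_false, add_sub_add_right_eq_sub, e]
  · simp only [rot_true, cst_true, add_sub_add_right_eq_sub, e]

/-- bound -/
theorem bD_le (p q x : V N) (b : Bool) {ρ : ℕ} (hp : ρ ≤ sz (x - p)) (hq : ρ ≤ sz (x - q)) :
    |bD p q (x, b)| ≤ 1 / N + 4 * CG / (1 + ρ) := by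
  have hN := N_pos_real (N := N)
  have hC := CG_pos
  have h1 := jD_near p q (-(v2 p q : ℝ) / (N : ℝ) ^ 2) ((v1 p q : ℝ) / (N : ℝ) ^ 2) x b
  refine h1.trans ?_
  have hpr : (ρ : ℝ) ≤ sz (x - p) := by exact_mod_cast hp
  have hqr : (ρ : ℝ) ≤ sz (x - q) := by exact_mod_cast hq
  have a1 : 1 / (1 + (sz (x - q) : ℝ)) ≤ 1 / (1 + ρ) :=
    one_div_le_one_div_of_le (by positivity) (by linarith)
  have a2 : 1 / (1 + (sz (x - p) : ℝ)) ≤ 1 / (1 + ρ) :=
    one_div_le_one_div_of_le (by positivity) (by linarith)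
  have h3 : |-(v2 p q : ℝ) / (N : ℝ) ^ 2| + |(v1 p q : ℝ) / (N : ℝ) ^ 2| ≤ 1 / N := by
    rw [abs_div, abs_div, abs_neg, abs_of_pos (by positivity : (0 : ℝ) < (N : ℝ) ^ 2), ← add_div,
      div_le_div_iff₀ (by positivity) hN]
    have b1 := half_ge (q - p).1
    have b2 := half_ge (q - p).2
    have b3 : |(v2 p q : ℝ)| = ((q - p).2.valMinAbs.natAbs : ℝ) := by
      rw [Nat.cast_natAbs, Int.cast_abs]; rfl
    have b4 : |(v1 p q : ℝ)| = ((q - p).1.valMinAbs.natAbs : ℝ) := by
      rw [Nat.cast_natAbs, Int.cast_abs]; rfl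
    have b5 : ((q - p).2.valMinAbs.natAbs : ℝ) + ((q - p).1.valMinAbs.natAbs : ℝ) ≤ N := by
      have : (q - p).2.valMinAbs.natAbs + (q - p).1.valMinAbs.natAbs ≤ N := by omega
      exact_mod_cast this
    rw [b3, b4]
    nlinarith
  have h4 : 2 * CG * (1 / (1 + (sz (x - q) : ℝ)) + 1 / (1 + sz (x - p))) ≤ 4 * CG / (1 + ρ) := by
    have e : 4 * CG / (1 + (ρ : ℝ)) = 2 * CG * (1 / (1 + ρ) + 1 / (1 + ρ)) := by ring
    rw [e]
    exact mul_le_mul_of_nonneg_left (add_le_add a1 a2) (by positivity)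
  linarith

/-! ### cutting a pair -/

/-- the potential of a path is bounded away from the path -/
lemma IsPath.pot_le {p q : V N} {v w : ℤ} {L : ℕ} {η : V N × Bool → ℤ} (hη : IsPath p q v w L η)
    {R : ℕ} (hR : 2 * L + 2 ≤ R) {x : V N} (hx : R ≤ sz (x - p)) :
    |pot (fun e => (η e : ℝ)) x| ≤ 2 * CG := by
  have hC := CG_pos
  have h1 := pot_bound (η := fun e => (η e : ℝ)) (p := p) (L := L) hη.tot (fun e he => by
    refine hη.sup e ?_
    intro h0
    rw [h0] at he
    exact he (by simp)) (x := x) (ρ := R - L) (by omega)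
  refine h1.trans ?_
  rw [div_le_iff₀ (by positivity)]
  have h2 : (L : ℝ) ≤ 1 + ((R - L : ℕ) : ℝ) := by
    have : L ≤ 1 + (R - L) := by omega
    exact_mod_cast this
  nlinarith

/-- **cut** along a given path -/
theorem cut_path {p q : V N} {L : ℕ} {η : V N × Bool → ℤ}
    (hη : IsPath p q (v1 p q) (v2 p q) L η) {R : ℕ} (hR : 2 * L + 2 ≤ R) (hRN : R ≤ N) :
    (∀ x, sz (x - p) ≤ R → (1 - U R R (x - p)) * pot (fun e => (η e : ℝ)) x = 0) ∧
      GB ((1 + 10 * CG) / R) (fun x => (1 - U R R (x - p)) * pot (fun e => (η e : ℝ)) x) ∧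
      (∀ x, |(1 - U R R (x - p)) * pot (fun e => (η e : ℝ)) x| ≤ 2 * CG) ∧
      ∀ x b, 2 * R + 1 ≤ sz (x - p) →
        gr (fun x => (1 - U R R (x - p)) * pot (fun e => (η e : ℝ)) x) (x, b) =
          bD p q (x, b) := by
  have hC := CG_pos
  have hN := N_pos_real (N := N)
  set f : V N → ℝ := pot fun e => (η e : ℝ) with hf
  have hR1 : 1 ≤ R := by omega
  have hR0 : (0 : ℝ) < R := by exact_mod_cast hR1
  have hRN' : (R : ℝ) ≤ N := by exact_mod_cast hRN
  have hgrf : ∀ x b, L < sz (x - p) → gr f (x, b) = bD p q (x, b) := by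
    intro x b hx
    rw [hη.bD_eq (x, b)]
    have h0 : η (x, b) = 0 := by
      by_contra h
      have := hη.sup _ h
      simp only at this
      omega
    rw [h0]
    simp [hf]
  have hfb : ∀ x, R ≤ sz (x - p) → |f x| ≤ 2 * CG := fun x hx => hη.pot_le hR hx
  refine ⟨?_, ?_, ?_, ?_⟩
  · intro x hx
    show (1 - U R R (x - p)) * f x = 0
    rw [U_one hR1 hx]
    ring
  · rintro ⟨x, b⟩
    rcases Nat.lt_or_ge (sz (x - p)) R with h | h
    · -- both ends in the box
      have h1 : U R R (x - p) = 1 := U_one hR1 h.le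
      have h2 : U R R (x + eb b - p) = 1 := by
        refine U_one hR1 ?_
        have := (sz_step (x - p) b).2
        rw [add_sub_right_comm]
        omega
      rw [gr_eq, h1, h2]
      simp only [sub_self, zero_mul, abs_zero]
      positivity
    · rw [gr_mul]
      refine (abs_add_le _ _).trans ?_
      have a1 : |gr f (x, b)| ≤ 1 / N + 8 * CG / R := by
        rw [hgrf x b (by omega)]
        have hq : R - L ≤ sz (x - q) := by
          have h3 := sz_add_le (x - q) (q - p)
          rw [sub_add_sub_cancel] at h3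
          have h4 := hη.len
          omega
        refine (bD_le p q x b (ρ := R - L) (by omega) hq).trans ?_
        have h5 : (R : ℝ) ≤ 2 * (1 + ((R - L : ℕ) : ℝ)) := by
          have : R ≤ 2 * (1 + (R - L)) := by omega
          exact_mod_cast this
        have h6 : 4 * CG / (1 + ((R - L : ℕ) : ℝ)) ≤ 8 * CG / R := by
          rw [div_le_div_iff₀ (by positivity) hR0]
          nlinarith
        linarith
      have a2 : |1 - U R R (x + eb b - p)| ≤ 1 := by
        have := U_nonneg R R (x + eb b - p)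
        have := U_le_one R R (x + eb b - p)
        rw [abs_le]
        constructor <;> linarith
      have a3 : |gr (fun x => 1 - U R R (x - p)) (x, b)| ≤ 1 / R := by
        rw [gr_sub, gr_const, zero_sub, abs_neg]
        exact U_shift_GB R hR1 p (x, b)
      have a4 := hfb x h
      rw [abs_mul, abs_mul]
      have b1 : |1 - U R R (x + eb b - p)| * |gr f (x, b)| ≤ 1 / N + 8 * CG / R := by
        calc _ ≤ 1 * |gr f (x, b)| := mul_le_mul_of_nonneg_right a2 (abs_nonneg _)
          _ ≤ _ := by rw [one_mul]; exact a1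
      have b2 : |gr (fun x => 1 - U R R (x - p)) (x, b)| * |f x| ≤ 1 / R * (2 * CG) :=
        mul_le_mul a3 a4 (abs_nonneg _) (by positivity)
      have b3 : 1 / (N : ℝ) ≤ 1 / R := one_div_le_one_div_of_le hR0 hRN'
      have e : (1 + 10 * CG) / R = 1 / R + 8 * CG / R + 1 / R * (2 * CG) := by ring
      rw [e]
      linarith
  · intro x
    show |(1 - U R R (x - p)) * f x| ≤ 2 * CG
    rcases Nat.lt_or_ge (sz (x - p)) R with h | h
    · rw [U_one hR1 h.le, sub_self, zero_mul, abs_zero]
      positivity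
    · have h1 := hfb x h
      have := U_nonneg R R (x - p)
      have := U_le_one R R (x - p)
      have h2 : |1 - U R R (x - p)| ≤ 1 := by
        rw [abs_le]
        constructor <;> linarith
      rw [abs_mul]
      calc _ ≤ 1 * |f x| := mul_le_mul_of_nonneg_right h2 (abs_nonneg _)
        _ ≤ _ := by rw [one_mul]; exact h1
  · intro x b hx
    have h1 : U R R (x - p) = 0 := U_zero (by omega)
    have h2 : U R R (x + eb b - p) = 0 := by
      refine U_zero ?_
      have := (sz_step (x - p) b).1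
      rw [add_sub_right_comm]
      omega
    rw [← hgrf x b (by omega), gr_eq, gr_eq, h1, h2]
    ring

/-- **cut**: outside a box around the pair the field is the gradient of a small smooth function -/
theorem cut (p q : V N) {R : ℕ} (hR : 2 * l1 (q - p) + 2 ≤ R) (hRN : R ≤ N) :
    ∃ g : V N → ℝ, (∀ x, sz (x - p) ≤ R → g x = 0) ∧ GB ((1 + 10 * CG) / R) g ∧
      (∀ x, |g x| ≤ 2 * CG) ∧
      ∀ x b, 2 * R + 1 ≤ sz (x - p) → gr g (x, b) = bD p q (x, b) := by
  obtain ⟨η, hη⟩ := exists_path' p q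
  exact ⟨_, cut_path hη hR hRN⟩

/-! ### decorations -/

/-- the decoration `F` carried by the core `p` -/
def dec (F : ℤ → ℤ → ℝ) (p x : V N) : ℝ := F (x - p).1.valMinAbs (x - p).2.valMinAbs

/-- supported in the box of radius `l` -/
def SuppD (l : ℕ) (F : ℤ → ℤ → ℝ) : Prop := ∀ i j, F i j ≠ 0 → i.natAbs ≤ l ∧ j.natAbs ≤ l

lemma dec_zero {l : ℕ} {F : ℤ → ℤ → ℝ} (h : SuppD l F) {p x : V N} (hx : l < sz (x - p)) :
    dec F p x = 0 := by
  by_contra h1
  have h2 := h _ _ h1
  unfold sz at hx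
  omega

lemma gr_dec_zero {l : ℕ} {F : ℤ → ℤ → ℝ} (h : SuppD l F) {p x : V N} (b : Bool)
    (hx : l + 1 < sz (x - p)) : gr (dec F p) (x, b) = 0 := by
  have h1 := (sz_step (x - p) b).1
  rw [gr_eq, dec_zero h (by rw [add_sub_right_comm]; omega), dec_zero h (by omega), sub_self]

lemma dec_neg (F : ℤ → ℤ → ℝ) (p x : V N) : dec (fun i j => -F i j) p x = -dec F p x := rfl

lemma dec_shift (F : ℤ → ℤ → ℝ) (p a x : V N) : dec F (p + a) (x + a) = dec F p x := by
  unfold dec
  rw [add_sub_add_right_eq_sub]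

/-- **decorated configuration** -/
def cfg (F0 F1 : ℤ → ℤ → ℝ) (p q : V N) (g : V N → ℝ) (e : V N × Bool) : ℝ :=
  bD p q e + (gr (dec F0 p) e + gr (dec F1 q) e) + gr g e

lemma cfg_add (F0 F1 : ℤ → ℤ → ℝ) (p q : V N) (g h : V N → ℝ) (e : V N × Bool) :
    cfg F0 F1 p q (fun x => g x + h x) e = cfg F0 F1 p q g e + gr h e := by
  unfold cfg
  rw [gr_add]
  ring

lemma cfg_neg {F0 F1 : ℤ → ℤ → ℝ} {p q : V N} (h : 2 * sz (q - p) < N) (g : V N → ℝ)
    (e : V N × Bool) : -cfg F0 F1 p q g e =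
      cfg (fun i j => -F1 i j) (fun i j => -F0 i j) q p (fun x => -g x) e := by
  have h1 := bD_neg h e
  have h2 : gr (dec (fun i j => -F0 i j) p) e = -gr (dec F0 p) e := gr_neg _ e
  have h3 : gr (dec (fun i j => -F1 i j) q) e = -gr (dec F1 q) e := gr_neg _ e
  unfold cfg
  rw [h1, h2, h3, gr_neg]
  ring

lemma gr_shift (f : V N → ℝ) (a x : V N) (b : Bool) :
    gr (fun y => f (y - a)) (x + a, b) = gr f (x, b) := by
  rw [gr_eq, gr_eq, add_sub_cancel_right]
  congr 2
  abel

lemma cfg_shift (F0 F1 : ℤ → ℤ → ℝ) (p q a : V N) (g : V N → ℝ) (x : V N) (b : Bool) :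
    cfg F0 F1 (p + a) (q + a) (fun y => g (y - a)) (x + a, b) = cfg F0 F1 p q g (x, b) := by
  have h1 : ∀ (F : ℤ → ℤ → ℝ) (p : V N), gr (dec F (p + a)) (x + a, b) = gr (dec F p) (x, b) := by
    intro F p
    rw [gr_eq, gr_eq, dec_shift]
    have : x + a + eb b = x + eb b + a := by abel
    rw [this, dec_shift]
  unfold cfg
  rw [bD_shift, h1, h1, gr_shift]

/-! ### the reflection -/

/-- reflection of the vertices -/
def sR (x : V N) : V N := (x.1, -x.2)

/-- pull back of an edge field under the reflection -/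
def Rf (β : V N × Bool → ℝ) (e : V N × Bool) : ℝ :=
  if e.2 then -β (sR e.1 - e2, true) else β (sR e.1, false)

@[simp] lemma Rf_false (β : V N × Bool → ℝ) (x : V N) : Rf β (x, false) = β (sR x, false) := rfl
@[simp] lemma Rf_true (β : V N × Bool → ℝ) (x : V N) : Rf β (x, true) = -β (sR x - e2, true) := rfl

lemma sR_sR (x : V N) : sR (sR x) = x := by
  unfold sR
  ext <;> simp

lemma sR_add (x y : V N) : sR (x + y) = sR x + sR y := by
  unfold sR
  ext <;> simp
  ring

lemma sR_sub (x y : V N) : sR (x - y) = sR x - sR y := by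
  unfold sR
  ext <;> simp
  ring

lemma sR_e1 : sR (e1 : V N) = e1 := by unfold sR e1; ext <;> simp
lemma sR_e2 : sR (e2 : V N) = -e2 := by unfold sR e2; ext <;> simp

lemma sz_sR (x : V N) : sz (sR x) = sz x := by
  unfold sz sR
  simp only [ZMod.natAbs_valMinAbs_neg]

lemma G0_sR (x : V N) : G0 (sR x) = G0 x := by
  have h1 := G0_neg (sR x)
  unfold G0
  congr 1
  -- change `k` to its reflection
  rw [← Finset.sum_equiv (s := (univ : Finset (V N)).erase 0)
    (t := (univ : Finset (V N)).erase 0) (e := ⟨sR, sR, sR_sR, sR_sR⟩)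
    (f := fun k => TM.H764.cN (TM.H764.dt k (sR x)) / TM.H764.EE k)
    (g := fun k => TM.H764.cN (TM.H764.dt k x) / TM.H764.EE k)]
  · intro k
    rw [Finset.mem_erase, Finset.mem_erase]
    simp only [Finset.mem_univ, and_true]
    show k ≠ 0 ↔ sR k ≠ 0
    have h0 : sR k = 0 ↔ k = 0 := by
      constructor
      · intro h
        rw [← sR_sR k, h]
        unfold sR
        ext <;> simp
      · intro h
        rw [h]
        unfold sR
        ext <;> simp
    exact (not_congr h0).symm
  · intro k _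
    show TM.H764.cN (TM.H764.dt k (sR x)) / TM.H764.EE k =
      TM.H764.cN (TM.H764.dt (sR k) x) / TM.H764.EE (sR k)
    have e1 : TM.H764.dt k (sR x) = TM.H764.dt (sR k) x := by
      unfold TM.H764.dt sR
      simp
    have e2 : TM.H764.EE (sR k) = TM.H764.EE k := by
      unfold TM.H764.EE sR
      simp only [TM.H764.cN_neg]
    rw [e1, e2]

/-- the reflected face -/
def sF (p : V N) : V N := sR p - e2

lemma sF_sub (p q : V N) : sF q - sF p = sR (q - p) := by
  unfold sF
  rw [sR_sub]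
  abel

/-- the pair field under the reflection -/
theorem Rf_bD {p q : V N} (h : 2 * sz (q - p) < N) (e : V N × Bool) :
    Rf (bD p q) e = -bD (sF p) (sF q) e := by
  have h1 := natAbs_le_sz (q - p)
  have a1 : v1 (sF p) (sF q) = v1 p q := by
    unfold v1; rw [sF_sub]; rfl
  have a2 : v2 (sF p) (sF q) = -v2 p q := by
    unfold v2; rw [sF_sub]
    exact vma_neg (by omega)
  obtain ⟨x, b⟩ := e
  unfold bD jD ph
  rw [a1, a2]
  push_cast
  have g1 : ∀ y : V N, G0 (sR x - y) = G0 (x - sR y) := fun y => by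
    rw [← G0_sR (x - sR y), sR_sub, sR_sR]
  cases b
  · simp only [Rf_false, rot_false, cst_false]
    have b1 : ∀ p : V N, G0 (sR x - e2 - p) = G0 (x - sF p) := fun p => by
      have : sR x - e2 - p = sR x - (p + e2) := by abel
      rw [this, g1, sR_add, sR_e2, ← sub_eq_add_neg]
      rfl
    have b2 : ∀ p : V N, G0 (sR x - p) = G0 (x - e2 - sF p) := fun p => by
      rw [g1]
      unfold sF
      congr 1
      abel
    rw [b1, b1, b2, b2]
    ring
  · simp only [Rf_true, rot_true, cst_true]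
    have b1 : ∀ p : V N, G0 (sR x - e2 - p) = G0 (x - sF p) := fun p => by
      have : sR x - e2 - p = sR x - (p + e2) := by abel
      rw [this, g1, sR_add, sR_e2, ← sub_eq_add_neg]
      rfl
    have b2 : ∀ p : V N, G0 (sR x - e2 - e1 - p) = G0 (x - e1 - sF p) := fun p => by
      have : sR x - e2 - e1 - p = sR x - (p + e2 + e1) := by abel
      rw [this, g1, sR_add, sR_add, sR_e2, sR_e1]
      unfold sF
      congr 1
      abel
    rw [b1, b1, b2, b2]
    try ring

lemma Rf_gr (f : V N → ℝ) (e : V N × Bool) : Rf (gr f) e = gr (fun x => f (sR x)) e := by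
  obtain ⟨x, b⟩ := e
  cases b
  · simp only [Rf_false, gr_false]
    rw [sR_add, sR_e1]
  · simp only [Rf_true, gr_true]
    rw [sR_add, sR_e2, sub_add_cancel, ← sub_eq_add_neg]
    try ring

/-- the decoration under the reflection -/
def rfl2 (F : ℤ → ℤ → ℝ) (i j : ℤ) : ℝ := F i (1 - j)

lemma dec_sR {l : ℕ} {F : ℤ → ℤ → ℝ} (h : SuppD l F) (h' : SuppD l (rfl2 F)) (hl : 2 * l + 4 < N)
    (p x : V N) : dec F p (sR x) = dec (rfl2 F) (sF p) x := by
  have e1 : sR x - p = sR (x - sF p) + e2 := by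
    unfold sF
    rw [sR_sub, sR_sub, sR_sR, sR_e2]
    abel
  set z := x - sF p with hz
  have c1 : (sR x - p).1 = z.1 := by
    rw [e1]
    show z.1 + 0 = z.1
    ring
  have c2 : (sR x - p).2 = 1 - z.2 := by
    rw [e1]
    show -z.2 + 1 = 1 - z.2
    ring
  unfold dec
  rw [c1, c2]
  show F z.1.valMinAbs (1 - z.2).valMinAbs = F z.1.valMinAbs (1 - z.2.valMinAbs)
  have hzz := half_ge z.2
  by_cases hsm : z.2.valMinAbs.natAbs ≤ l + 1
  · have : (1 - z.2).valMinAbs = 1 - z.2.valMinAbs := by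
      refine (ZMod.valMinAbs_spec _ _).2 ⟨by push_cast; rfl, ?_⟩
      rw [Set.mem_Ioc]
      omega
    rw [this]
  · have g1 : F z.1.valMinAbs (1 - z.2.valMinAbs) = 0 := by
      by_contra h0
      have := (h' z.1.valMinAbs z.2.valMinAbs h0).2
      omega
    have g2 : F z.1.valMinAbs (1 - z.2).valMinAbs = 0 := by
      by_contra h0
      have h1 := (h _ _ h0).2
      have h2 := natAbs_add_le' (1 - z.2) (-1)
      have e3 : (1 - z.2) + -1 = -z.2 := by ring
      rw [e3, ZMod.natAbs_valMinAbs_neg, ZMod.natAbs_valMinAbs_neg] at h2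
      have h3 : (1 : ZMod N).valMinAbs.natAbs ≤ 1 := by
        have h4 : (1 : ZMod N).valMinAbs = 1 := by
          refine (ZMod.valMinAbs_spec _ _).2 ⟨by push_cast; rfl, ?_⟩
          rw [Set.mem_Ioc]
          omega
        rw [h4]
        rfl
      omega
    rw [g1, g2]

end

end Vale.Agent.P159.H817
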