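import Vale.Agent.P159.H817.St12
import Vale.Agent.P159.H462.In3Sum

/-!
P159 / module STATG (helper817), part 13: `ρ = EZ - Qf / 2` satisfies `Sys`.
-/

set_option linter.unusedSectionVars false

namespace Vale.Agent.P159.H817

open Finset
open Vale.Agent.P159.TM.Spec (V)
open Vale.Agent.P159.TM.H764 (EE EE_nonneg)
open Vale.Agent.P159.H37 (qf bf re Zn ZM Zs Rs Gm)
open Vale.Agent.P159.H770 (wTD Ed eS eT grd eW nwtD RsD)
open Vale.Agent.P159.TM.SpecC (wT)
open Vale.Agent.P159.TM.H104 (Lg Ex li)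
open Vale.Agent.P159.H963 (Pin Ank Anm Pn ntr nM nwt)

noncomputable section

variable {N : ℕ} [NeZero N] {b t a η : ℝ} {n : ℕ}

/-- the flat profile of helper972 gives the hypothesis of `flat_qf` -/
theorem flat_of_FL (ht : 0 < t) (hη : 0 ≤ η) (h : H972.FL b t a η N) {k : V N} (hk : k ≠ 0) :
    |Pin N b t k - a * EE k| ≤ (2 * η) * EE k * (1 + EE k / t) := by
  obtain ⟨z, a', hz, hzN, ha, hP⟩ := h
  have h1 := hP k hk
  have hE := EE_nonneg k
  have hN : (0 : ℝ) < N := by exact_mod_cast NeZero.pos N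
  have h2 := H462.EE_gap (N := N) hk
  have h3 : z ≤ η / 16 * EE k := by
    have h4 : z ≤ η / (N : ℝ) ^ 2 := by
      rw [le_div_iff₀ (by positivity)]
      exact hzN
    have h5 : η / (N : ℝ) ^ 2 = η / 16 * (16 / (N : ℝ) ^ 2) := by field_simp
    rw [h5] at h4
    exact h4.trans (mul_le_mul_of_nonneg_left h2 (by positivity))
  have e : Pin N b t k - a * EE k = (Pin N b t k - z - a' * EE k) + z + (a' - a) * EE k := by ring
  rw [e]
  refine (abs_add_le _ _).trans ((add_le_add (abs_add_le _ _) le_rfl).trans ?_)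
  rw [abs_of_nonneg hz, abs_mul, abs_of_nonneg hE]
  have h6 : |a' - a| * EE k ≤ η * EE k := mul_le_mul_of_nonneg_right ha hE
  have h7 : 0 ≤ η * EE k ^ 2 / t := by positivity
  have h8 : 2 * η * EE k * (1 + EE k / t) = 2 * η * EE k + 2 * (η * EE k ^ 2 / t) := by
    field_simp
  rw [h8]
  have h9 : 0 ≤ η * EE k := by positivity
  linarith

/-- the source of the background `F` -/
def Pt (t : ℝ) (F : V N → ℝ) : V N → ℝ := Matrix.mulVec (Pn : Matrix (V N) (V N) ℝ) (t • F)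

lemma ntr_sc (t : ℝ) : ntr (t • (1 : Matrix (V N) (V N) ℝ)) t = t • (Pn : Matrix (V N) (V N) ℝ) := by
  unfold H963.Pn ntr
  rw [smul_sub]
  congr 1
  ext x y
  simp only [Matrix.of_apply, Matrix.smul_apply, smul_eq_mul]
  ring

lemma ntr_sc_mulVec (t : ℝ) (F : V N → ℝ) :
    Matrix.mulVec (ntr (t • (1 : Matrix (V N) (V N) ℝ)) t) F = Pt t F := by
  unfold Pt
  rw [ntr_sc, Matrix.smul_mulVec, Matrix.mulVec_smul]

lemma eF_add (η : V N × Bool → ℤ) (F g : V N → ℝ) (s : ℝ) :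
    (fun e => eF η F e + s * gr g e) = eF η (F + s • g) := by
  funext ⟨x, c⟩
  unfold eF
  rw [gr_eq, gr_eq, gr_eq]
  simp only [Pi.add_apply, Pi.smul_apply, smul_eq_mul]
  ring

lemma zero_eF : (0 : V N × Bool → ℝ) = eF 0 0 := by
  funext ⟨x, c⟩
  unfold eF
  rw [gr_eq]
  simp

/-- **the energy along a real direction** -/
theorem EZ_line (hb : 0 < b) (ht : 0 < t) (η : V N × Bool → ℤ) (F g : V N → ℝ) :
    ∃ A L : ℝ, ∀ s : ℝ, EZ N b t (fun e => eF η F e + s * gr g e) =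
      A + s * L + s ^ 2 / 2 * qf (Anm N b t) g -
        RsD (nwtD N b t 0) η (Pt t F) (s • Pt t g) := by
  have hW := H770.gwf_wTD (N := N) hb
  have hM := H883.mf_scalar (N := N) ht
  set M : Matrix (V N) (V N) ℝ := t • (1 : Matrix (V N) (V N) ℝ) with hMd
  set P := ntr M t with hP
  have hPt : P.transpose = P := H963.ntr_transpose hM.symm t
  set z0 := Zn (wTD N b 0) M 0 with hz0
  have z0pos : 0 < z0 := hW.Zn_pos hM 0 0
  set κ := Real.sqrt (2 * Real.pi / (t * Fintype.card (V N))) with hκ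
  have hκ0 : 0 < κ := by
    have hN : (0 : ℝ) < Fintype.card (V N) := Nat.cast_pos.2 Fintype.card_pos
    exact Real.sqrt_pos.2 (by positivity)
  set J := Pt t F with hJ
  set u := Pt t g with hu
  have eJ : Matrix.mulVec P F = J := ntr_sc_mulVec t F
  have eu : Matrix.mulVec P g = u := ntr_sc_mulVec t g
  refine ⟨Real.log z0 - Real.log κ + qf P F / 2 - Lg (nwtD N b t 0 η) J,
    bf P F g - Ex (nwtD N b t 0 η) J (li u), fun s => ?_⟩
  have h1 : ZE N b t (fun e => eF η F e + s * gr g e) = Zn (wTD N b η) M (F + s • g) := by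
    rw [eF_add, ZE_eF hb]
  have h2 : ZE N b t 0 = z0 := by rw [zero_eF, ZE_eF hb]
  have h3 := hW.Zn_eq hM 0 η (F + s • g)
  have h4 : Matrix.mulVec (ntr M t) (F + s • g) = J + s • u := by
    rw [Matrix.mulVec_add, Matrix.mulVec_smul, ← hP, eJ, eu]
  rw [h4] at h3
  have hZ : 0 < Zs (nM (wTD N b η) M t 0) (J + s • u) :=
    TM.H104.T_one_pos (hW.em_nM hM 0 η) _
  unfold EZ
  rw [h1, h2, h3, Real.log_div (mul_pos hκ0 (mul_pos (Real.exp_pos _) hZ)).ne' z0pos.ne',
    Real.log_mul hκ0.ne' (mul_pos (Real.exp_pos _) hZ).ne',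
    Real.log_mul (Real.exp_pos _).ne' hZ.ne', Real.log_exp]
  have h5 : Real.log (Zs (nM (wTD N b η) M t 0) (J + s • u)) = Lg (nwtD N b t 0 η) (J + s • u) := rfl
  have h6 : qf (ntr M t) (F + s • g) = qf P F + s ^ 2 * qf P g + 2 * (s * bf P F g) := by
    rw [← hP, H37.qf_add_vec hPt, H37.qf_smul, H37.bf_smul_right]
    try ring
  have h7 : RsD (nwtD N b t 0) η J (s • u) = Lg (nwtD N b t 0 η) (J + s • u) -
      Lg (nwtD N b t 0 η) J - s * Ex (nwtD N b t 0 η) J (li u) -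
      s ^ 2 * qf (Gm (nwtD N b t 0 0)) u / 2 := by
    unfold H770.RsD
    rw [H770.Ex_li_smul, H37.qf_smul]
  have h8 : qf (Anm N b t) g = qf P g - qf (Gm (nwtD N b t 0 0)) u := by
    rw [← H963.qf_An_torus b ht, H963.qf_An hM.symm, ← hP, eu, H770.nwtD_zero]
    rfl
  rw [h5, h6, h7, h8]
  ring

/-- **the functional** -/
def rh (N : ℕ) [NeZero N] (b t a : ℝ) (n : ℕ) (β : V N × Bool → ℝ) : ℝ :=
  EZ N b t β - Qf a (t / a) n β / 2

lemma concave_quad {R : ℝ → ℝ} (hR : ConvexOn ℝ Set.univ R) {A L c : ℝ} (hc : 0 ≤ c) :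
    ConcaveOn ℝ Set.univ fun s : ℝ => A + s * L - c * s ^ 2 - R s := by
  refine ⟨convex_univ, fun x _ y _ p q hp hq hpq => ?_⟩
  have h1 := hR.2 (Set.mem_univ x) (Set.mem_univ y) hp hq hpq
  simp only [smul_eq_mul] at h1 ⊢
  have h2 : 0 ≤ c * (p * q * (x - y) ^ 2) := by positivity
  have hq' : q = 1 - p := by linarith
  rw [hq'] at h1 h2 ⊢
  nlinarith

/-- **concavity** of `ρ` along real changes -/
theorem rh_conc (hb : 0 < b) (ht : 0 < t) {β : V N × Bool → ℝ} (hβ : EG β) {g : V N → ℝ} {ε : ℝ}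
    (h : qf (Anm N b t) g - Qf a (t / a) n (gr g) ≤ ε) :
    ConcaveOn ℝ Set.univ
      (fun s : ℝ => rh N b t a n (fun e => β e + s * gr g e) - ε / 2 * s ^ 2) := by
  obtain ⟨η, F, rfl⟩ := hβ
  obtain ⟨A, L, hAL⟩ := EZ_line hb ht η F g
  have hD := H770.disF_nwtD (N := N) hb ht 0
  have hR : ConvexOn ℝ Set.univ fun s : ℝ => RsD (nwtD N b t 0) η (Pt t F) (s • Pt t g) := by
    refine ⟨convex_univ, fun x _ y _ p q hp hq hpq => ?_⟩
    have h1 := (H770.RsD_convex hD η (Pt t F)).2 (Set.mem_univ (x • Pt t g))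
      (Set.mem_univ (y • Pt t g)) hp hq hpq
    simp only [smul_eq_mul] at h1 ⊢
    rw [add_smul, mul_smul, mul_smul]
    exact h1
  have hc : 0 ≤ (ε - (qf (Anm N b t) g - Qf a (t / a) n (gr g))) / 2 := by linarith
  have h2 := concave_quad hR (A := A - Qf a (t / a) n (eF η F) / 2)
    (L := L - Bq a (t / a) n (eF η F) (gr g)) hc
  have e : (fun s : ℝ => rh N b t a n (fun e => eF η F e + s * gr g e) - ε / 2 * s ^ 2) =
      fun s : ℝ => A - Qf a (t / a) n (eF η F) / 2 + s * (L - Bq a (t / a) n (eF η F) (gr g)) -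
        (ε - (qf (Anm N b t) g - Qf a (t / a) n (gr g))) / 2 * s ^ 2 -
        RsD (nwtD N b t 0) η (Pt t F) (s • Pt t g) := by
    funext s
    unfold rh
    rw [hAL, Qf_add (eF η F) (fun e => s * gr g e), Qf_smul, Bq_smul_right]
    ring
  rw [e]
  exact h2

/-- the energy of a real field -/
theorem EZ_gr (hb : 0 < b) (ht : 0 < t) (F : V N → ℝ) :
    EZ N b t (gr F) = qf (Anm N b t) F / 2 - Rs (nwt N b t 0) (Pt t F) := by
  have hM := H883.mf_scalar (N := N) ht
  have hw := H770.gwf_wTD (N := N) hb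
  have h := H963.Un_eq (w := wT b N) (x₀ := 0) (by
    have := hw.grd 0
    rwa [H770.wTD_zero] at this) (by
    have := hw.nn 0
    rwa [H770.wTD_zero] at this) hM.symm hM.pos hM.row (by
    have := hw.em_nM hM 0 0
    rwa [H770.wTD_zero] at this) F
  have e1 : EZ N b t (gr F) = H37.Un (wT b N) (t • (1 : Matrix (V N) (V N) ℝ)) F := by
    unfold EZ H37.Un
    rw [gr_eF, zero_eF, ZE_eF hb, ZE_eF hb, H770.wTD_zero]
  rw [e1, h, H963.qf_An_torus b ht, ntr_sc_mulVec]
  rfl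

lemma Rs_nwt_nonneg (hb : 0 < b) (ht : 0 < t) (J : V N → ℝ) : 0 ≤ Rs (nwt N b t 0) J := by
  have hD := H770.disF_nwtD (N := N) hb ht 0
  have h := H770.RsD_nonneg hD 0 0 J
  rwa [H770.RsD_zero hD, H770.nwtD_zero] at h

/-- Dirichlet energy of a local smooth field -/
lemma nrm_local {l : ℕ} {Λ : ℝ} {F : V N → ℝ} {w : V N} (hl : 1 ≤ l) (hF : GB (Λ / l) F)
    (hw : ∀ x, 20 * l ≤ sz (x - w) → F x = 0) : nrm (gr F) ≤ 3528 * Λ ^ 2 := by
  classical
  have hl' : (1 : ℝ) ≤ l := by exact_mod_cast hl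
  set B : Finset (V N) := (univ : Finset (V N)).filter fun z => sz z ≤ 20 * l with hB
  have hcard := card_box (N := N) (20 * l)
  rw [← hB] at hcard
  -- the gradient vanishes off the box
  have hz : ∀ (x : V N) (c : Bool), ¬ sz (x - w) ≤ 20 * l → gr F (x, c) = 0 := by
    intro x c hx
    have h5 := (sz_step (x - w) c).1
    rw [gr_eq, hw x (by omega), hw (x + eb c) (by rw [add_sub_right_comm]; omega), sub_self]
  have h1 : nrm (gr F) = ∑ x : V N, (gr F (x, true) ^ 2 + gr F (x, false) ^ 2) := by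
    unfold nrm
    rw [Fintype.sum_prod_type]
    exact Finset.sum_congr rfl fun x _ => by rw [Fintype.sum_bool]
  have h2 : nrm (gr F) ≤ ∑ x ∈ (univ : Finset (V N)).filter (fun x => sz (x - w) ≤ 20 * l),
      2 * (Λ / l) ^ 2 := by
    rw [h1, Finset.sum_filter]
    refine Finset.sum_le_sum fun x _ => ?_
    split_ifs with hx
    · have a1 := sq_le_sq' (abs_le.1 (hF (x, true))).1 (abs_le.1 (hF (x, true))).2
      have a2 := sq_le_sq' (abs_le.1 (hF (x, false))).1 (abs_le.1 (hF (x, false))).2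
      linarith
    · rw [hz x _ hx, hz x _ hx]
      norm_num
  have h3 : ((univ : Finset (V N)).filter (fun x => sz (x - w) ≤ 20 * l)).card = B.card := by
    rw [hB]
    refine Finset.card_bij (fun x _ => x - w) ?_ ?_ ?_
    · intro x hx
      rw [Finset.mem_filter] at hx ⊢
      exact ⟨Finset.mem_univ _, hx.2⟩
    · intro x _ y _ hxy
      exact sub_left_injective hxy
    · intro y hy
      rw [Finset.mem_filter] at hy
      refine ⟨y + w, ?_, by abel⟩
      rw [Finset.mem_filter, add_sub_cancel_right]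
      exact ⟨Finset.mem_univ _, hy.2⟩
  rw [Finset.sum_const, nsmul_eq_mul, h3] at h2
  refine h2.trans ?_
  have h4 : (B.card : ℝ) ≤ 1764 * (l : ℝ) ^ 2 := by
    refine hcard.trans ?_
    push_cast
    nlinarith
  calc (B.card : ℝ) * (2 * (Λ / l) ^ 2) ≤ 1764 * (l : ℝ) ^ 2 * (2 * (Λ / l) ^ 2) :=
        mul_le_mul_of_nonneg_right h4 (by positivity)
    _ = 3528 * Λ ^ 2 := by field_simp; ring

lemma Rf_zero : Rf (0 : V N × Bool → ℝ) = 0 := by
  funext ⟨x, c⟩
  cases c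
  · rw [Rf_false]; rfl
  · rw [Rf_true]; simp

end

end Vale.Agent.P159.H817
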