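import Vale.Agent.P159.H817.Ang4

/-!
P159 / module ANG (helper817), part 5: edge fields of the torus; the divergence free field of a
dislocation pair, Hodge decomposition, exact energy.

Edges `V N × Bool`: `(x, false) : x → x + (1,0)`, `(x, true) : x → x + (0,1)` (letters of
`H770/DisT`). Faces are labelled by their lower left corner.
-/

set_option linter.unusedSectionVars false

namespace Vale.Agent.P159.H817

open Finset
open Vale.Agent.P159.TM.Spec (V)

noncomputable section

variable {N : ℕ} [NeZero N]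

/-- gradient -/
def gr (f : V N → ℝ) (e : V N × Bool) : ℝ := if e.2 then f (e.1 + e2) - f e.1 else f (e.1 + e1) - f e.1

/-- adjoint of the gradient -/
def dv (j : V N × Bool → ℝ) (x : V N) : ℝ :=
  (j (x - e1, false) - j (x, false)) + (j (x - e2, true) - j (x, true))

/-- circulation around the face with lower left corner `x` -/
def cu (j : V N × Bool → ℝ) (x : V N) : ℝ :=
  j (x, false) + j (x + e1, true) - j (x + e2, false) - j (x, true)

/-- lattice Laplacian -/
def lp (f : V N → ℝ) (x : V N) : ℝ :=
  f (x + e1) + f (x - e1) + f (x + e2) + f (x - e2) - 4 * f x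

/-- rotated gradient of a function on the faces -/
def rot (φ : V N → ℝ) (e : V N × Bool) : ℝ :=
  if e.2 then φ e.1 - φ (e.1 - e1) else φ (e.1 - e2) - φ e.1

/-- constant field -/
def cst (a c : ℝ) (e : V N × Bool) : ℝ := if e.2 then c else a

/-- squared norm of an edge field -/
def nrm (j : V N × Bool → ℝ) : ℝ := ∑ e, j e ^ 2

@[simp] lemma gr_false (f : V N → ℝ) (x : V N) : gr f (x, false) = f (x + e1) - f x := rfl
@[simp] lemma gr_true (f : V N → ℝ) (x : V N) : gr f (x, true) = f (x + e2) - f x := rfl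
@[simp] lemma rot_false (φ : V N → ℝ) (x : V N) : rot φ (x, false) = φ (x - e2) - φ x := rfl
@[simp] lemma rot_true (φ : V N → ℝ) (x : V N) : rot φ (x, true) = φ x - φ (x - e1) := rfl
@[simp] lemma cst_false (a c : ℝ) (x : V N) : cst a c (x, false) = a := rfl
@[simp] lemma cst_true (a c : ℝ) (x : V N) : cst a c (x, true) = c := rfl

lemma sum_edges (F : V N × Bool → ℝ) : ∑ e, F e = ∑ x : V N, F (x, false) + ∑ x : V N, F (x, true) := by
  rw [Fintype.sum_prod_type]
  simp only [Fintype.sum_bool]
  rw [Finset.sum_add_distrib, add_comm]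

lemma sum_shift (f : V N → ℝ) (a : V N) : ∑ x, f (x + a) = ∑ x, f x :=
  Equiv.sum_comp (Equiv.addRight a) f

lemma sum_shift_sub (f : V N → ℝ) (a : V N) : ∑ x, f (x - a) = ∑ x, f x :=
  Equiv.sum_comp (Equiv.subRight a) f

/-- summation by parts -/
lemma parts (j : V N × Bool → ℝ) (f : V N → ℝ) : ∑ e, j e * gr f e = ∑ x, f x * dv j x := by
  rw [sum_edges]
  simp only [gr_false, gr_true]
  have h1 : ∑ x : V N, j (x, false) * (f (x + e1) - f x) =
      ∑ x : V N, f x * (j (x - e1, false) - j (x, false)) := by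
    simp_rw [mul_sub]
    rw [Finset.sum_sub_distrib, Finset.sum_sub_distrib]
    congr 1
    · rw [← sum_shift (fun x => f x * j (x - e1, false)) e1]
      refine Finset.sum_congr rfl fun x _ => ?_
      rw [add_sub_cancel_right, mul_comm]
    · exact Finset.sum_congr rfl fun x _ => mul_comm _ _
  have h2 : ∑ x : V N, j (x, true) * (f (x + e2) - f x) =
      ∑ x : V N, f x * (j (x - e2, true) - j (x, true)) := by
    simp_rw [mul_sub]
    rw [Finset.sum_sub_distrib, Finset.sum_sub_distrib]
    congr 1
    · rw [← sum_shift (fun x => f x * j (x - e2, true)) e2]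
      refine Finset.sum_congr rfl fun x _ => ?_
      rw [add_sub_cancel_right, mul_comm]
    · exact Finset.sum_congr rfl fun x _ => mul_comm _ _
  rw [h1, h2, ← Finset.sum_add_distrib]
  refine Finset.sum_congr rfl fun x _ => ?_
  unfold dv
  ring

lemma dv_gr (f : V N → ℝ) (x : V N) : dv (gr f) x = -lp f x := by
  unfold dv lp
  simp only [gr_false, gr_true, sub_add_cancel]
  ring

lemma cu_gr (f : V N → ℝ) (x : V N) : cu (gr f) x = 0 := by
  unfold cu
  simp only [gr_false, gr_true]
  rw [add_right_comm x e2 e1]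
  ring

lemma dv_rot (φ : V N → ℝ) (x : V N) : dv (rot φ) x = 0 := by
  unfold dv
  simp only [rot_false, rot_true]
  rw [sub_right_comm x e2 e1]
  ring

lemma cu_rot (φ : V N → ℝ) (x : V N) : cu (rot φ) x = lp φ x := by
  unfold cu lp
  simp only [rot_false, rot_true, add_sub_cancel_right]
  ring

lemma dv_cst (a c : ℝ) (x : V N) : dv (cst a c) x = 0 := by
  unfold dv; simp

lemma cu_cst (a c : ℝ) (x : V N) : cu (cst a c) x = 0 := by
  unfold cu; simp

lemma dv_add (j k : V N × Bool → ℝ) (x : V N) : dv (fun e => j e + k e) x = dv j x + dv k x := by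
  unfold dv; ring

lemma cu_add (j k : V N × Bool → ℝ) (x : V N) : cu (fun e => j e + k e) x = cu j x + cu k x := by
  unfold cu; ring

lemma dv_sub (j k : V N × Bool → ℝ) (x : V N) : dv (fun e => j e - k e) x = dv j x - dv k x := by
  unfold dv; ring

lemma cu_sub (j k : V N × Bool → ℝ) (x : V N) : cu (fun e => j e - k e) x = cu j x - cu k x := by
  unfold cu; ring

lemma sum_dv (j : V N × Bool → ℝ) : ∑ x, dv j x = 0 := by
  have h := parts j (fun _ => 1)
  have h1 : ∀ e : V N × Bool, gr (fun _ : V N => (1 : ℝ)) e = 0 := by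
    rintro ⟨x, b⟩
    cases b <;> simp
  simp only [h1, mul_zero, Finset.sum_const_zero, one_mul] at h
  exact h.symm

/-! ### harmonic functions are constant -/

lemma lp_sum (f : V N → ℝ) : ∑ x, f x * lp f x = -∑ e, gr f e ^ 2 := by
  have h := parts (gr f) f
  simp_rw [dv_gr] at h
  have h1 : ∑ e, gr f e ^ 2 = ∑ e, gr f e * gr f e := Finset.sum_congr rfl fun e _ => sq _
  rw [h1, h, ← Finset.sum_neg_distrib]
  exact Finset.sum_congr rfl fun x _ => by ring

lemma const_of_gr {f : V N → ℝ} (h : ∀ e, gr f e = 0) (x : V N) : f x = f 0 := by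
  have h1 : ∀ y : V N, f (y + e1) = f y := fun y => by
    have := h (y, false)
    rw [gr_false] at this
    linarith
  have h2 : ∀ y : V N, f (y + e2) = f y := fun y => by
    have := h (y, true)
    rw [gr_true] at this
    linarith
  have h3 : ∀ (n : ℕ) (y : V N), f (y + n • e1) = f y := by
    intro n
    induction n with
    | zero => intro y; simp
    | succ n ih => intro y; rw [succ_nsmul, ← add_assoc, h1, ih]
  have h4 : ∀ (n : ℕ) (y : V N), f (y + n • e2) = f y := by
    intro n
    induction n with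
    | zero => intro y; simp
    | succ n ih => intro y; rw [succ_nsmul, ← add_assoc, h2, ih]
  have h5 : x = 0 + x.1.val • (e1 : V N) + x.2.val • (e2 : V N) := by
    ext <;> simp [e1, e2]
  rw [h5, h4, h3]

lemma const_of_harm {f : V N → ℝ} (h : ∀ x, lp f x = 0) (x : V N) : f x = f 0 := by
  have h1 := lp_sum f
  simp_rw [h, mul_zero, Finset.sum_const_zero] at h1
  have h2 : ∑ e, gr f e ^ 2 = 0 := by linarith
  rw [Finset.sum_eq_zero_iff_of_nonneg fun e _ => sq_nonneg _] at h2
  refine const_of_gr (fun e => ?_) x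
  have := h2 e (Finset.mem_univ _)
  exact pow_eq_zero_iff (two_ne_zero) |>.1 this

/-- a field without divergence and circulation is constant -/
lemma cst_of_dc {j : V N × Bool → ℝ} (hd : ∀ x, dv j x = 0) (hc : ∀ x, cu j x = 0) :
    j = cst (j (0, false)) (j (0, true)) := by
  have h1 : ∀ x, lp (fun y => j (y, false)) x = 0 := by
    intro x
    have a1 := hd x
    have a2 := hd (x + e1)
    have a3 := hc x
    have a4 := hc (x - e2)
    unfold dv at a1 a2
    unfold cu at a3 a4
    unfold lp
    rw [add_sub_cancel_right] at a2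
    rw [sub_add_cancel] at a4
    have e : x - e2 + e1 = x + e1 - e2 := by abel
    rw [e] at a4
    linarith
  have h2 : ∀ x, lp (fun y => j (y, true)) x = 0 := by
    intro x
    have a1 := hd x
    have a2 := hd (x + e2)
    have a3 := hc x
    have a4 := hc (x - e1)
    unfold dv at a1 a2
    unfold cu at a3 a4
    unfold lp
    rw [add_sub_cancel_right] at a2
    rw [sub_add_cancel] at a4
    have e : x - e1 + e2 = x + e2 - e1 := by abel
    rw [e] at a4
    linarith
  funext e
  obtain ⟨x, b⟩ := e
  cases b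
  · rw [cst_false]
    exact const_of_harm h1 x
  · rw [cst_true]
    exact const_of_harm h2 x

/-! ### inversion of the Laplacian -/

/-- convolution with the Green function -/
def cG (ρ : V N → ℝ) (x : V N) : ℝ := ∑ y, G0 (x - y) * ρ y

lemma lp_G0 (x : V N) : lp (G0 (N := N)) x = 1 / (N : ℝ) ^ 2 - if x = 0 then 1 else 0 := lap_G0 x

lemma lp_cG {ρ : V N → ℝ} (hρ : ∑ y, ρ y = 0) (x : V N) : lp (cG ρ) x = -ρ x := by
  have h1 : lp (cG ρ) x = ∑ y, lp (G0 (N := N)) (x - y) * ρ y := by
    unfold lp cG
    rw [← Finset.sum_add_distrib, ← Finset.sum_add_distrib, ← Finset.sum_add_distrib,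
      Finset.mul_sum, ← Finset.sum_sub_distrib]
    refine Finset.sum_congr rfl fun y _ => ?_
    have b1 : x + e1 - y = x - y + e1 := by abel
    have b2 : x - e1 - y = x - y - e1 := by abel
    have b3 : x + e2 - y = x - y + e2 := by abel
    have b4 : x - e2 - y = x - y - e2 := by abel
    rw [b1, b2, b3, b4]
    ring
  rw [h1]
  simp_rw [lp_G0, sub_mul, ite_mul, one_mul, zero_mul, sub_eq_zero]
  rw [Finset.sum_sub_distrib, ← Finset.mul_sum, hρ, mul_zero,
    Finset.sum_ite_eq Finset.univ x ρ, if_pos (Finset.mem_univ _)]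
  ring

/-! ### the dislocation pair -/

/-- potential of the pair `(p, q)` (function on the faces) -/
def ph (p q : V N) (x : V N) : ℝ := G0 (x - q) - G0 (x - p)

lemma lp_ph (p q x : V N) :
    lp (ph p q) x = (if x = p then 1 else 0) - if x = q then 1 else 0 := by
  have h1 := lp_G0 (x - q)
  have h2 := lp_G0 (x - p)
  have h3 : lp (ph p q) x = lp (G0 (N := N)) (x - q) - lp (G0 (N := N)) (x - p) := by
    unfold lp ph
    have b1 : ∀ r : V N, x + e1 - r = x - r + e1 := fun r => by abel
    have b2 : ∀ r : V N, x - e1 - r = x - r - e1 := fun r => by abel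
    have b3 : ∀ r : V N, x + e2 - r = x - r + e2 := fun r => by abel
    have b4 : ∀ r : V N, x - e2 - r = x - r - e2 := fun r => by abel
    simp only [b1, b2, b3, b4]
    ring
  rw [h3, h1, h2]
  simp only [sub_eq_zero]
  ring

/-- means of the two components -/
def mnj (j : V N × Bool → ℝ) (b : Bool) : ℝ := (∑ x, j (x, b)) / (N : ℝ) ^ 2

/-- the divergence free field of the pair with prescribed means -/
def jD (p q : V N) (a c : ℝ) (e : V N × Bool) : ℝ := rot (ph p q) e + cst a c e

lemma dv_jD (p q : V N) (a c : ℝ) (x : V N) : dv (jD p q a c) x = 0 := by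
  unfold jD
  rw [dv_add, dv_rot, dv_cst, add_zero]

lemma cu_jD (p q : V N) (a c : ℝ) (x : V N) :
    cu (jD p q a c) x = (if x = p then 1 else 0) - if x = q then 1 else 0 := by
  unfold jD
  rw [cu_add, cu_rot, cu_cst, add_zero, lp_ph]

lemma sum_rot (φ : V N → ℝ) (b : Bool) : ∑ x, rot φ (x, b) = 0 := by
  cases b
  · simp only [rot_false]
    rw [Finset.sum_sub_distrib, sum_shift_sub, sub_self]
  · simp only [rot_true]
    rw [Finset.sum_sub_distrib, sum_shift_sub, sub_self]

lemma sum_gr (f : V N → ℝ) (b : Bool) : ∑ x, gr f (x, b) = 0 := by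
  cases b
  · simp only [gr_false]
    rw [Finset.sum_sub_distrib, sum_shift, sub_self]
  · simp only [gr_true]
    rw [Finset.sum_sub_distrib, sum_shift, sub_self]

lemma card_VN : (Fintype.card (V N) : ℝ) = (N : ℝ) ^ 2 := TM.H764.card_V

/-- **Hodge decomposition**: an edge field whose circulation is the pair `(p, q)` is, up to a
gradient, the divergence free field `jD` with the same means -/
theorem hodge {p q : V N} {η : V N × Bool → ℝ}
    (hη : ∀ x, cu η x = (if x = p then 1 else 0) - if x = q then 1 else 0) :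
    ∃ f : V N → ℝ, ∀ e, η e + gr f e = jD p q (mnj η false) (mnj η true) e := by
  have hN : (0 : ℝ) < (N : ℝ) ^ 2 := H864.N_pos
  refine ⟨fun x => -cG (dv η) x, ?_⟩
  set f : V N → ℝ := fun x => -cG (dv η) x with hf
  have hlp : ∀ x, lp f x = dv η x := by
    intro x
    have h1 := lp_cG (sum_dv η) x
    have h2 : lp f x = -lp (cG (dv η)) x := by
      rw [hf]
      unfold lp
      ring
    rw [h2, h1, neg_neg]
  have hd : ∀ x, dv (fun e => (η e + gr f e) - jD p q (mnj η false) (mnj η true) e) x = 0 := by
    intro x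
    rw [dv_sub (fun e => η e + gr f e), dv_add, dv_gr, dv_jD, hlp]
    ring
  have hc : ∀ x, cu (fun e => (η e + gr f e) - jD p q (mnj η false) (mnj η true) e) x = 0 := by
    intro x
    rw [cu_sub (fun e => η e + gr f e), cu_add, cu_gr, cu_jD, hη]
    ring
  have hcst := cst_of_dc hd hc
  have hz : ∀ b : Bool, (η ((0 : V N), b) + gr f (0, b)) -
      jD p q (mnj η false) (mnj η true) (0, b) = 0 := by
    intro b
    have h1 : ∀ x : V N, (η (x, b) + gr f (x, b)) - jD p q (mnj η false) (mnj η true) (x, b) =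
        (η ((0 : V N), b) + gr f (0, b)) - jD p q (mnj η false) (mnj η true) (0, b) := by
      intro x
      have h2 := congrFun hcst (x, b)
      cases b
      · rw [cst_false] at h2
        exact h2
      · rw [cst_true] at h2
        exact h2
    have h2 : ∑ x : V N, ((η (x, b) + gr f (x, b)) -
        jD p q (mnj η false) (mnj η true) (x, b)) = 0 := by
      unfold jD
      rw [Finset.sum_sub_distrib, Finset.sum_add_distrib, Finset.sum_add_distrib, sum_gr, sum_rot]
      have h3 : ∑ x : V N, cst (mnj η false) (mnj η true) (x, b) = ∑ x : V N, η (x, b) := by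
        cases b
        · simp only [cst_false]
          rw [Finset.sum_const, nsmul_eq_mul, Finset.card_univ, card_VN]
          unfold mnj
          rw [mul_div_assoc', mul_div_cancel_left₀ _ hN.ne']
        · simp only [cst_true]
          rw [Finset.sum_const, nsmul_eq_mul, Finset.card_univ, card_VN]
          unfold mnj
          rw [mul_div_assoc', mul_div_cancel_left₀ _ hN.ne']
      rw [h3]
      ring
    rw [Finset.sum_congr rfl fun x _ => h1 x, Finset.sum_const, nsmul_eq_mul, Finset.card_univ,
      card_VN] at h2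
    rcases mul_eq_zero.1 h2 with h | h
    · exact absurd h hN.ne'
    · exact h
  rintro ⟨x, b⟩
  have h2 := congrFun hcst (x, b)
  cases b
  · rw [cst_false, hz false] at h2
    linarith
  · rw [cst_true, hz true] at h2
    linarith

/-! ### energy -/

lemma nrm_add_gr {j : V N × Bool → ℝ} (hj : ∀ x, dv j x = 0) (g : V N → ℝ) :
    nrm (fun e => j e + gr g e) = nrm j + nrm (gr g) := by
  unfold nrm
  have h1 := parts j g
  simp_rw [hj, mul_zero, Finset.sum_const_zero] at h1
  have h2 : ∀ e, (j e + gr g e) ^ 2 = j e ^ 2 + gr g e ^ 2 + 2 * (j e * gr g e) := fun e => by ring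
  simp_rw [h2]
  rw [Finset.sum_add_distrib, Finset.sum_add_distrib, ← Finset.mul_sum, h1]
  ring

lemma nrm_rot (φ : V N → ℝ) : nrm (rot φ) = -∑ x, φ x * lp φ x := by
  rw [lp_sum, neg_neg]
  unfold nrm
  rw [sum_edges, sum_edges]
  have h1 : ∑ x : V N, rot φ (x, false) ^ 2 = ∑ x : V N, gr φ (x, true) ^ 2 := by
    simp only [rot_false, gr_true]
    rw [← sum_shift (fun x => (φ (x - e2) - φ x) ^ 2) e2]
    refine Finset.sum_congr rfl fun x _ => ?_
    rw [add_sub_cancel_right]
    ring
  have h2 : ∑ x : V N, rot φ (x, true) ^ 2 = ∑ x : V N, gr φ (x, false) ^ 2 := by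
    simp only [rot_true, gr_false]
    rw [← sum_shift (fun x => (φ x - φ (x - e1)) ^ 2) e1]
    refine Finset.sum_congr rfl fun x _ => ?_
    rw [add_sub_cancel_right]
  rw [h1, h2, add_comm]

/-- **exact energy of the pair** -/
theorem nrm_jD (p q : V N) (a c : ℝ) :
    nrm (jD p q a c) = 2 * aN (p - q) + (N : ℝ) ^ 2 * (a ^ 2 + c ^ 2) := by
  have h1 : nrm (jD p q a c) = nrm (rot (ph p q)) + (N : ℝ) ^ 2 * (a ^ 2 + c ^ 2) := by
    unfold nrm jD
    rw [sum_edges, sum_edges]
    have h2 : ∑ x : V N, (rot (ph p q) (x, false) + cst a c (x, false)) ^ 2 =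
        ∑ x : V N, rot (ph p q) (x, false) ^ 2 + (N : ℝ) ^ 2 * a ^ 2 := by
      have h3 : ∀ x : V N, (rot (ph p q) (x, false) + cst a c (x, false)) ^ 2 =
          rot (ph p q) (x, false) ^ 2 + 2 * a * rot (ph p q) (x, false) + a ^ 2 := fun x => by
        rw [cst_false]; ring
      simp_rw [h3]
      rw [Finset.sum_add_distrib, Finset.sum_add_distrib, ← Finset.mul_sum, sum_rot,
        Finset.sum_const, nsmul_eq_mul, Finset.card_univ, card_VN]
      ring
    have h4 : ∑ x : V N, (rot (ph p q) (x, true) + cst a c (x, true)) ^ 2 =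
        ∑ x : V N, rot (ph p q) (x, true) ^ 2 + (N : ℝ) ^ 2 * c ^ 2 := by
      have h3 : ∀ x : V N, (rot (ph p q) (x, true) + cst a c (x, true)) ^ 2 =
          rot (ph p q) (x, true) ^ 2 + 2 * c * rot (ph p q) (x, true) + c ^ 2 := fun x => by
        rw [cst_true]; ring
      simp_rw [h3]
      rw [Finset.sum_add_distrib, Finset.sum_add_distrib, ← Finset.mul_sum, sum_rot,
        Finset.sum_const, nsmul_eq_mul, Finset.card_univ, card_VN]
      ring
    rw [h2, h4]
    ring
  rw [h1, nrm_rot]
  simp_rw [lp_ph, mul_sub, mul_ite, mul_one, mul_zero]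
  rw [Finset.sum_sub_distrib, Finset.sum_ite_eq' Finset.univ p (ph p q),
    Finset.sum_ite_eq' Finset.univ q (ph p q), if_pos (Finset.mem_univ _),
    if_pos (Finset.mem_univ _)]
  unfold ph aN
  have h5 : G0 (q - p) = G0 (p - q) := by rw [← G0_neg (p - q), neg_sub]
  rw [sub_self, sub_self, h5]
  ring

/-- **(ANG i)** minimal energy: for every field `η` with circulation `δ_p - δ_q` there is `f` with
`η + ∇f = jD`, and `|η + ∇g|² = 2 aN (p - q) + N² |mean|² + |∇(g - f)|²` for every `g` -/
theorem energy {p q : V N} {η : V N × Bool → ℝ}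
    (hη : ∀ x, cu η x = (if x = p then 1 else 0) - if x = q then 1 else 0) :
    ∃ f : V N → ℝ, (∀ e, η e + gr f e = jD p q (mnj η false) (mnj η true) e) ∧
      ∀ g : V N → ℝ, nrm (fun e => η e + gr g e) =
        2 * aN (p - q) + (N : ℝ) ^ 2 * (mnj η false ^ 2 + mnj η true ^ 2) +
          nrm (gr fun x => g x - f x) := by
  obtain ⟨f, hf⟩ := hodge hη
  refine ⟨f, hf, fun g => ?_⟩
  have h1 : (fun e => η e + gr g e) =
      fun e => jD p q (mnj η false) (mnj η true) e + gr (fun x => g x - f x) e := by
    funext e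
    rw [← hf e]
    obtain ⟨x, b⟩ := e
    cases b
    · simp only [gr_false]; ring
    · simp only [gr_true]; ring
  rw [h1, nrm_add_gr (dv_jD p q _ _), nrm_jD]

end

end Vale.Agent.P159.H817
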