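import Vale.Agent.P159.H817.Dm1

/-!
P159 (helper817), domination of the transported cell source, part 2: the measure `nuS`.

* `site_lvl2` : any site matrix `D` whose cell form is dominated, cell channel;
* `site_typ2` : helper789's `site_typ` with the domination (eventually in the prior mass) in place of
  the class `LM k₀`: `2 z √K ≤ 2 ^ j`;
* `site_typS` : the same for the split class `LS`.
-/

set_option linter.unusedSectionVars false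

namespace Vale.Agent.P159.H817.Dm

open Finset Matrix MeasureTheory Filter Topology
open Vale.Agent.P159.TM.H764 (EE)
open Vale.Agent.P159.H37
open Vale.Agent.P159.TM.Spec (V)
open Vale.Agent.P159.H864 (TI sym lapM ti_lapM cobV l_pos)
open Vale.Agent.P159.H963 (Neu pin Pn nwt nMC obsN Gnc PinC)
open Vale.Agent.P159.H859 (Sgn Rk)
open Vale.Agent.P159.H730 (wN)
open Vale.Agent.P159.H447
open Vale.Agent.P159.H239 (TypE)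
open Vale.Agent.P159.H789 (Gam up1 lvS typ_lin site_cell lvS_pos)

noncomputable section

section lvl

variable {N l : ℕ} [NeZero N] [NeZero (N / l)] {b T s : ℝ}

/-- **a site map, cell channel, one prior mass** -/
theorem site_lvl2 {Y ρ p p' κ K : ℝ} {j k : ℕ} (hb : 0 < b) (hl : l ∣ N) (hs : 0 < s)
    (hsT : s < T) (hAm : TypE N l b T s Y 1 p) (hSt : TypE N l b T s 1 ρ p')
    (hY : (2 : ℝ) ^ (j + k) ≤ Y) (hρ : ρ ≤ 1) (hp : p ≤ 1 / 2) (hp' : p' ≤ 1 / 2)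
    {D : Matrix (V N) (V N) ℝ}
    (hdom : (K • Gam N l b T s - up1 N l (cobV N l * D * (cobV N l)ᵀ) * Gam N l b T s *
      (up1 N l (cobV N l * D * (cobV N l)ᵀ))ᵀ).PosSemidef) (hK : 0 ≤ K)
    (hκ : 0 ≤ κ) (hκK : κ * √K ≤ 2 ^ j) :
    Ech (wN N l b T s) 0 (obsN N l (T - s))
      ({J : V N → ℝ | Rs (nwt N b T 0) (κ • ((cellP N l * (Pn * D)) *ᵥ J)) ≤
        lvS ρ j k}ᶜ.indicator fun _ => (1 : ℝ)) ≤ 34 * (p + p') := by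
  refine typ_lin hb hl hs hsT hAm hSt hY hρ hp hp' (K := K) ?_ hK hκ hκK
  have e1 : cellP N l * (Pn * D) * Gam N l b T s * (cellP N l * (Pn * D))ᵀ =
      up1 N l (cobV N l * D * (cobV N l)ᵀ) * Gam N l b T s *
      (up1 N l (cobV N l * D * (cobV N l)ᵀ))ᵀ := by
    obtain ⟨L, hL⟩ : ∃ L, L = cellP N l * (Pn * D) := ⟨_, rfl⟩
    obtain ⟨U, hU⟩ : ∃ U, U = up1 N l (cobV N l * D * (cobV N l)ᵀ) := ⟨_, rfl⟩
    have h1 : L * (CN N l)ᵀ = U * (CN N l)ᵀ := by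
      rw [hL, hU]
      exact site_cell hl _
    have h2 : ∀ X : Matrix (V N) (V N) ℝ, X * Gam N l b T s * Xᵀ =
        (X * (CN N l)ᵀ) * Sgn N l b T s * (X * (CN N l)ᵀ)ᵀ := by
      intro X
      unfold Gam
      rw [transpose_mul, transpose_transpose]
      simp only [Matrix.mul_assoc]
    rw [← hL, ← hU, h2 L, h2 U, h1]
  rw [e1]
  exact hdom

end lvl

/-- **TYPICAL SOURCES THROUGH A SITE MAP**, dominated maps -/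
theorem site_typ2 {b : ℝ} (hb : 0 < b) : ∃ C c : ℝ, 0 < C ∧ 0 < c ∧ c ≤ 1 ∧
    ∀ (N : ℕ) [NeZero N] (n m : ℕ), 2 ^ n ∣ N → 2 ^ m ∣ N → ∀ [NeZero (N / 2 ^ n)],
    ∀ t : ℝ, 0 < t → t * ((2 : ℝ) ^ n) ^ 2 ≤ 1 → t * ((2 : ℝ) ^ m) ^ 2 ≤ 1 →
      1 < t * 4 ^ (m + 1) → 9 ≤ t * (N : ℝ) ^ 2 →
    ∀ (D : Matrix (V N) (V N) ℝ) (kD K δ : ℝ), 1 ≤ kD → 0 ≤ K → 0 < δ →
      (∀ v : V N → ℝ, ∑ x, (Dᵀ *ᵥ v) x ^ 2 ≤ kD * ∑ x, v x ^ 2) →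
      (∀ v : V N → ℝ, ∑ x, ((1 - cellP N (2 ^ n)) *ᵥ (Dᵀ *ᵥ (cellP N (2 ^ n) *ᵥ v))) x ^ 2 ≤
        δ ^ 2 * ∑ x, v x ^ 2) →
      (∀ᶠ s in 𝓝[>] (0 : ℝ), (K • Gam N (2 ^ n) b t s -
        up1 N (2 ^ n) (cobV N (2 ^ n) * D * (cobV N (2 ^ n))ᵀ) * Gam N (2 ^ n) b t s *
        (up1 N (2 ^ n) (cobV N (2 ^ n) * D * (cobV N (2 ^ n))ᵀ))ᵀ).PosSemidef) →
    ∀ (Y ρ p p' z : ℝ) (j k : ℕ), (2 : ℝ) ^ (j + k) ≤ Y → 0 < ρ → ρ ≤ 1 → p ≤ 1 / 2 →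
      p' ≤ 1 / 2 →
      1 ≤ z → z * δ ≤ 1 → 2 * z * √K ≤ 2 ^ j →
      (∀ᶠ s in 𝓝[>] (0 : ℝ), TypE N (2 ^ n) b t s Y 1 p ∧ TypE N (2 ^ n) b t s 1 ρ p') →
    (nuS N b t).real {F | 2 * lvS ρ j k <
        Rs (nwt N b t 0) ((z • ((Pn : Matrix (V N) (V N) ℝ) * D)) *ᵥ src N t F)} ≤
      68 * (p + p') + C * ((t * (N : ℝ) ^ 2) ^ 4 * (z ^ 2 * kD) ^ 3) *
        (((2 : ℝ) ^ n * √t) ^ c + z * δ) * (1 + 1 / lvS ρ j k) := by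
  obtain ⟨C, c, hC, hc, hc1, h⟩ := sit_typ hb
  refine ⟨C, c, hC, hc, hc1, ?_⟩
  intro N _ n m hn hm _ t ht htn htm htm1 htN D kD K δ hkD hK hδ hD1 hD2 hdom Y ρ p p' z j k
    hY hρ hρ1 hp hp' hz hzδ hκK hT
  have hz0 : 0 < z := by linarith
  have hPP := H789.cellP_Pn (N := N) (l := 2 ^ n) hn
  have hPt : (cellP N (2 ^ n))ᵀ = cellP N (2 ^ n) := H864.cellP_tr _ _
  have hPnt : (Pn : Matrix (V N) (V N) ℝ)ᵀ = Pn := H963.ti_Pn.transpose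
  have hTt : ∀ v : V N → ℝ, (z • ((Pn : Matrix (V N) (V N) ℝ) * D))ᵀ *ᵥ v =
      z • (Dᵀ *ᵥ ((Pn : Matrix (V N) (V N) ℝ) *ᵥ v)) := by
    intro v
    rw [transpose_smul, transpose_mul, hPnt, smul_mulVec, ← mulVec_mulVec]
  have key := h N n m hn hm t ht htn htm htm1 htN (z • ((Pn : Matrix (V N) (V N) ℝ) * D))
    (z ^ 2 * kD) (by nlinarith) (fun v => by
      rw [hTt]
      have h1 := hD1 ((Pn : Matrix (V N) (V N) ℝ) *ᵥ v)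
      have h2 := H789.sum_Pn_le v
      have e : ∑ x, (z • (Dᵀ *ᵥ ((Pn : Matrix (V N) (V N) ℝ) *ᵥ v))) x ^ 2 =
          z ^ 2 * ∑ x, (Dᵀ *ᵥ ((Pn : Matrix (V N) (V N) ℝ) *ᵥ v)) x ^ 2 := by
        rw [Finset.mul_sum]
        refine Finset.sum_congr rfl fun x _ => ?_
        rw [Pi.smul_apply, smul_eq_mul, mul_pow]
      rw [e, mul_assoc]
      refine mul_le_mul_of_nonneg_left (h1.trans ?_) (by positivity)
      exact mul_le_mul_of_nonneg_left h2 (by linarith))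
    (z * δ) (by positivity) hzδ (fun v => by
      have e0 : (cellP N (2 ^ n) * (z • ((Pn : Matrix (V N) (V N) ℝ) * D)) *
          (1 - cellP N (2 ^ n)))ᵀ *ᵥ v =
          z • ((1 - cellP N (2 ^ n)) *ᵥ (Dᵀ *ᵥ (cellP N (2 ^ n) *ᵥ
            ((Pn : Matrix (V N) (V N) ℝ) *ᵥ v)))) := by
        rw [transpose_mul, transpose_mul, transpose_sub, transpose_one, hPt, transpose_smul,
          transpose_mul, hPnt, Matrix.smul_mul, Matrix.mul_smul, smul_mulVec]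
        simp only [mulVec_mulVec]
        rw [hPP]
        simp only [Matrix.mul_assoc]
      have e1 : ∑ x, (z • ((1 - cellP N (2 ^ n)) *ᵥ (Dᵀ *ᵥ (cellP N (2 ^ n) *ᵥ
          ((Pn : Matrix (V N) (V N) ℝ) *ᵥ v))))) x ^ 2 = z ^ 2 *
          ∑ x, ((1 - cellP N (2 ^ n)) *ᵥ (Dᵀ *ᵥ (cellP N (2 ^ n) *ᵥ
            ((Pn : Matrix (V N) (V N) ℝ) *ᵥ v)))) x ^ 2 := by
        rw [Finset.mul_sum]
        refine Finset.sum_congr rfl fun x _ => ?_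
        rw [Pi.smul_apply, smul_eq_mul, mul_pow]
      rw [e0, e1, mul_pow, mul_assoc]
      refine mul_le_mul_of_nonneg_left ((hD2 _).trans ?_) (by positivity)
      exact mul_le_mul_of_nonneg_left (H789.sum_Pn_le v) (by positivity))
    (fun J => by
      have e : cellP N (2 ^ n) * (z • ((Pn : Matrix (V N) (V N) ℝ) * D)) *
          (1 - cellP N (2 ^ n)) = (Pn : Matrix (V N) (V N) ℝ) *
            (z • (cellP N (2 ^ n) * D * (1 - cellP N (2 ^ n)))) := by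
        rw [Matrix.mul_smul, Matrix.smul_mul, Matrix.mul_smul, ← Matrix.mul_assoc, hPP]
        simp only [Matrix.mul_assoc]
      rw [e, ← mulVec_mulVec]
      exact H963.neu_Pn _)
    (lvS ρ j k) (34 * (p + p')) (lvS_pos hρ j k) (by
      filter_upwards [hT, hdom, Ioo_mem_nhdsGT ht] with s hs hsd hs2
      have h3 := site_lvl2 hb hn hs2.1 hs2.2 hs.1 hs.2 hY hρ1 hp hp' hsd hK
        (κ := 2 * z) (by positivity) hκK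
      have e : ∀ J : V N → ℝ,
          (2 : ℝ) • ((cellP N (2 ^ n) * (z • ((Pn : Matrix (V N) (V N) ℝ) * D))) *ᵥ J) =
          (2 * z) • ((cellP N (2 ^ n) * ((Pn : Matrix (V N) (V N) ℝ) * D)) *ᵥ J) := fun J => by
        rw [Matrix.mul_smul, smul_mulVec, smul_smul]
      simp only [e]
      exact h3)
  refine key.trans (le_of_eq ?_)
  ring

/-- **TYPICAL SOURCES THROUGH A SITE MAP**, split class -/
theorem site_typS {b : ℝ} (hb : 0 < b) : ∃ C c : ℝ, 0 < C ∧ 0 < c ∧ c ≤ 1 ∧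
    ∀ (N : ℕ) [NeZero N] (n m : ℕ), 2 ^ n ∣ N → 2 ^ m ∣ N → ∀ [NeZero (N / 2 ^ n)],
    ∀ t : ℝ, 0 < t → t * ((2 : ℝ) ^ n) ^ 2 ≤ 1 → t * ((2 : ℝ) ^ m) ^ 2 ≤ 1 →
      1 < t * 4 ^ (m + 1) → 9 ≤ t * (N : ℝ) ^ 2 →
    ∀ (D : Matrix (V N) (V N) ℝ) (kD δ k₀ q₀ kI : ℝ) (C₁ C₂ : Matrix (V (N / 2 ^ n))
      (V (N / 2 ^ n)) ℝ), 1 ≤ kD → 0 < δ →
      (∀ v : V N → ℝ, ∑ x, (Dᵀ *ᵥ v) x ^ 2 ≤ kD * ∑ x, v x ^ 2) →
      (∀ v : V N → ℝ, ∑ x, ((1 - cellP N (2 ^ n)) *ᵥ (Dᵀ *ᵥ (cellP N (2 ^ n) *ᵥ v))) x ^ 2 ≤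
        δ ^ 2 * ∑ x, v x ^ 2) →
      0 ≤ k₀ → 0 ≤ q₀ → q₀ ≤ k₀ * (t * ((2 ^ n : ℕ) : ℝ) ^ 2) → 0 ≤ kI →
      LS k₀ q₀ kI (cobV N (2 ^ n) * D * (cobV N (2 ^ n))ᵀ) C₁ C₂ →
    ∀ (Y ρ p p' κ₀ z : ℝ) (j k : ℕ), (2 : ℝ) ^ (j + k) ≤ Y → 0 < ρ → ρ ≤ 1 → p ≤ 1 / 2 →
      p' ≤ 1 / 2 → 1 ≤ κ₀ →
      (∀ q : V (N / 2 ^ n), q ≠ 0 → EE q ≤ t * ((2 ^ n : ℕ) : ℝ) ^ 2 →
        ((2 ^ n : ℕ) : ℝ) ^ 2 * PinC N (2 ^ n) b t t q ≤ κ₀ * EE q) →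
      1 ≤ z → z * δ ≤ 1 →
      2 * z * √(2 * (5 + k₀ * (2 + 4 * κ₀ + max 1 (b * κ₀)))) ≤ 2 ^ j →
      (∀ᶠ s in 𝓝[>] (0 : ℝ), TypE N (2 ^ n) b t s Y 1 p ∧ TypE N (2 ^ n) b t s 1 ρ p') →
    (nuS N b t).real {F | 2 * lvS ρ j k <
        Rs (nwt N b t 0) ((z • ((Pn : Matrix (V N) (V N) ℝ) * D)) *ᵥ src N t F)} ≤
      68 * (p + p') + C * ((t * (N : ℝ) ^ 2) ^ 4 * (z ^ 2 * kD) ^ 3) *
        (((2 : ℝ) ^ n * √t) ^ c + z * δ) * (1 + 1 / lvS ρ j k) := by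
  obtain ⟨C, c, hC, hc, hc1, h⟩ := site_typ2 hb
  refine ⟨C, c, hC, hc, hc1, ?_⟩
  intro N _ n m hn hm _ t ht htn htm htm1 htN D kD δ k₀ q₀ kI C₁ C₂ hkD hδ hD1 hD2 hk₀ hq₀ hqT
    hkI hLS Y ρ p p' κ₀ z j k hY hρ hρ1 hp hp' hκ₀ hP hz hzδ hκK hT
  have hK : 0 ≤ 2 * (5 + k₀ * (2 + 4 * κ₀ + max 1 (b * κ₀))) := by
    have : (1 : ℝ) ≤ max 1 (b * κ₀) := le_max_left _ _
    have h1 : 0 ≤ 2 + 4 * κ₀ + max 1 (b * κ₀) := by linarith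
    have h2 := mul_nonneg hk₀ h1
    linarith
  exact h N n m hn hm t ht htn htm htm1 htN D kD _ δ hkD hK hδ hD1 hD2
    (dom_site2 hb hn ht hκ₀ hP hLS hk₀ hq₀ hqT hkI) Y ρ p p' z j k hY hρ hρ1 hp hp' hz hzδ hκK hT

end

end Vale.Agent.P159.H817.Dm
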