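import Vale.Agent.P159.H817.Ang10
import Vale.Agent.P159.H817.St3

/-!
P159 / module ANG (helper817), part 11: the energy `eD N n` of the axis pair `(0, n e1)` on the torus
`N`: exact scaling, logarithm, convergence along dyadic scales at a fixed ratio.
-/

set_option linter.unusedSectionVars false

namespace Vale.Agent.P159.H817

open Finset Real Filter Topology
open Vale.Agent.P159.TM.Spec (V)
open Vale.Agent.P159.H474 (sx)

noncomputable section

/-- the axis point `n e1` -/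
def ax (N n : ℕ) [NeZero N] : V N := ((n : ZMod N), 0)

/-- energy of the canonical field of the axis pair `0, n e1` on the torus of side `N` -/
def eD (N n : ℕ) : ℝ :=
  if h : N = 0 then 0 else haveI : NeZero N := ⟨h⟩; nrm (bD (0 : V N) (ax N n))

lemma eD_eq (N n : ℕ) [hN : NeZero N] : eD N n = nrm (bD (0 : V N) (ax N n)) := by
  unfold eD
  rw [dif_neg (NeZero.ne N)]

lemma ax_vma {N n : ℕ} [NeZero N] (h : 2 * n ≤ N) : (ax N n).1.valMinAbs = n :=
  ZMod.valMinAbs_natCast_of_le_half (by omega)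

lemma sz_ax {N n : ℕ} [NeZero N] (h : 2 * n ≤ N) : sz (ax N n) = n := by
  unfold sz
  rw [ax_vma h]
  unfold ax
  simp

lemma sx_ax {N n : ℕ} [NeZero N] (h : 2 * n ≤ N) : sx (ax N n) = (n : ℝ) ^ 2 := by
  unfold H474.sx
  rw [ax_vma h]
  unfold ax
  simp

lemma ax_ne {N n : ℕ} [NeZero N] (h0 : 1 ≤ n) (h : 2 * n ≤ N) : ax N n ≠ 0 := by
  intro h1
  have h2 := sz_ax h
  rw [h1, sz_zero] at h2
  omega

lemma v_ax {N n : ℕ} [NeZero N] (h : 2 * n ≤ N) : v1 (0 : V N) (ax N n) = n ∧ v2 (0 : V N) (ax N n) = 0 := by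
  unfold v1 v2
  rw [sub_zero]
  refine ⟨ax_vma h, ?_⟩
  unfold ax
  simp

/-- the energy in closed form -/
theorem eD_val {N n : ℕ} [NeZero N] (h : 2 * n ≤ N) :
    eD N n = 2 * aN (ax N n) + (n : ℝ) ^ 2 / (N : ℝ) ^ 2 := by
  have hN := N_pos_real (N := N)
  obtain ⟨h1, h2⟩ := v_ax h
  rw [eD_eq]
  unfold bD
  rw [nrm_jD, h1, h2, zero_sub]
  have e : aN (-ax N n) = aN (ax N n) := by
    unfold aN
    rw [G0_neg]
  rw [e]
  push_cast
  field_simp
  ring

lemma sc_ax {N n : ℕ} [NeZero N] (M : ℕ) [NeZero M] (h : 2 * n ≤ N) :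
    sc M (ax N n) = ax (M * N) (M * n) := by
  unfold sc
  rw [ax_vma h]
  unfold ax
  ext
  · simp
  · simp

/-- **exact scaling of the energy** -/
theorem eD_scale {N n : ℕ} (M : ℕ) (hM : 1 ≤ M) (h0 : 1 ≤ n) (h : 2 * n ≤ N) :
    |eD (M * N) (M * n) - eD N n - Real.log M / π| ≤ 8000000 * √(1 / √(n : ℝ)) := by
  have : NeZero N := ⟨by omega⟩
  have : NeZero M := ⟨by omega⟩
  have hN := N_pos_real (N := N)
  have hMr : (0 : ℝ) < M := by exact_mod_cast hM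
  have hMn : 2 * (M * n) ≤ M * N := by
    calc 2 * (M * n) = M * (2 * n) := by ring
      _ ≤ M * N := Nat.mul_le_mul_left M h
  rw [eD_val h, eD_val hMn, ← sc_ax M h]
  have h1 := aN_scale M (ax_ne h0 h)
  rw [sz_ax h] at h1
  have hpi := Real.pi_pos
  have e : 2 * aN (sc M (ax N n)) + ((M * n : ℕ) : ℝ) ^ 2 / ((M * N : ℕ) : ℝ) ^ 2 -
      (2 * aN (ax N n) + (n : ℝ) ^ 2 / (N : ℝ) ^ 2) - Real.log M / π =
      2 * (aN (sc M (ax N n)) - aN (ax N n) - Real.log M / (2 * π)) := by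
    push_cast
    field_simp
    ring
  rw [e, abs_mul, abs_of_pos (by norm_num : (0 : ℝ) < 2)]
  linarith

/-- **logarithm** -/
theorem eD_log : ∃ κ : ℝ, ∀ N n : ℕ, 1 ≤ n → 2 * n ≤ N →
    |eD N n - Real.log n / π - κ| ≤
      40000 / n + 1400000 * √((n : ℝ) / N) + ((n : ℝ) / N) ^ 2 := by
  obtain ⟨ca, hca⟩ := aN_log
  refine ⟨2 * ca, fun N n h0 h => ?_⟩
  have : NeZero N := ⟨by omega⟩
  have hpi := Real.pi_pos
  have hn : (0 : ℝ) < n := by exact_mod_cast h0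
  have h1 := hca N (ax N n) (ax_ne h0 h)
  rw [sz_ax h, sx_ax h, Real.log_pow] at h1
  rw [eD_val h]
  have e : 2 * aN (ax N n) + (n : ℝ) ^ 2 / (N : ℝ) ^ 2 - Real.log n / π - 2 * ca =
      2 * (aN (ax N n) - ((2 : ℕ) : ℝ) * Real.log n / (4 * π) - ca) + ((n : ℝ) / N) ^ 2 := by
    rw [div_pow]
    push_cast
    field_simp
    ring
  rw [e]
  refine (abs_add_le _ _).trans ?_
  rw [abs_mul, abs_of_pos (by norm_num : (0 : ℝ) < 2),
    abs_of_nonneg (by positivity : (0 : ℝ) ≤ ((n : ℝ) / N) ^ 2)]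
  have : 40000 / (n : ℝ) = 2 * (20000 / n) := by ring
  rw [this]
  linarith

/-- **convergence along the dyadic scales at a fixed ratio** -/
theorem eD_conv (i : ℕ) (hi : 1 ≤ i) : ∃ κ : ℝ, ∀ m : ℕ,
    |eD (2 ^ i * 2 ^ m) (2 ^ m) - m * Real.log 2 / π - κ| ≤ 64000000 * (7 / 8 : ℝ) ^ m := by
  have hpi := Real.pi_pos
  set u : ℕ → ℝ := fun m => eD (2 ^ i * 2 ^ m) (2 ^ m) - m * Real.log 2 / π with hu
  -- `2 ^ (-1/4) ≤ 7/8`
  have hq : ∀ m : ℕ, √(1 / √((2 ^ m : ℕ) : ℝ)) ≤ (7 / 8 : ℝ) ^ m := by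
    intro m
    rw [Real.sqrt_le_left (by positivity), ← pow_mul, mul_comm m 2, pow_mul]
    have h1 : (64 / 49 : ℝ) ^ m ≤ √((2 ^ m : ℕ) : ℝ) := by
      refine Real.le_sqrt_of_sq_le ?_
      rw [← pow_mul, mul_comm m 2, pow_mul]
      push_cast
      refine pow_le_pow_left₀ (by norm_num) ?_ m
      norm_num
    have h2 : (0 : ℝ) < √((2 ^ m : ℕ) : ℝ) := Real.sqrt_pos.2 (by positivity)
    rw [div_le_iff₀ h2]
    calc (1 : ℝ) = ((7 / 8 : ℝ) ^ 2) ^ m * (64 / 49 : ℝ) ^ m := by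
          rw [← mul_pow]; norm_num
      _ ≤ _ := mul_le_mul_of_nonneg_left h1 (by positivity)
  have hstep : ∀ m, |u (m + 1) - u m| ≤ 8000000 * (7 / 8 : ℝ) ^ m := by
    intro m
    have h1 := eD_scale (N := 2 ^ i * 2 ^ m) (n := 2 ^ m) 2 (by norm_num)
      (Nat.one_le_two_pow) (Nat.mul_le_mul_right _ (by
        calc 2 = 2 ^ 1 := by norm_num
          _ ≤ 2 ^ i := Nat.pow_le_pow_right (by norm_num) hi))
    have e1 : 2 * (2 ^ i * 2 ^ m) = 2 ^ i * 2 ^ (m + 1) := by ring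
    have e2 : 2 * 2 ^ m = 2 ^ (m + 1) := by ring
    rw [e1, e2] at h1
    have e3 : u (m + 1) - u m =
        eD (2 ^ i * 2 ^ (m + 1)) (2 ^ (m + 1)) - eD (2 ^ i * 2 ^ m) (2 ^ m) -
          Real.log ((2 : ℕ) : ℝ) / π := by
      simp only [hu]
      push_cast
      ring
    rw [e3]
    exact h1.trans (mul_le_mul_of_nonneg_left (hq m) (by norm_num))
  have hcau : CauchySeq u := by
    refine cauchySeq_of_le_geometric (7 / 8) 8000000 (by norm_num) fun m => ?_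
    rw [dist_comm, Real.dist_eq]
    exact hstep m
  obtain ⟨κ, hκ⟩ := cauchySeq_tendsto_of_complete hcau
  refine ⟨κ, fun m => ?_⟩
  have h1 := dist_le_of_le_geometric_of_tendsto (r := 7 / 8) (C := 8000000) (by norm_num)
    (f := u) (fun m => by rw [dist_comm, Real.dist_eq]; exact hstep m) hκ m
  rw [Real.dist_eq] at h1
  refine h1.trans (le_of_eq ?_)
  ring

end

end Vale.Agent.P159.H817
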