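import Vale.Agent.P159.H817.St15
import Vale.Agent.P159.H817.Ang11

/-!
P159 / module STATG (helper817), part 16: **STATZ**, the theorem for the partition functions with
dislocations: `(N, r) → (M N, R)`.
-/

set_option linter.unusedSectionVars false

namespace Vale.Agent.P159.H817

open Finset
open Vale.Agent.P159.TM.Spec (V)
open Vale.Agent.P159.H37 (Zn)
open Vale.Agent.P159.H770 (wTD)
open Vale.Agent.P159.TM.SpecC (wT)
open Vale.Agent.P159.H883 (PT)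

noncomputable section

variable {N : ℕ} [NeZero N] {M : ℕ} [NeZero M] {b t a m : ℝ} {n : ℕ}

/-- the two decorations -/
def edec (F0 F1 : ℤ → ℤ → ℝ) (p q x : V N) : ℝ := dec F0 p x + dec F1 q x

lemma gr_edec (F0 F1 : ℤ → ℤ → ℝ) (p q : V N) (e : V N × Bool) :
    gr (edec F0 F1 p q) e = gr (dec F0 p) e + gr (dec F1 q) e := gr_add (dec F0 p) (dec F1 q) e

lemma gr_const_zero (e : V N × Bool) : gr (fun _ : V N => (0 : ℝ)) e = 0 := by
  obtain ⟨x, c⟩ := e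
  rw [gr_eq, sub_self]

lemma cfg_zero (F0 F1 : ℤ → ℤ → ℝ) (p q : V N) :
    cfg F0 F1 p q (fun _ => 0) = fun e => bD p q e + gr (edec F0 F1 p q) e := by
  funext e
  unfold cfg
  rw [gr_edec, gr_const_zero, add_zero]

/-- **the energy of the pair relative to its decorations** -/
def LP (N : ℕ) [NeZero N] (b t : ℝ) (F0 F1 : ℤ → ℤ → ℝ) (p q : V N) : ℝ :=
  EZ N b t (cfg F0 F1 p q fun _ => 0) - EZ N b t (gr (edec F0 F1 p q))

/-- in the letters of helper883 -/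
theorem LP_eq (hb : 0 < b) (ht : 0 < t) {F0 F1 : ℤ → ℤ → ℝ} {p q : V N} {η : V N × Bool → ℤ}
    {φ : V N → ℝ} (h : bD p q = eF η φ) :
    LP N b t F0 F1 p q =
      -Real.log (PT N b (t • (1 : Matrix (V N) (V N) ℝ)) η φ (edec F0 F1 p q)) := by
  have hM := H883.mf_scalar (N := N) ht
  have e1 : cfg F0 F1 p q (fun _ => 0) = eF η (φ + edec F0 F1 p q) := by
    rw [cfg_zero, h]
    funext ⟨x, c⟩
    unfold eF
    rw [gr_eq, gr_eq, gr_eq]
    simp only [Pi.add_apply]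
    ring
  have p1 := (H883.bw_wTD (N := N) hb η).Zn_pos hM (φ + edec F0 F1 p q)
  have p2 := (H883.bw_wTD (N := N) hb 0).Zn_pos hM (edec F0 F1 p q)
  have p3 := (H883.bw_wTD (N := N) hb 0).Zn_pos hM 0
  unfold LP EZ
  rw [e1, gr_eF, zero_eF, ZE_eF hb, ZE_eF hb, ZE_eF hb, H883.PT_eq,
    Real.log_div p1.ne' p3.ne', Real.log_div p2.ne' p3.ne']
  rw [H770.wTD_zero] at p2 ⊢
  rw [Real.log_div p1.ne' p2.ne']
  ring

/-! ### the flat form of the decorations -/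

lemma Qf_bD (p q : V N) (F : V N → ℝ) :
    Qf a m n (fun e => bD p q e + gr F e) = a * nrm (bD p q) + Qf a m n (gr F) :=
  Qf_div (fun x => dv_bD p q x) F

lemma Qf_edec {l : ℕ} {F0 F1 : ℤ → ℤ → ℝ} (h0 : SuppD l F0) (h1 : SuppD l F1) {p q : V N}
    (hpq : n + 2 * l + 8 ≤ sz (q - p)) :
    Qf a m n (gr (edec F0 F1 p q)) = Qf a m n (gr (dec F0 p)) + Qf a m n (gr (dec F1 q)) := by
  have e : gr (edec F0 F1 p q) = fun e => gr (dec F0 p) e + gr (dec F1 q) e :=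
    funext fun e => gr_edec F0 F1 p q e
  rw [e, Qf_add, Bq_zero (w := p) (r := l + 1) (d := n + 3) le_rfl ?_ ?_]
  · ring
  · rintro ⟨x, c⟩ hx
    by_contra hc
    exact hx (gr_dec_zero h0 c (by simp only at hc; omega))
  · rintro ⟨x, c⟩ hx
    by_contra hc
    refine hx (gr_dec_zero h1 c ?_)
    simp only at hc
    have g1 := sz_add_le (q - x) (x - p)
    rw [sub_add_sub_cancel, sz_sub_comm q x] at g1
    omega

lemma Qf_dec (F : ℤ → ℤ → ℝ) (p : V N) :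
    Qf a m n (gr (dec F p)) = Qf a m n (gr (dec F (0 : V N))) := by
  rw [← Qf_tr p (gr (dec F p))]
  congr 1
  funext ⟨x, c⟩
  rw [gr_eq, gr_eq]
  have h1 := dec_shift F (0 : V N) p x
  have h2 := dec_shift F (0 : V N) p (x + eb c)
  rw [zero_add] at h1 h2
  have c1 : x + p + eb c = x + eb c + p := by abel
  simp only
  rw [c1, h1, h2]

lemma EZ_dec (hb : 0 < b) (F : ℤ → ℤ → ℝ) (p : V N) :
    EZ N b t (gr (dec F p)) = EZ N b t (gr (dec F (0 : V N))) := by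
  rw [← EZ_tr hb p (EG.gr (dec F p))]
  congr 1
  funext ⟨x, c⟩
  rw [gr_eq, gr_eq]
  have h1 := dec_shift F (0 : V N) p x
  have h2 := dec_shift F (0 : V N) p (x + eb c)
  rw [zero_add] at h1 h2
  have c1 : x + p + eb c = x + eb c + p := by abel
  simp only
  rw [c1, h1, h2]

lemma ext_dec {l : ℕ} {F : ℤ → ℤ → ℝ} (h : SuppD l F) (hN : 8 * l + 64 ≤ N) :
    ext M (gr (dec F (0 : V N))) = gr (dec F (0 : V (M * N))) := by
  funext ⟨x, c⟩
  have hst := sz_step x c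
  unfold ext
  by_cases hx : 4 * sz x ≤ N
  · rw [if_pos (by simpa using hx), gr_eq, gr_eq]
    simp only
    have hp0 : prj (N := N) M 0 = 0 := prj_zero M
    rw [← prj_eb (N := N) M c, ← prj_add]
    conv_lhs => rw [← hp0]
    rw [dec_prj F (by rw [sub_zero]; omega), dec_prj F (by rw [sub_zero]; omega)]
  · rw [if_neg (by simpa using hx), gr_dec_zero h c (by rw [sub_zero]; omega)]

lemma dec_box {l : ℕ} {F : ℤ → ℤ → ℝ} (h : SuppD l F) (hN : 8 * l + 64 ≤ N) (e : V N × Bool)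
    (he : N < 4 * sz e.1) : gr (dec F (0 : V N)) e = 0 := by
  obtain ⟨x, c⟩ := e
  simp only at he
  exact gr_dec_zero h c (by rw [sub_zero]; omega)

/-- **STATZ** -/
theorem statz {l r : ℕ} {Λ ε₁ ε₂ ε₃ : ℝ} {D0 D1 : Dec} (hb : 0 < b) (hnl : n + 3 ≤ l)
    (H : Sys N l r Λ ε₁ ε₂ ε₃ D0 D1 (rh N b t a n))
    (H' : Sys (M * N) l r Λ ε₁ ε₂ ε₃ D0 D1 (rh (M * N) b t a n))
    (hX : ∀ β : V N × Bool → ℝ, KK l r Λ D0 D1 β → (∀ e, N < 4 * sz e.1 → β e = 0) →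
      KK l r Λ D0 D1 (ext M β) → |EZ (M * N) b t (ext M β) - EZ N b t β| ≤ ε₃)
    {s : ℕ} (hs : r = 64 * s) {F0 F1 : ℤ → ℤ → ℝ} (h0 : F0 ∈ D0) (h1 : F1 ∈ D1)
    (hΛ : 10000000000 * (1 + CG) ≤ Λ) (hr : 10000000000 * (1 + CG) * l ≤ r) {R : ℕ}
    (hR : r ≤ R) (hR2 : R ≤ 2 * r)
    (hX0 : |EZ (M * N) b t (gr (dec F0 0)) - EZ N b t (gr (dec F0 0))| ≤ ε₃)
    (hX1 : |EZ (M * N) b t (gr (dec F1 0)) - EZ N b t (gr (dec F1 0))| ≤ ε₃)
    (hd : |EZ N b t (gr (edec F0 F1 0 (r • e1))) - EZ N b t (gr (dec F0 0)) -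
      EZ N b t (gr (dec F1 (r • e1)))| ≤ ε₃)
    (hd' : |EZ (M * N) b t (gr (edec F0 F1 0 (R • e1))) - EZ (M * N) b t (gr (dec F0 0)) -
      EZ (M * N) b t (gr (dec F1 (R • e1)))| ≤ ε₃) :
    |LP (M * N) b t F0 F1 0 (R • e1) - LP N b t F0 F1 0 (r • e1) -
      a / 2 * (eD (M * N) R - eD N r)| ≤ 12500 * eM (M * N) l r ε₁ ε₂ ε₃ + 4 * ε₃ := by
  have hl4 := H.hl
  have hlr := H.hlr
  have hrN := H.hrN
  have hMN : N ≤ M * N := Nat.le_mul_of_pos_left N (NeZero.pos M)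
  have hXr : ∀ β : V N × Bool → ℝ, KK l r Λ D0 D1 β → (∀ e, N < 4 * sz e.1 → β e = 0) →
      KK l r Λ D0 D1 (ext M β) → |rh (M * N) b t a n (ext M β) - rh N b t a n β| ≤ ε₃ := by
    intro β k1 hs k2
    have h := hX β k1 hs k2
    unfold rh
    rw [Qf_ext (by omega) hs]
    have e : EZ (M * N) b t (ext M β) - Qf a (t / a) n β / 2 -
        (EZ N b t β - Qf a (t / a) n β / 2) = EZ (M * N) b t (ext M β) - EZ N b t β := by ring
    rw [e]
    exact h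
  have key := statg (M := M) H H' hXr hs h0 h1 hΛ hr hR hR2
  have s0 := H.supp0 F0 h0
  have s1 := H.supp1 F1 h1
  -- the two functionals
  have g1 : sg (rh N b t a n) F0 F1 0 (r • e1) = EZ N b t (cfg F0 F1 0 (r • e1) fun _ => 0) -
      (a * eD N r + (Qf a (t / a) n (gr (dec F0 (0 : V N))) +
        Qf a (t / a) n (gr (dec F1 (0 : V N))))) / 2 := by
    unfold sg rh
    have hq : sz ((r • e1 : V N) - 0) = r := by rw [sub_zero, sz_ne1 (by omega)]
    rw [cfg_zero, Qf_bD, Qf_edec s0 s1 (by rw [hq]; omega), Qf_dec F1 (r • e1), eD_eq]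
    have e : ax N r = r • e1 := (nsmul_e1 r).symm
    rw [e]
  have g2 : sg (rh (M * N) b t a n) F0 F1 0 (R • e1) =
      EZ (M * N) b t (cfg F0 F1 0 (R • e1) fun _ => 0) -
      (a * eD (M * N) R + (Qf a (t / a) n (gr (dec F0 (0 : V N))) +
        Qf a (t / a) n (gr (dec F1 (0 : V N))))) / 2 := by
    unfold sg rh
    have hq : sz ((R • e1 : V (M * N)) - 0) = R := by rw [sub_zero, sz_ne1 (by omega)]
    rw [cfg_zero, Qf_bD, Qf_edec s0 s1 (by rw [hq]; omega), Qf_dec F1 (R • e1), eD_eq]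
    have e : ax (M * N) R = R • e1 := (nsmul_e1 R).symm
    rw [e, ← ext_dec s0 (by omega : 8 * l + 64 ≤ N), ← ext_dec s1 (by omega : 8 * l + 64 ≤ N),
      Qf_ext (by omega) (fun e he => dec_box s0 (by omega) e he),
      Qf_ext (by omega) (fun e he => dec_box s1 (by omega) e he)]
  rw [EZ_dec hb F1] at hd hd'
  rw [g1, g2] at key
  unfold LP
  rw [abs_le] at key hX0 hX1 hd hd' ⊢
  constructor <;> linarith [key.1, key.2, hX0.1, hX0.2, hX1.1, hX1.2, hd.1, hd.2, hd'.1, hd'.2]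

end

end Vale.Agent.P159.H817
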