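import Vale.Agent.P159.H817.Ang6
import Vale.Agent.P159.H474.Green8

/-!
P159 / module ANG (helper817), part 7: the potential kernel of the torus,
`aN x = (1/4π) log |x|² + ca + O(1/|x| + √(|x|/N))`.
-/

set_option linter.unusedSectionVars false

namespace Vale.Agent.P159.H817

open Finset Real
open Vale.Agent.P159.TM.H764 (cN sN ch EE dt)
open Vale.Agent.P159.TM.Spec (V)
open Vale.Agent.P159.H474 (GK Gi Im SN sx nx)

noncomputable section

variable {N : ℕ} [NeZero N]

/-! ### `1 - cos (k x) ≤ (3/2) |x|₁ √E(k)` -/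

lemma sk_eq (k : ZMod N) : √(sk k) = ‖(ch k : ℂ) - 1‖ := (norm_ch_sub k).symm

lemma sqrt_sk_add (a b : ZMod N) : √(sk (a + b)) ≤ √(sk a) + √(sk b) := by
  rw [sk_eq, sk_eq, sk_eq]
  have h : (ch (a + b) : ℂ) - 1 = ch a * (ch b - 1) + (ch a - 1) := by
    rw [show (ch (a + b) : ℂ) = ch a * ch b from TM.H764.ch_add a b]
    ring
  rw [h]
  refine (norm_add_le _ _).trans ?_
  rw [norm_mul, abs_ch, one_mul, add_comm]

lemma sk_neg (a : ZMod N) : sk (-a) = sk a := by
  unfold sk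
  rw [TM.H764.cN_neg]

lemma sqrt_sk_nat (n : ℕ) (b : ZMod N) : √(sk ((n : ZMod N) * b)) ≤ n * √(sk b) := by
  induction n with
  | zero => simp [sk, TM.H764.cN_zero]
  | succ n ih =>
    have e : (((n + 1 : ℕ) : ZMod N)) * b = (n : ZMod N) * b + b := by push_cast; ring
    rw [e]
    refine (sqrt_sk_add _ _).trans ?_
    push_cast
    linarith

lemma sqrt_sk_mul (a b : ZMod N) : √(sk (b * a)) ≤ a.valMinAbs.natAbs * √(sk b) := by
  have h0 : ((a.valMinAbs : ℤ) : ZMod N) = a := ZMod.coe_valMinAbs a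
  have h := sqrt_sk_nat a.valMinAbs.natAbs b
  rcases Int.natAbs_eq a.valMinAbs with h1 | h1
  · have h2 : ((a.valMinAbs.natAbs : ℕ) : ZMod N) = a := by
      conv_rhs => rw [← h0, h1]
      simp
    rw [h2, mul_comm a] at h
    exact h
  · have h2 : ((a.valMinAbs.natAbs : ℕ) : ZMod N) = -a := by
      conv_rhs => rw [← h0, h1]
      simp
    rw [h2, neg_mul, sk_neg, mul_comm a] at h
    exact h

lemma sqrt_sk_dt (k x : V N) : √(sk (dt k x)) ≤ l1 x * √(EE k) := by
  have hE1 : √(sk k.1) ≤ √(EE k) := by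
    refine Real.sqrt_le_sqrt ?_
    have := sk_nonneg k.2
    unfold EE sk at *
    linarith
  have hE2 : √(sk k.2) ≤ √(EE k) := by
    refine Real.sqrt_le_sqrt ?_
    have := sk_nonneg k.1
    unfold EE sk at *
    linarith
  unfold dt l1
  refine (sqrt_sk_add _ _).trans ?_
  refine (add_le_add (sqrt_sk_mul x.1 k.1) (sqrt_sk_mul x.2 k.2)).trans ?_
  push_cast
  rw [add_mul]
  exact add_le_add (mul_le_mul_of_nonneg_left hE1 (Nat.cast_nonneg _))
    (mul_le_mul_of_nonneg_left hE2 (Nat.cast_nonneg _))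

lemma one_sub_cN_le (k x : V N) : 1 - cN (dt k x) ≤ 2 * (l1 x * √(EE k)) := by
  have h1 := sqrt_sk_dt k x
  have h2 := sqrt_sk_le (dt k x)
  have h3 := Real.sq_sqrt (sk_nonneg (dt k x))
  have h4 := Real.sqrt_nonneg (sk (dt k x))
  have h5 : 1 - cN (dt k x) = sk (dt k x) / 2 := by unfold sk; ring
  rw [h5]
  nlinarith

lemma sqrt_EE_ge (k : V N) : 4 * (sz k : ℝ) / N ≤ √(EE k) := by
  have hN : (0 : ℝ) < N := Nat.cast_pos.2 (NeZero.pos N)
  have hE1 : √(sk k.1) ≤ √(EE k) := by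
    refine Real.sqrt_le_sqrt ?_
    have := sk_nonneg k.2
    unfold EE sk at *
    linarith
  have hE2 : √(sk k.2) ≤ √(EE k) := by
    refine Real.sqrt_le_sqrt ?_
    have := sk_nonneg k.1
    unfold EE sk at *
    linarith
  unfold sz
  rcases le_total k.1.valMinAbs.natAbs k.2.valMinAbs.natAbs with h | h
  · rw [max_eq_right h]
    exact (sk_ge k.2).trans hE2
  · rw [max_eq_left h]
    exact (sk_ge k.1).trans hE1

lemma sum_inv2 (M : ℕ) (hM : 1 ≤ M) :
    ∑ k ∈ (range (M + 1)).filter (fun k : ℕ => 1 ≤ k), 1 / (k : ℝ) ^ 2 ≤ 2 - 1 / (M : ℝ) := by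
  induction M, hM using Nat.le_induction with
  | base =>
    have : (range (1 + 1)).filter (fun k : ℕ => 1 ≤ k) = {1} := by decide
    rw [this]
    norm_num
  | succ M hM ih =>
    rw [Finset.range_add_one, Finset.filter_insert, if_pos (by omega : 1 ≤ M + 1),
      Finset.sum_insert (by simp)]
    have hM1 : (1 : ℝ) ≤ M := by exact_mod_cast hM
    have h4 : 1 / (((M + 1 : ℕ) : ℝ)) ^ 2 ≤ 1 / (M : ℝ) - 1 / ((M + 1 : ℕ) : ℝ) := by
      push_cast
      rw [div_sub_div _ _ (by positivity) (by positivity),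
        div_le_div_iff₀ (by positivity) (by positivity)]
      nlinarith
    linarith

/-- `∑_{k ≠ 0} E(k)^{-3/2} ≤ N³ / 2` -/
lemma sum_EE3 : ∑ k ∈ (univ : Finset (V N)).erase 0, 1 / √(EE k) ^ 3 ≤ (N : ℝ) ^ 3 / 2 := by
  classical
  have hN : (0 : ℝ) < N := Nat.cast_pos.2 (NeZero.pos N)
  have hsz : ∀ k : V N, k ≠ 0 → 1 ≤ sz k := by
    intro k hk
    by_contra h
    have h1 : k.1.valMinAbs.natAbs = 0 ∧ k.2.valMinAbs.natAbs = 0 := by
      unfold sz at h; omega
    refine hk (Prod.ext ?_ ?_)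
    · exact (ZMod.valMinAbs_eq_zero _).1 (Int.natAbs_eq_zero.1 h1.1)
    · exact (ZMod.valMinAbs_eq_zero _).1 (Int.natAbs_eq_zero.1 h1.2)
  have h1 : ∀ k ∈ (univ : Finset (V N)).erase 0, 1 / √(EE k) ^ 3 ≤
      (N : ℝ) ^ 3 / 64 * (1 / (sz k : ℝ) ^ 3) := by
    intro k hk
    have hs := hsz k (Finset.mem_erase.1 hk).1
    have hs0 : (0 : ℝ) < sz k := by exact_mod_cast hs
    have h := sqrt_EE_ge k
    have h2 : (4 * (sz k : ℝ) / N) ^ 3 ≤ √(EE k) ^ 3 := pow_le_pow_left₀ (by positivity) h 3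
    refine (div_le_div_of_nonneg_left zero_le_one (by positivity) h2).trans (le_of_eq ?_)
    field_simp
    norm_num
  refine (Finset.sum_le_sum h1).trans ?_
  rw [← Finset.mul_sum]
  have h2 : (univ : Finset (V N)).erase 0 ⊆ univ.filter (fun x => 1 ≤ sz x) := by
    intro k hk
    rw [Finset.mem_filter]
    exact ⟨Finset.mem_univ _, hsz k (Finset.mem_erase.1 hk).1⟩
  have h3 := sum_sz_le (N := N) (g := fun k => 1 / (k : ℝ) ^ 3) (fun k => by positivity) 1
  have h4 : ∑ k ∈ (univ : Finset (V N)).erase 0, 1 / (sz k : ℝ) ^ 3 ≤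
      ∑ x ∈ (univ : Finset (V N)).filter (fun x => 1 ≤ sz x), 1 / (sz x : ℝ) ^ 3 :=
    Finset.sum_le_sum_of_subset_of_nonneg h2 fun _ _ _ => by positivity
  have h5 : ∑ k ∈ (range (N + 1)).filter (fun k => 1 ≤ k), 8 * ((k : ℝ) + 1) * (1 / (k : ℝ) ^ 3) ≤
      ∑ k ∈ (range (N + 1)).filter (fun k => 1 ≤ k), 16 * (1 / (k : ℝ) ^ 2) := by
    refine Finset.sum_le_sum fun k hk => ?_
    have hk1 : 1 ≤ k := (Finset.mem_filter.1 hk).2
    have hk' : (1 : ℝ) ≤ k := by exact_mod_cast hk1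
    rw [mul_one_div, mul_one_div, div_le_div_iff₀ (by positivity) (by positivity)]
    have : (k : ℝ) ^ 3 = k * k ^ 2 := by ring
    rw [this]
    have h0 : 0 ≤ (k : ℝ) ^ 2 := by positivity
    nlinarith
  rw [← Finset.mul_sum] at h5
  have h6 := sum_inv2 N (NeZero.one_le (n := N))
  have h7 : (0 : ℝ) < 1 / N := by positivity
  have h8 : ∑ k ∈ (univ : Finset (V N)).erase 0, 1 / (sz k : ℝ) ^ 3 ≤ 32 := by
    linarith
  calc (N : ℝ) ^ 3 / 64 * ∑ k ∈ (univ : Finset (V N)).erase 0, 1 / (sz k : ℝ) ^ 3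
      ≤ (N : ℝ) ^ 3 / 64 * 32 := mul_le_mul_of_nonneg_left h8 (by positivity)
    _ = (N : ℝ) ^ 3 / 2 := by ring

/-- the mass is removed at the cost `N |x|₁ m` -/
theorem aN_mass (x : V N) {m : ℝ} (hm : 0 < m) :
    |aN x - (GK N m 0 - GK N m x)| ≤ N * l1 x * m := by
  classical
  have hN : (0 : ℝ) < N := Nat.cast_pos.2 (NeZero.pos N)
  have e1 : aN x = (∑ k ∈ (univ : Finset (V N)).erase 0, (1 - cN (dt k x)) / EE k) / (N : ℝ) ^ 2 := by
    unfold aN G0
    rw [← sub_div, ← Finset.sum_sub_distrib]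
    congr 1
    refine Finset.sum_congr rfl fun k _ => ?_
    rw [← sub_div]
    congr 2
    unfold dt
    simp [TM.H764.cN_zero]
  have e2 : GK N m 0 - GK N m x =
      (∑ k ∈ (univ : Finset (V N)).erase 0, (1 - cN (dt k x)) / (m + EE k)) / (N : ℝ) ^ 2 := by
    unfold GK
    rw [← sub_div, ← Finset.sum_sub_distrib]
    congr 1
    rw [← Finset.sum_erase_add _ _ (Finset.mem_univ (0 : V N))]
    have h0 : cN (dt (0 : V N) (0 : V N)) / (m + EE (0 : V N)) -
        cN (dt (0 : V N) x) / (m + EE (0 : V N)) = 0 := by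
      unfold dt
      simp [TM.H764.cN_zero]
    rw [h0, add_zero]
    refine Finset.sum_congr rfl fun k _ => ?_
    rw [← sub_div]
    congr 2
    unfold dt
    simp [TM.H764.cN_zero]
  rw [e1, e2, ← sub_div, ← Finset.sum_sub_distrib, abs_div, abs_of_pos (by positivity : (0 : ℝ) < (N : ℝ) ^ 2),
    div_le_iff₀ (by positivity)]
  refine (Finset.abs_sum_le_sum_abs _ _).trans ?_
  have h1 : ∀ k ∈ (univ : Finset (V N)).erase 0,
      |(1 - cN (dt k x)) / EE k - (1 - cN (dt k x)) / (m + EE k)| ≤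
        2 * l1 x * m * (1 / √(EE k) ^ 3) := by
    intro k hk
    have hE := EE_pos (Finset.mem_erase.1 hk).1
    have hs : 0 < √(EE k) := Real.sqrt_pos.2 hE
    have hs2 : √(EE k) ^ 2 = EE k := Real.sq_sqrt hE.le
    have hc : 0 ≤ 1 - cN (dt k x) := by
      have := TM.H764.cN_le_one (dt k x)
      linarith
    have hc2 := one_sub_cN_le k x
    have e3 : (1 - cN (dt k x)) / EE k - (1 - cN (dt k x)) / (m + EE k) =
        (1 - cN (dt k x)) * m / (EE k * (m + EE k)) := by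
      field_simp
      ring
    rw [e3, abs_of_nonneg (by positivity)]
    have h2 : (1 - cN (dt k x)) * m / (EE k * (m + EE k)) ≤
        2 * (l1 x * √(EE k)) * m / (EE k * EE k) := by
      refine div_le_div₀ (by positivity) (mul_le_mul_of_nonneg_right hc2 hm.le) (by positivity) ?_
      exact mul_le_mul_of_nonneg_left (by linarith) hE.le
    refine h2.trans (le_of_eq ?_)
    have e4 : EE k * EE k = √(EE k) ^ 4 := by
      rw [show √(EE k) ^ 4 = √(EE k) ^ 2 * √(EE k) ^ 2 by ring, hs2]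
    rw [e4]
    field_simp
  refine (Finset.sum_le_sum h1).trans ?_
  rw [← Finset.mul_sum]
  have h3 := sum_EE3 (N := N)
  calc 2 * (l1 x : ℝ) * m * ∑ k ∈ (univ : Finset (V N)).erase 0, 1 / √(EE k) ^ 3
      ≤ 2 * (l1 x : ℝ) * m * ((N : ℝ) ^ 3 / 2) := mul_le_mul_of_nonneg_left h3 (by positivity)
    _ = N * l1 x * m * (N : ℝ) ^ 2 := by ring

lemma nx_eq_sz (x : V N) : nx x = sz x := rfl

lemma exp_small {u : ℝ} (hu : 1 ≤ u) : exp (-(u / 16)) ≤ 512 * (1 / u ^ 2) := by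
  have h := pow_le_exp8 (x := u / 2) (by positivity) 2
  have e : u / 2 / 8 = u / 16 := by ring
  rw [e] at h
  have h2 : (u / 2) ^ 2 = u ^ 2 / 4 := by ring
  have h3 : ((Nat.factorial 2 : ℕ) : ℝ) = 2 := by norm_num [Nat.factorial]
  rw [h2, h3] at h
  rw [Real.exp_neg, mul_one_div, inv_eq_one_div, div_le_div_iff₀ (Real.exp_pos _) (by positivity)]
  linarith

/-- **the potential kernel of the torus** -/
theorem aN_log : ∃ ca : ℝ, ∀ (N : ℕ) [NeZero N] (x : V N), x ≠ 0 →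
    |aN x - Real.log (sx x) / (4 * π) - ca| ≤
      20000 / sz x + 700000 * √(sz x / N) := by
  obtain ⟨c, hc⟩ := H474.GK_log
  obtain ⟨c₀, h0⟩ := H474.exists_c0
  refine ⟨c₀ - c, fun N _ x hx => ?_⟩
  have hpi := Real.pi_pos
  have hN1 : (1 : ℝ) ≤ N := by exact_mod_cast (NeZero.one_le (n := N))
  have hN : (0 : ℝ) < N := by linarith
  have hn1 : 1 ≤ sz x := H474.nx_pos hx
  have hn1' : (1 : ℝ) ≤ sz x := by exact_mod_cast hn1
  have hn : (0 : ℝ) < sz x := by linarith
  have hnN : (sz x : ℝ) ≤ N := by exact_mod_cast sz_le_N x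
  obtain ⟨g1, g2⟩ := H474.nx_sq_le x
  rw [nx_eq_sz] at g1 g2
  have hsx0 : 0 < sx x := lt_of_lt_of_le (by positivity) g1
  set n : ℝ := (sz x : ℝ) with hnd
  set r : ℝ := √(n / N) with hr
  have hr0 : 0 < r := Real.sqrt_pos.2 (by positivity)
  have hr2 : r ^ 2 = n / N := Real.sq_sqrt (by positivity)
  have hr1 : r ≤ 1 := by
    rw [hr, Real.sqrt_le_left (by norm_num)]
    rw [one_pow, div_le_one hN]
    exact hnN
  set m : ℝ := r / (n * N) with hmd
  have hm : 0 < m := by positivity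
  have hm1 : m ≤ 1 := by
    rw [hmd, div_le_one (by positivity)]
    nlinarith
  set u : ℝ := (N : ℝ) * √m with hu
  have hu2 : u ^ 2 = 1 / r := by
    rw [hu, mul_pow, Real.sq_sqrt hm.le, hmd]
    have : (N : ℝ) = n / r ^ 2 := by rw [hr2]; field_simp
    rw [this]
    field_simp
  have hu0 : 0 ≤ u := by positivity
  have hu1 : 1 ≤ u := by
    have h1 : 1 ≤ u ^ 2 := by rw [hu2, le_div_iff₀ hr0]; linarith
    nlinarith
  have hru : r * u ≤ 1 := by
    have h1 : (r * u) ^ 2 = r := by rw [mul_pow, hu2]; field_simp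
    have h2 : 0 ≤ r * u := by positivity
    nlinarith
  have hnm : n * √m ≤ r := by
    have e : n * √m = r ^ 2 * u := by
      rw [hr2, hu]
      field_simp
    rw [e]
    nlinarith
  have hsm : √m ≤ r := by
    have := Real.sqrt_nonneg m
    nlinarith
  have hex : exp (-(u / 16)) ≤ 512 * r := by
    have h := exp_small hu1
    rw [hu2] at h
    simpa using h
  have hl1 : (l1 x : ℝ) ≤ 2 * n := by rw [hnd]; exact_mod_cast l1_le x
  have i1 := aN_mass x hm
  have i1' : (N : ℝ) * l1 x * m ≤ 2 * r := by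
    calc (N : ℝ) * l1 x * m ≤ N * (2 * n) * m := by
          refine mul_le_mul_of_nonneg_right (mul_le_mul_of_nonneg_left hl1 hN.le) hm.le
      _ = 2 * r := by rw [hmd]; field_simp
  have i2 := H474.SN_sub_Im' (N := N) hm (by linarith) hu1
  rw [H474.SN_eq] at i2
  have i3 := h0 m hm hm1
  have i4 := hc N m hm hm1 hu1 x hx
  rw [nx_eq_sz] at i4
  have hu' : (N : ℝ) * √m / 16 = u / 16 := rfl
  rw [hu'] at i2 i4
  have e1 : aN x - Real.log (sx x) / (4 * π) - (c₀ - c) =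
      (aN x - (GK N m 0 - GK N m x)) + (GK N m (0, 0) - Im m) +
      (Im m - Real.log (1 / m) / (4 * π) - c₀) -
      (GK N m x - Real.log (1 / (m * sx x)) / (4 * π) - c) := by
    rw [one_div, one_div, Real.log_inv, Real.log_inv, Real.log_mul hm.ne' hsx0.ne']
    have : GK N m (0, 0) = GK N m 0 := rfl
    rw [this]
    field_simp
    ring
  rw [e1]
  refine (abs_sub _ _).trans ((add_le_add ((abs_add_three _ _ _).trans
    (add_le_add (add_le_add i1 i2) i3)) i4).trans ?_)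
  linarith

end

end Vale.Agent.P159.H817
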