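import Vale.Agent.P159.H817.Ang5

/-!
P159 / module ANG (helper817), part 6: bounds of the field of a dislocation pair near the cores and
in the far (dipole) region; lattice sums.
-/

set_option linter.unusedSectionVars false

namespace Vale.Agent.P159.H817

open Finset
open Vale.Agent.P159.TM.Spec (V)

noncomputable section

variable {N : ℕ} [NeZero N]

/-! ### the size function -/

lemma natAbs_add_le' (a b : ZMod N) :
    (a + b).valMinAbs.natAbs ≤ a.valMinAbs.natAbs + b.valMinAbs.natAbs :=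
  (ZMod.natAbs_valMinAbs_add_le a b).trans (Int.natAbs_add_le _ _)

lemma sz_add_le (x y : V N) : sz (x + y) ≤ sz x + sz y := by
  have h1 := natAbs_add_le' x.1 y.1
  have h2 := natAbs_add_le' x.2 y.2
  unfold sz
  simp only [Prod.fst_add, Prod.snd_add]
  omega

lemma sz_neg (x : V N) : sz (-x) = sz x := by
  unfold sz
  simp only [Prod.fst_neg, Prod.snd_neg, ZMod.natAbs_valMinAbs_neg]

lemma sz_zero : sz (0 : V N) = 0 := by unfold sz; simp

lemma sz_sub_comm (x y : V N) : sz (x - y) = sz (y - x) := by rw [← sz_neg, neg_sub]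

lemma sz_le_add (x y : V N) : sz x ≤ sz (x + y) + sz y := by
  have h := sz_add_le (x + y) (-y)
  rw [add_neg_cancel_right, sz_neg] at h
  exact h

lemma sz_unit {e : V N} (he : e = e1 ∨ e = e2) : sz e ≤ 1 := by
  rcases he with rfl | rfl
  · have h := (sz_e1 (0 : V N)).2
    rwa [sz_zero, zero_add, zero_add] at h
  · have h := (sz_e2 (0 : V N)).2
    rwa [sz_zero, zero_add, zero_add] at h

lemma sz_nsmul {e : V N} (he : e = e1 ∨ e = e2) (n : ℕ) : sz (n • e) ≤ n := by
  induction n with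
  | zero => rw [zero_smul, sz_zero]
  | succ n ih =>
    rw [succ_nsmul]
    have h1 := sz_add_le (n • e) e
    have h2 := sz_unit he
    omega

lemma BD.shift {C : ℝ} (hC : 0 ≤ C) {p : ℕ} {f : V N → ℝ} (h : BD C p f) {a : V N}
    (ha : sz a ≤ 1) : BD (2 ^ p * C) p (fun x => f (x + a)) := fun x => by
  refine (h (x + a)).trans ?_
  have h1 : (1 : ℝ) + sz x ≤ 2 * (1 + sz (x + a)) := by
    have h2 := sz_le_add x a
    have : 1 + sz x ≤ 2 * (1 + sz (x + a)) := by omega
    exact_mod_cast this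
  rw [div_le_div_iff₀ (by positivity) (by positivity)]
  have h3 := pow_le_pow_left₀ (by positivity) h1 p
  rw [mul_pow] at h3
  calc C * (1 + (sz x : ℝ)) ^ p ≤ C * (2 ^ p * (1 + (sz (x + a) : ℝ)) ^ p) :=
        mul_le_mul_of_nonneg_left h3 hC
    _ = _ := by ring

lemma BD.shift_sub {C : ℝ} (hC : 0 ≤ C) {p : ℕ} {f : V N → ℝ} (h : BD C p f) {a : V N}
    (ha : sz a ≤ 1) : BD (2 ^ p * C) p (fun x => f (x - a)) := by
  have h1 := h.shift hC (a := -a) (by rw [sz_neg]; exact ha)
  simpa only [← sub_eq_add_neg] using h1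

/-! ### moving the argument -/

/-- change of `f` along `n` unit steps -/
lemma move {C : ℝ} (hC : 0 ≤ C) {p : ℕ} {f : V N → ℝ} {e : V N} (he : e = e1 ∨ e = e2)
    (h : BD C p (D e f)) (n : ℕ) (x : V N) (hx : 2 * n ≤ 1 + sz x) :
    |f (x + n • e) - f x| ≤ n * (2 ^ p * C) / (1 + (sz x : ℝ)) ^ p ∧
    |f (x - n • e) - f x| ≤ n * (2 ^ p * C) / (1 + (sz x : ℝ)) ^ p := by
  have hb : ∀ y : V N, sz x ≤ sz y + n → |D e f y| ≤ 2 ^ p * C / (1 + (sz x : ℝ)) ^ p := by
    intro y hy
    refine (h y).trans ?_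
    have h1 : (1 : ℝ) + sz x ≤ 2 * (1 + sz y) := by
      have : 1 + sz x ≤ 2 * (1 + sz y) := by omega
      exact_mod_cast this
    rw [div_le_div_iff₀ (by positivity) (by positivity)]
    have h3 := pow_le_pow_left₀ (by positivity) h1 p
    rw [mul_pow] at h3
    calc C * (1 + (sz x : ℝ)) ^ p ≤ C * (2 ^ p * (1 + (sz y : ℝ)) ^ p) :=
          mul_le_mul_of_nonneg_left h3 hC
      _ = _ := by ring
  have tele : ∀ (y : V N) (m : ℕ), (∀ i < m, |D e f (y + i • e)| ≤
      2 ^ p * C / (1 + (sz x : ℝ)) ^ p) →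
      |f (y + m • e) - f y| ≤ m * (2 ^ p * C / (1 + (sz x : ℝ)) ^ p) := by
    intro y m
    induction m with
    | zero => intro _; simp
    | succ m ih =>
      intro hm
      have h1 := ih fun i hi => hm i (by omega)
      have h2 := hm m (by omega)
      have e3 : f (y + (m + 1) • e) - f y = D e f (y + m • e) + (f (y + m • e) - f y) := by
        unfold D
        rw [succ_nsmul, ← add_assoc]
        ring
      rw [e3]
      refine (abs_add_le _ _).trans ?_
      push_cast
      linarith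
  constructor
  · rw [mul_div_assoc]
    refine tele x n fun i hi => hb _ ?_
    have h1 := sz_le_add x (i • e)
    have h2 := sz_nsmul he i
    omega
  · rw [mul_div_assoc, abs_sub_comm]
    have h0 := tele (x - n • e) n fun i hi => hb _ (by
      have e4 : x - n • e + i • e = x + -((n - i) • e) := by
        have : n • e = (n - i) • e + i • e := by
          rw [← add_smul]; congr 1; omega
        rw [this]; abel
      rw [e4]
      have h1 := sz_le_add x (-((n - i) • e))
      rw [sz_neg] at h1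
      have h2 := sz_nsmul he (n - i)
      omega)
    rwa [sub_add_cancel] at h0

/-- `ℓ¹` length -/
def l1 (r : V N) : ℕ := r.1.valMinAbs.natAbs + r.2.valMinAbs.natAbs

lemma l1_le (r : V N) : l1 r ≤ 2 * sz r := by
  unfold l1 sz
  omega

lemma l1_neg (r : V N) : l1 (-r) = l1 r := by
  unfold l1
  simp only [Prod.fst_neg, Prod.snd_neg, ZMod.natAbs_valMinAbs_neg]

lemma decomp (r : V N) :
    ∃ s t : V N, r = s + t ∧
      (s = r.1.valMinAbs.natAbs • (e1 : V N) ∨ s = -(r.1.valMinAbs.natAbs • (e1 : V N))) ∧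
      (t = r.2.valMinAbs.natAbs • (e2 : V N) ∨ t = -(r.2.valMinAbs.natAbs • (e2 : V N))) := by
  have key : ∀ a : ZMod N, a = ((a.valMinAbs.natAbs : ℕ) : ZMod N) ∨
      a = -((a.valMinAbs.natAbs : ℕ) : ZMod N) := by
    intro a
    have h0 : ((a.valMinAbs : ℤ) : ZMod N) = a := ZMod.coe_valMinAbs a
    rcases Int.natAbs_eq a.valMinAbs with h | h
    · left
      conv_lhs => rw [← h0, h]
      simp
    · right
      conv_lhs => rw [← h0, h]
      simp
  refine ⟨(r.1, 0), (0, r.2), by ext <;> simp, ?_, ?_⟩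
  · have hk : ((r.1.valMinAbs.natAbs • (e1 : V N) : V N)) =
        (((r.1.valMinAbs.natAbs : ℕ) : ZMod N), 0) := by
      ext <;> simp [e1]
    rw [hk]
    rcases key r.1 with h | h
    · left
      ext
      · exact h
      · rfl
    · right
      ext
      · exact h
      · simp
  · have hk : ((r.2.valMinAbs.natAbs • (e2 : V N) : V N)) =
        (0, ((r.2.valMinAbs.natAbs : ℕ) : ZMod N)) := by
      ext <;> simp [e2]
    rw [hk]
    rcases key r.2 with h | h
    · left
      ext
      · rfl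
      · exact h
    · right
      ext
      · simp
      · exact h

/-- **far field**: change of `f` under a translation by `r`, `4 |r|₁ ≤ 1 + |x|` -/
theorem far {C : ℝ} (hC : 0 ≤ C) {p : ℕ} {f : V N → ℝ} (h1 : BD C p (D e1 f))
    (h2 : BD C p (D e2 f)) (r x : V N) (hx : 4 * l1 r ≤ 1 + sz x) :
    |f (x + r) - f x| ≤ l1 r * (4 ^ p * C) / (1 + (sz x : ℝ)) ^ p := by
  obtain ⟨s, t, hr, hs, ht⟩ := decomp r
  set a := r.1.valMinAbs.natAbs with ha
  set c := r.2.valMinAbs.natAbs with hc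
  have hl : l1 r = a + c := rfl
  rw [hl] at hx
  have hsz : sz s ≤ a := by
    rcases hs with h | h
    · rw [h]; exact sz_nsmul (Or.inl rfl) a
    · rw [h, sz_neg]; exact sz_nsmul (Or.inl rfl) a
  have m1 : |f (x + s) - f x| ≤ a * (2 ^ p * C) / (1 + (sz x : ℝ)) ^ p := by
    have h := move hC (Or.inl rfl) h1 a x (by omega)
    rcases hs with hs | hs
    · rw [hs]; exact h.1
    · rw [hs, ← sub_eq_add_neg]; exact h.2
  have hy := sz_le_add x s
  have m2 : |f (x + s + t) - f (x + s)| ≤ c * (2 ^ p * C) / (1 + (sz (x + s) : ℝ)) ^ p := by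
    have h := move hC (Or.inr rfl) h2 c (x + s) (by omega)
    rcases ht with ht | ht
    · rw [ht]; exact h.1
    · rw [ht, ← sub_eq_add_neg]; exact h.2
  have m3 : c * (2 ^ p * C) / (1 + (sz (x + s) : ℝ)) ^ p ≤
      c * (4 ^ p * C) / (1 + (sz x : ℝ)) ^ p := by
    rw [div_le_div_iff₀ (by positivity) (by positivity)]
    have h4 : (1 : ℝ) + sz x ≤ 2 * (1 + sz (x + s)) := by
      have : 1 + sz x ≤ 2 * (1 + sz (x + s)) := by omega
      exact_mod_cast this
    have h5 := pow_le_pow_left₀ (by positivity) h4 p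
    rw [mul_pow] at h5
    have h6 : (4 : ℝ) ^ p = 2 ^ p * 2 ^ p := by rw [← mul_pow]; norm_num
    calc c * (2 ^ p * C) * (1 + (sz x : ℝ)) ^ p
        ≤ c * (2 ^ p * C) * (2 ^ p * (1 + (sz (x + s) : ℝ)) ^ p) :=
          mul_le_mul_of_nonneg_left h5 (by positivity)
      _ = c * (4 ^ p * C) * (1 + (sz (x + s) : ℝ)) ^ p := by rw [h6]; ring
  have m4 : a * (2 ^ p * C) / (1 + (sz x : ℝ)) ^ p ≤ a * (4 ^ p * C) / (1 + (sz x : ℝ)) ^ p := by
    refine div_le_div_of_nonneg_right ?_ (by positivity)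
    refine mul_le_mul_of_nonneg_left ?_ (by positivity)
    exact mul_le_mul_of_nonneg_right (pow_le_pow_left₀ (by norm_num) (by norm_num) p) hC
  have e3 : f (x + r) - f x = (f (x + s + t) - f (x + s)) + (f (x + s) - f x) := by
    rw [hr, ← add_assoc]; ring
  rw [e3]
  refine (abs_add_le _ _).trans ?_
  rw [hl]
  push_cast
  calc _ ≤ c * (4 ^ p * C) / (1 + (sz x : ℝ)) ^ p + a * (4 ^ p * C) / (1 + (sz x : ℝ)) ^ p :=
        add_le_add (m2.trans m3) (m1.trans m4)
    _ = _ := by ring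

/-! ### words applied to the potential of the pair -/

/-- the pair function of `F` -/
def pf (F : V N → ℝ) (p q x : V N) : ℝ := F (x - q) - F (x - p)

lemma D_pf (e : V N) (F : V N → ℝ) (p q : V N) : D e (pf F p q) = pf (D e F) p q := by
  funext x
  unfold D pf
  have b : ∀ r : V N, x + e - r = x - r + e := fun r => by abel
  rw [b, b]
  ring

lemma ph_eq (p q : V N) : ph p q = pf G0 p q := rfl

lemma pf_near {C : ℝ} {n : ℕ} {F : V N → ℝ} (h : BD C n F) (p q x : V N) :
    |pf F p q x| ≤ C / (1 + (sz (x - q) : ℝ)) ^ n + C / (1 + (sz (x - p) : ℝ)) ^ n := by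
  unfold pf
  exact (abs_sub _ _).trans (add_le_add (h _) (h _))

lemma pf_far {C : ℝ} (hC : 0 ≤ C) {n : ℕ} {F : V N → ℝ} (h1 : BD C n (D e1 F))
    (h2 : BD C n (D e2 F)) (p q x : V N) (hx : 4 * l1 (p - q) ≤ 1 + sz (x - p)) :
    |pf F p q x| ≤ l1 (p - q) * (4 ^ n * C) / (1 + (sz (x - p) : ℝ)) ^ n := by
  have h := far hC h1 h2 (p - q) (x - p) hx
  unfold pf
  rwa [sub_add_sub_cancel] at h

/-! ### the field -/

lemma jD_false (p q : V N) (a c : ℝ) (x : V N) :
    jD p q a c (x, false) = a - pf (D e2 G0) p q (x - e2) := by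
  unfold jD
  rw [rot_false, cst_false, ph_eq, ← D_pf]
  unfold D
  rw [sub_add_cancel]
  ring

lemma jD_true (p q : V N) (a c : ℝ) (x : V N) :
    jD p q a c (x, true) = c + pf (D e1 G0) p q (x - e1) := by
  unfold jD
  rw [rot_true, cst_true, ph_eq, ← D_pf]
  unfold D
  rw [sub_add_cancel]
  ring

lemma inv_shift (n : ℕ) {a : V N} (ha : sz a ≤ 1) (x p : V N) :
    1 / (1 + (sz (x - a - p) : ℝ)) ^ n ≤ 2 ^ n / (1 + (sz (x - p) : ℝ)) ^ n := by
  rw [div_le_div_iff₀ (by positivity) (by positivity), one_mul, ← mul_pow]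
  refine pow_le_pow_left₀ (by positivity) ?_ n
  have e : x - a - p = x - p + -a := by abel
  rw [e]
  have h := sz_le_add (x - p) (-a)
  rw [sz_neg] at h
  have : 1 + sz (x - p) ≤ 2 * (1 + sz (x - p + -a)) := by omega
  exact_mod_cast this

/-- **(ANG iii)** the field near the cores -/
theorem jD_near (p q : V N) (a c : ℝ) (x : V N) (b : Bool) :
    |jD p q a c (x, b)| ≤ (|a| + |c|) +
      2 * CG * (1 / (1 + (sz (x - q) : ℝ)) + 1 / (1 + (sz (x - p) : ℝ))) := by
  have hC := CG_pos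
  have key : ∀ e : V N, (e = e1 ∨ e = e2) → ∀ e' : V N, (e' = e1 ∨ e' = e2) →
      |pf (D e' (G0 (N := N))) p q (x - e)| ≤
      2 * CG * (1 / (1 + (sz (x - q) : ℝ)) + 1 / (1 + (sz (x - p) : ℝ))) := by
    intro e he e' he'
    have h := pf_near (grad_G0 he') p q (x - e)
    have i1 := inv_shift 1 (sz_unit he) x p
    have i2 := inv_shift 1 (sz_unit he) x q
    simp only [pow_one] at h i1 i2
    refine h.trans ?_
    calc CG / (1 + (sz (x - e - q) : ℝ)) + CG / (1 + (sz (x - e - p) : ℝ))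
        = CG * (1 / (1 + (sz (x - e - q) : ℝ)) + 1 / (1 + (sz (x - e - p) : ℝ))) := by ring
      _ ≤ CG * (2 / (1 + (sz (x - q) : ℝ)) + 2 / (1 + (sz (x - p) : ℝ))) :=
          mul_le_mul_of_nonneg_left (add_le_add i2 i1) hC.le
      _ = _ := by ring
  cases b
  · rw [jD_false]
    refine (abs_sub _ _).trans ?_
    have h1 := key e2 (Or.inr rfl) e2 (Or.inr rfl)
    have h2 := abs_nonneg c
    linarith
  · rw [jD_true]
    refine (abs_add_le _ _).trans ?_
    have h1 := key e1 (Or.inl rfl) e1 (Or.inl rfl)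
    have h2 := abs_nonneg a
    linarith

/-- **(ANG iii)** the far (dipole) field -/
theorem jD_far (p q : V N) (a c : ℝ) (x : V N) (b : Bool) (hx : 4 * l1 (p - q) ≤ sz (x - p)) :
    |jD p q a c (x, b)| ≤ (|a| + |c|) +
      l1 (p - q) * (64 * CG) / (1 + (sz (x - p) : ℝ)) ^ 2 := by
  have hC := CG_pos
  have key : ∀ e : V N, (e = e1 ∨ e = e2) → ∀ e' : V N, (e' = e1 ∨ e' = e2) →
      |pf (D e' (G0 (N := N))) p q (x - e)| ≤
      l1 (p - q) * (64 * CG) / (1 + (sz (x - p) : ℝ)) ^ 2 := by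
    intro e he e' he'
    have hs : 4 * l1 (p - q) ≤ 1 + sz (x - e - p) := by
      have e0 : x - e - p = x - p + -e := by abel
      rw [e0]
      have h := sz_le_add (x - p) (-e)
      rw [sz_neg] at h
      have := sz_unit he
      omega
    have h := pf_far hC.le (grad2_G0 (Or.inl rfl) he') (grad2_G0 (Or.inr rfl) he') p q (x - e) hs
    have i1 := inv_shift 2 (sz_unit he) x p
    refine h.trans ?_
    calc l1 (p - q) * (4 ^ 2 * CG) / (1 + (sz (x - e - p) : ℝ)) ^ 2
        = l1 (p - q) * (4 ^ 2 * CG) * (1 / (1 + (sz (x - e - p) : ℝ)) ^ 2) := by ring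
      _ ≤ l1 (p - q) * (4 ^ 2 * CG) * (2 ^ 2 / (1 + (sz (x - p) : ℝ)) ^ 2) :=
          mul_le_mul_of_nonneg_left i1 (by positivity)
      _ = _ := by ring
  cases b
  · rw [jD_false]
    refine (abs_sub _ _).trans ?_
    have h1 := key e2 (Or.inr rfl) e2 (Or.inr rfl)
    have h2 := abs_nonneg c
    linarith
  · rw [jD_true]
    refine (abs_add_le _ _).trans ?_
    have h1 := key e1 (Or.inl rfl) e1 (Or.inl rfl)
    have h2 := abs_nonneg a
    linarith

/-- first differences of the field, near the cores -/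
theorem DjD_near (p q : V N) (a c : ℝ) (x : V N) (b : Bool) {d : V N} (hd : d = e1 ∨ d = e2) :
    |jD p q a c (x + d, b) - jD p q a c (x, b)| ≤
      4 * CG * (1 / (1 + (sz (x - q) : ℝ)) ^ 2 + 1 / (1 + (sz (x - p) : ℝ)) ^ 2) := by
  have hC := CG_pos
  have key : ∀ e : V N, (e = e1 ∨ e = e2) → ∀ e' : V N, (e' = e1 ∨ e' = e2) →
      |pf (D e' (G0 (N := N))) p q (x + d - e) - pf (D e' (G0 (N := N))) p q (x - e)| ≤
      4 * CG * (1 / (1 + (sz (x - q) : ℝ)) ^ 2 + 1 / (1 + (sz (x - p) : ℝ)) ^ 2) := by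
    intro e he e' he'
    have e0 : pf (D e' (G0 (N := N))) p q (x + d - e) - pf (D e' (G0 (N := N))) p q (x - e) =
        pf (D d (D e' (G0 (N := N)))) p q (x - e) := by
      have hh := congrFun (D_pf d (D e' (G0 (N := N))) p q) (x - e)
      rw [← hh]
      have : x + d - e = x - e + d := by abel
      rw [this]
      rfl
    rw [e0]
    have h := pf_near (grad2_G0 hd he') p q (x - e)
    have i1 := inv_shift 2 (sz_unit he) x p
    have i2 := inv_shift 2 (sz_unit he) x q
    refine h.trans ?_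
    calc CG / (1 + (sz (x - e - q) : ℝ)) ^ 2 + CG / (1 + (sz (x - e - p) : ℝ)) ^ 2
        = CG * (1 / (1 + (sz (x - e - q) : ℝ)) ^ 2 + 1 / (1 + (sz (x - e - p) : ℝ)) ^ 2) := by ring
      _ ≤ CG * (2 ^ 2 / (1 + (sz (x - q) : ℝ)) ^ 2 + 2 ^ 2 / (1 + (sz (x - p) : ℝ)) ^ 2) :=
          mul_le_mul_of_nonneg_left (add_le_add i2 i1) hC.le
      _ = _ := by ring
  cases b
  · rw [jD_false, jD_false]
    have h1 := key e2 (Or.inr rfl) e2 (Or.inr rfl)
    rw [abs_sub_comm] at h1
    refine le_trans (le_of_eq ?_) h1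
    congr 1
    ring
  · rw [jD_true, jD_true]
    have h1 := key e1 (Or.inl rfl) e1 (Or.inl rfl)
    refine le_trans (le_of_eq ?_) h1
    congr 1
    ring

/-- first differences of the field, far region -/
theorem DjD_far (p q : V N) (a c : ℝ) (x : V N) (b : Bool) {d : V N} (hd : d = e1 ∨ d = e2)
    (hx : 4 * l1 (p - q) ≤ sz (x - p)) :
    |jD p q a c (x + d, b) - jD p q a c (x, b)| ≤
      l1 (p - q) * (512 * CG) / (1 + (sz (x - p) : ℝ)) ^ 3 := by
  have hC := CG_pos
  have key : ∀ e : V N, (e = e1 ∨ e = e2) → ∀ e' : V N, (e' = e1 ∨ e' = e2) →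
      |pf (D e' (G0 (N := N))) p q (x + d - e) - pf (D e' (G0 (N := N))) p q (x - e)| ≤
      l1 (p - q) * (512 * CG) / (1 + (sz (x - p) : ℝ)) ^ 3 := by
    intro e he e' he'
    have e0 : pf (D e' (G0 (N := N))) p q (x + d - e) - pf (D e' (G0 (N := N))) p q (x - e) =
        pf (D d (D e' (G0 (N := N)))) p q (x - e) := by
      have hh := congrFun (D_pf d (D e' (G0 (N := N))) p q) (x - e)
      rw [← hh]
      have : x + d - e = x - e + d := by abel
      rw [this]
      rfl
    rw [e0]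
    have hs : 4 * l1 (p - q) ≤ 1 + sz (x - e - p) := by
      have e0 : x - e - p = x - p + -e := by abel
      rw [e0]
      have h := sz_le_add (x - p) (-e)
      rw [sz_neg] at h
      have := sz_unit he
      omega
    have h := pf_far hC.le (grad3_G0 (Or.inl rfl) hd he') (grad3_G0 (Or.inr rfl) hd he')
      p q (x - e) hs
    have i1 := inv_shift 3 (sz_unit he) x p
    refine h.trans ?_
    calc l1 (p - q) * (4 ^ 3 * CG) / (1 + (sz (x - e - p) : ℝ)) ^ 3
        = l1 (p - q) * (4 ^ 3 * CG) * (1 / (1 + (sz (x - e - p) : ℝ)) ^ 3) := by ring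
      _ ≤ l1 (p - q) * (4 ^ 3 * CG) * (2 ^ 3 / (1 + (sz (x - p) : ℝ)) ^ 3) :=
          mul_le_mul_of_nonneg_left i1 (by positivity)
      _ = _ := by ring
  cases b
  · rw [jD_false, jD_false]
    have h1 := key e2 (Or.inr rfl) e2 (Or.inr rfl)
    rw [abs_sub_comm] at h1
    refine le_trans (le_of_eq ?_) h1
    congr 1
    ring
  · rw [jD_true, jD_true]
    have h1 := key e1 (Or.inl rfl) e1 (Or.inl rfl)
    refine le_trans (le_of_eq ?_) h1
    congr 1
    ring

/-! ### lattice sums over the torus -/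

lemma card_abs_le (i : ℕ) : ((univ : Finset (ZMod N)).filter fun a => a.valMinAbs.natAbs = i).card ≤ 2 := by
  classical
  have h1 : ((univ : Finset (ZMod N)).filter fun a => a.valMinAbs.natAbs = i) ⊆
      {((i : ℕ) : ZMod N), -((i : ℕ) : ZMod N)} := by
    intro a ha
    rw [Finset.mem_filter] at ha
    have h0 : ((a.valMinAbs : ℤ) : ZMod N) = a := ZMod.coe_valMinAbs a
    rw [Finset.mem_insert, Finset.mem_singleton]
    rcases Int.natAbs_eq a.valMinAbs with h | h
    · left
      rw [ha.2] at h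
      rw [← h0, h]
      simp
    · right
      rw [ha.2] at h
      rw [← h0, h]
      simp
  exact (Finset.card_le_card h1).trans Finset.card_le_two

lemma card_abs_le' (i : ℕ) :
    ((univ : Finset (ZMod N)).filter fun a => a.valMinAbs.natAbs ≤ i).card ≤ 2 * (i + 1) := by
  classical
  have h1 : ((univ : Finset (ZMod N)).filter fun a => a.valMinAbs.natAbs ≤ i) =
      (range (i + 1)).biUnion fun j =>
        (univ : Finset (ZMod N)).filter fun a => a.valMinAbs.natAbs = j := by
    ext a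
    simp only [Finset.mem_filter, Finset.mem_univ, true_and, Finset.mem_biUnion, Finset.mem_range]
    constructor
    · intro h
      exact ⟨_, by omega, rfl⟩
    · rintro ⟨j, hj, h⟩
      omega
  rw [h1]
  refine Finset.card_biUnion_le.trans ?_
  refine (Finset.sum_le_sum fun j _ => card_abs_le j).trans (le_of_eq ?_)
  simp
  ring

lemma card_sz (k : ℕ) : ((univ : Finset (V N)).filter fun x => sz x = k).card ≤ 8 * (k + 1) := by
  classical
  set A := (univ : Finset (ZMod N)).filter fun a => a.valMinAbs.natAbs = k with hA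
  set B := (univ : Finset (ZMod N)).filter fun a => a.valMinAbs.natAbs ≤ k with hB
  have h1 : ((univ : Finset (V N)).filter fun x => sz x = k) ⊆ A ×ˢ B ∪ B ×ˢ A := by
    intro x hx
    rw [Finset.mem_filter] at hx
    have h2 : max x.1.valMinAbs.natAbs x.2.valMinAbs.natAbs = k := hx.2
    rw [Finset.mem_union, Finset.mem_product, Finset.mem_product, hA, hB]
    simp only [Finset.mem_filter, Finset.mem_univ, true_and]
    omega
  refine (Finset.card_le_card h1).trans ((Finset.card_union_le _ _).trans ?_)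
  rw [Finset.card_product, Finset.card_product]
  have hA2 : A.card ≤ 2 := card_abs_le k
  have hB2 : B.card ≤ 2 * (k + 1) := card_abs_le' k
  have h3 : A.card * B.card ≤ 2 * (2 * (k + 1)) := Nat.mul_le_mul hA2 hB2
  have h4 : B.card * A.card ≤ 2 * (2 * (k + 1)) := by rw [mul_comm]; exact h3
  omega

lemma sz_le_N (x : V N) : sz x ≤ N := by
  have h1 := half_ge x.1
  have h2 := half_ge x.2
  unfold sz
  omega

/-- sums of radial functions -/
theorem sum_sz_le {g : ℕ → ℝ} (hg : ∀ k, 0 ≤ g k) (R : ℕ) :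
    ∑ x ∈ (univ : Finset (V N)).filter (fun x => R ≤ sz x), g (sz x) ≤
      ∑ k ∈ (range (N + 1)).filter (fun k => R ≤ k), 8 * ((k : ℝ) + 1) * g k := by
  classical
  have h1 : (univ : Finset (V N)).filter (fun x => R ≤ sz x) =
      ((range (N + 1)).filter fun k => R ≤ k).biUnion fun k =>
        (univ : Finset (V N)).filter fun x => sz x = k := by
    ext x
    simp only [Finset.mem_filter, Finset.mem_univ, true_and, Finset.mem_biUnion, Finset.mem_range]
    constructor
    · intro h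
      exact ⟨_, ⟨Nat.lt_succ_of_le (sz_le_N x), h⟩, rfl⟩
    · rintro ⟨k, ⟨_, h2⟩, h3⟩
      rw [h3]; exact h2
  rw [h1, Finset.sum_biUnion]
  · refine Finset.sum_le_sum fun k _ => ?_
    have h2 : ∑ x ∈ (univ : Finset (V N)).filter (fun x => sz x = k), g (sz x) =
        ∑ _x ∈ (univ : Finset (V N)).filter (fun x => sz x = k), g k :=
      Finset.sum_congr rfl fun x hx => by rw [(Finset.mem_filter.1 hx).2]
    rw [h2, Finset.sum_const, nsmul_eq_mul]
    refine mul_le_mul_of_nonneg_right ?_ (hg k)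
    have h3 := card_sz (N := N) k
    have h4 : (((univ : Finset (V N)).filter fun x => sz x = k).card : ℝ) ≤
        ((8 * (k + 1) : ℕ) : ℝ) := by exact_mod_cast h3
    push_cast at h4
    exact h4
  · intro i _ j _ hij
    rw [Function.onFun, Finset.disjoint_left]
    intro x hx hy
    rw [Finset.mem_filter] at hx hy
    exact hij (hx.2.symm.trans hy.2)

/-- `∑_{|x| ≥ R} (1 + |x|)⁻⁴ ≤ 16 / (1 + R)²` -/
theorem sum_inv4 (R : ℕ) :
    ∑ x ∈ (univ : Finset (V N)).filter (fun x => R ≤ sz x), 1 / (1 + (sz x : ℝ)) ^ 4 ≤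
      16 / (1 + (R : ℝ)) ^ 2 := by
  have h1 := sum_sz_le (N := N) (g := fun k => 1 / (1 + (k : ℝ)) ^ 4) (fun k => by positivity) R
  refine h1.trans ?_
  have h2 : ∀ k : ℕ, 8 * ((k : ℝ) + 1) * (1 / (1 + (k : ℝ)) ^ 4) = 8 / (1 + (k : ℝ)) ^ 3 := by
    intro k
    field_simp
    ring
  simp_rw [h2]
  have tele : ∀ M : ℕ, R + 1 ≤ M → ∑ k ∈ (range M).filter (fun k => R ≤ k),
      8 / (1 + (k : ℝ)) ^ 3 ≤ 16 / (1 + (R : ℝ)) ^ 2 - 8 / (1 + (M : ℝ)) ^ 2 := by
    intro M hM
    induction M, hM using Nat.le_induction with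
    | base =>
      rw [Finset.range_add_one, Finset.filter_insert, if_pos le_rfl, Finset.sum_insert (by simp)]
      have h3 : ∑ k ∈ (range R).filter (fun k => R ≤ k), 8 / (1 + (k : ℝ)) ^ 3 = 0 := by
        refine Finset.sum_eq_zero fun k hk => ?_
        rw [Finset.mem_filter, Finset.mem_range] at hk
        omega
      rw [h3, add_zero]
      push_cast
      have hR0 : (0 : ℝ) ≤ R := Nat.cast_nonneg _
      have h4 : 8 / (1 + (R : ℝ)) ^ 3 ≤ 8 / (1 + (R : ℝ)) ^ 2 := by
        refine div_le_div_of_nonneg_left (by norm_num) (by positivity) ?_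
        exact pow_le_pow_right₀ (by linarith) (by norm_num)
      have h5 : 8 / (1 + ((R : ℝ) + 1)) ^ 2 ≤ 8 / (1 + (R : ℝ)) ^ 2 := by
        refine div_le_div_of_nonneg_left (by norm_num) (by positivity) ?_
        exact pow_le_pow_left₀ (by positivity) (by linarith) 2
      have h6 : 16 / (1 + (R : ℝ)) ^ 2 = 8 / (1 + (R : ℝ)) ^ 2 + 8 / (1 + (R : ℝ)) ^ 2 := by
        ring
      linarith
    | succ M hM ih =>
      rw [Finset.range_add_one, Finset.filter_insert, if_pos (by omega : R ≤ M),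
        Finset.sum_insert (by simp)]
      push_cast
      have hM1 : (1 : ℝ) ≤ M := by
        have : 1 ≤ M := by omega
        exact_mod_cast this
      have h4 : 8 / (1 + (M : ℝ)) ^ 3 ≤ 8 / (1 + (M : ℝ)) ^ 2 - 8 / (1 + ((M : ℝ) + 1)) ^ 2 := by
        rw [div_sub_div _ _ (by positivity) (by positivity),
          div_le_div_iff₀ (by positivity) (by positivity)]
        have h5 : 0 ≤ (M : ℝ) ^ 2 + M - 1 := by nlinarith
        have h6 : (8 * (1 + ((M : ℝ) + 1)) ^ 2 - (1 + (M : ℝ)) ^ 2 * 8) * (1 + (M : ℝ)) ^ 3 -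
            8 * ((1 + (M : ℝ)) ^ 2 * (1 + ((M : ℝ) + 1)) ^ 2) =
            8 * (1 + (M : ℝ)) ^ 2 * ((M : ℝ) ^ 2 + M - 1) := by ring
        have h7 : 0 ≤ 8 * (1 + (M : ℝ)) ^ 2 * ((M : ℝ) ^ 2 + M - 1) :=
          mul_nonneg (by positivity) h5
        linarith
      linarith
  rcases Nat.lt_or_ge N R with h | h
  · have h3 : ∑ k ∈ (range (N + 1)).filter (fun k => R ≤ k), 8 / (1 + (k : ℝ)) ^ 3 = 0 := by
      refine Finset.sum_eq_zero fun k hk => ?_
      rw [Finset.mem_filter, Finset.mem_range] at hk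
      omega
    rw [h3]
    positivity
  · refine (tele (N + 1) (by omega)).trans ?_
    have : 0 ≤ 8 / (1 + ((N + 1 : ℕ) : ℝ)) ^ 2 := by positivity
    linarith

end

end Vale.Agent.P159.H817
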