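import Vale.Agent.P159.H817.St9

/-!
P159 / module STATG (helper817), part 10: the finite range quadratic form `Qf` of edge fields.
-/

set_option linter.unusedSectionVars false

namespace Vale.Agent.P159.H817

open Finset Polynomial
open Vale.Agent.P159.TM.Spec (V)
open Vale.Agent.P159.TM.H764 (cN EE dt)
open Vale.Agent.P159.H37 (qf)
open Vale.Agent.P159.H864 (TI sym lapM ti_lapM sym_lapM)

noncomputable section

variable {N : ℕ} [NeZero N]

/-! ### the Laplacian -/

/-- kernel of the Laplacian -/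
def kL (z : V N) : ℝ := (if z = 0 then 4 else 0) - (if z = e1 then 1 else 0) -
  (if z = -e1 then 1 else 0) - (if z = e2 then 1 else 0) - (if z = -e2 then 1 else 0)

lemma kL_neg (z : V N) : kL (-z) = kL z := by
  unfold kL
  have h1 : (-z = 0) ↔ (z = 0) := neg_eq_zero
  have h2 : (-z = e1) ↔ (z = -e1) := neg_eq_iff_eq_neg
  have h3 : (-z = -e1) ↔ (z = e1) := neg_inj
  have h4 : (-z = e2) ↔ (z = -e2) := neg_eq_iff_eq_neg
  have h5 : (-z = -e2) ↔ (z = e2) := neg_inj
  simp only [h1, h2, h3, h4, h5]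
  ring

lemma sum_kL (f : V N → ℝ) : ∑ z, kL z * f z = 4 * f 0 - f e1 - f (-e1) - f e2 - f (-e2) := by
  unfold kL
  simp only [sub_mul, ite_mul, zero_mul, one_mul, Finset.sum_sub_distrib, Finset.sum_ite_eq',
    Finset.mem_univ, if_true]

lemma lapM_eq : (lapM : Matrix (V N) (V N) ℝ) = Matrix.of fun x y => kL (y - x) := by
  have hT : TI (Matrix.of fun x y => kL (y - x) : Matrix (V N) (V N) ℝ) := TI.of_ker kL_neg
  refine H864.sym_inj ti_lapM hT fun k => ?_
  rw [sym_lapM, H864.sym_def]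
  simp only [Matrix.of_apply, sub_zero]
  rw [sum_kL]
  have a1 : dt k (e1 : V N) = k.1 := by unfold dt e1; simp
  have a2 : dt k (e2 : V N) = k.2 := by unfold dt e2; simp
  have a0 : dt k (0 : V N) = 0 := by unfold dt; simp
  have a3 : dt k (-e1 : V N) = -k.1 := by unfold dt e1; simp
  have a4 : dt k (-e2 : V N) = -k.2 := by unfold dt e2; simp
  rw [a1, a2, a0, a3, a4, TM.H764.cN_neg, TM.H764.cN_neg, TM.H764.cN_zero]
  unfold EE
  ring

lemma lapM_mulVec (u : V N → ℝ) : Matrix.mulVec lapM u = fun x => -lp u x := by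
  funext x
  rw [lapM_eq]
  unfold Matrix.mulVec dotProduct
  have h1 : ∑ y, (Matrix.of fun x y => kL (y - x) : Matrix (V N) (V N) ℝ) x y * u y =
      ∑ z, kL z * u (z + x) := by
    rw [← Equiv.sum_comp (Equiv.addRight x)]
    refine Finset.sum_congr rfl fun z _ => ?_
    simp only [Equiv.coe_addRight, Matrix.of_apply, add_sub_cancel_right]
  rw [h1, sum_kL (fun z => u (z + x))]
  unfold lp
  have b1 : -e1 + x = x - e1 := by abel
  have b2 : -e2 + x = x - e2 := by abel
  rw [b1, b2, zero_add, add_comm e1 x, add_comm e2 x]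
  ring

lemma qf_lap (u : V N → ℝ) : qf lapM u = nrm (gr u) := by
  rw [H37.qf_eq, lapM_mulVec]
  have h := lp_sum u
  unfold dotProduct nrm
  have h2 : ∑ x, u x * -lp u x = -∑ x, u x * lp u x := by
    rw [← Finset.sum_neg_distrib]
    exact Finset.sum_congr rfl fun x _ => by ring
  rw [h2, h, neg_neg]

/-! ### polynomials of the Laplacian -/

/-- `p(-Δ)` -/
def PM (p : ℝ[X]) : Matrix (V N) (V N) ℝ := aeval lapM p

lemma PM_eq (p : ℝ[X]) : (PM p : Matrix (V N) (V N) ℝ) =
    ∑ i ∈ range (p.natDegree + 1), p.coeff i • lapM ^ i := aeval_eq_sum_range _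

lemma ti_PM (p : ℝ[X]) : TI (PM p : Matrix (V N) (V N) ℝ) := by
  rw [PM_eq]
  exact TI.sum _ fun i _ => (ti_lapM.pow i).smul _

lemma sym_PM (p : ℝ[X]) (k : V N) : sym (PM p) k = p.eval (EE k) := by
  rw [PM_eq, H864.sym_sum, eval_eq_sum_range]
  refine Finset.sum_congr rfl fun i _ => ?_
  rw [H864.sym_smul, H864.sym_pow ti_lapM, sym_lapM]

lemma pow_supp {w : V N} {m : ℕ} {u : V N → ℝ} (hu : ∀ x, m < sz (x - w) → u x = 0) (j : ℕ) :
    ∀ x, m + j < sz (x - w) → Matrix.mulVec (lapM ^ j) u x = 0 := by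
  induction j with
  | zero =>
    intro x hx
    rw [pow_zero, Matrix.one_mulVec]
    exact hu x (by omega)
  | succ j ih =>
    intro x hx
    rw [pow_succ', ← Matrix.mulVec_mulVec, lapM_mulVec]
    show -lp (Matrix.mulVec (lapM ^ j) u) x = 0
    have h1 := sz_e1 (x - w)
    have h2 := sz_e2 (x - w)
    have h3 := sz_e1 (x - e1 - w)
    have h4 := sz_e2 (x - e2 - w)
    have e3 : x - e1 - w + e1 = x - w := by abel
    have e4 : x - e2 - w + e2 = x - w := by abel
    rw [e3] at h3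
    rw [e4] at h4
    have c1 : x + e1 - w = x - w + e1 := by abel
    have c2 : x + e2 - w = x - w + e2 := by abel
    unfold lp
    rw [ih x (by omega), ih (x + e1) (by rw [c1]; omega), ih (x + e2) (by rw [c2]; omega),
      ih (x - e1) (by omega), ih (x - e2) (by omega)]
    ring

lemma PM_supp {p : ℝ[X]} {w : V N} {m n : ℕ} (hp : p.natDegree ≤ n) {u : V N → ℝ}
    (hu : ∀ x, m < sz (x - w) → u x = 0) {x : V N} (hx : m + n < sz (x - w)) :
    Matrix.mulVec (PM p) u x = 0 := by
  rw [PM_eq, Matrix.sum_mulVec, Finset.sum_apply]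
  refine Finset.sum_eq_zero fun i hi => ?_
  rw [Finset.mem_range] at hi
  rw [Matrix.smul_mulVec, Pi.smul_apply, pow_supp hu i x (by omega), smul_zero]

/-! ### the form -/

/-- bilinear form -/
def Bq (a m : ℝ) (n : ℕ) (β γ : V N × Bool → ℝ) : ℝ :=
  a * (∑ e, β e * γ e - ∑ x, Matrix.mulVec (PM (pb n m)) (dv β) x * dv γ x)

/-- **the flat finite range form** -/
def Qf (a m : ℝ) (n : ℕ) (β : V N × Bool → ℝ) : ℝ := Bq a m n β β

variable {a m : ℝ} {n : ℕ}

lemma Bq_comm (β γ : V N × Bool → ℝ) : Bq a m n β γ = Bq a m n γ β := by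
  unfold Bq
  congr 2
  · exact Finset.sum_congr rfl fun e _ => mul_comm _ _
  · have h : ∀ u v : V N → ℝ, ∑ x, Matrix.mulVec (PM (pb n m)) u x * v x =
        dotProduct v (Matrix.mulVec (PM (pb n m)) u) := fun u v => by
      unfold dotProduct
      exact Finset.sum_congr rfl fun x _ => mul_comm _ _
    rw [h, h, Matrix.dotProduct_mulVec, ← Matrix.mulVec_transpose, (ti_PM _).transpose,
      dotProduct_comm]

lemma Bq_add_left (β β' γ : V N × Bool → ℝ) :
    Bq a m n (fun e => β e + β' e) γ = Bq a m n β γ + Bq a m n β' γ := by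
  have h1 : dv (fun e => β e + β' e) = dv β + dv β' := by
    funext x
    exact dv_add β β' x
  unfold Bq
  rw [h1, Matrix.mulVec_add]
  simp only [Pi.add_apply, add_mul, Finset.sum_add_distrib]
  ring

lemma Bq_smul_left (c : ℝ) (β γ : V N × Bool → ℝ) :
    Bq a m n (fun e => c * β e) γ = c * Bq a m n β γ := by
  have h1 : dv (fun e => c * β e) = c • dv β := by
    funext x
    simp only [dv, Pi.smul_apply, smul_eq_mul]
    ring
  unfold Bq
  rw [h1, Matrix.mulVec_smul]
  simp only [Pi.smul_apply, smul_eq_mul, mul_assoc, ← Finset.mul_sum]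
  ring

lemma Bq_add_right (β γ γ' : V N × Bool → ℝ) :
    Bq a m n β (fun e => γ e + γ' e) = Bq a m n β γ + Bq a m n β γ' := by
  rw [Bq_comm, Bq_add_left, Bq_comm γ, Bq_comm γ']

lemma Bq_smul_right (c : ℝ) (β γ : V N × Bool → ℝ) :
    Bq a m n β (fun e => c * γ e) = c * Bq a m n β γ := by
  rw [Bq_comm, Bq_smul_left, Bq_comm]

lemma Qf_add (β γ : V N × Bool → ℝ) :
    Qf a m n (fun e => β e + γ e) = Qf a m n β + Qf a m n γ + 2 * Bq a m n β γ := by
  unfold Qf
  rw [Bq_add_left, Bq_add_right, Bq_add_right, Bq_comm γ β]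
  ring

lemma Qf_smul (c : ℝ) (β : V N × Bool → ℝ) :
    Qf a m n (fun e => c * β e) = c ^ 2 * Qf a m n β := by
  unfold Qf
  rw [Bq_smul_left, Bq_smul_right]
  ring

lemma Qf_neg (β : V N × Bool → ℝ) : Qf a m n (fun e => -β e) = Qf a m n β := by
  have h := Qf_smul (a := a) (m := m) (n := n) (-1) β
  have e : (fun e => -1 * β e) = fun e => -β e := by
    funext e
    ring
  rw [e] at h
  rw [h]
  ring

/-- **finite range** -/
lemma Bq_zero {w : V N} {r d : ℕ} (hd : n + 3 ≤ d) {P W : V N × Bool → ℝ}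
    (hP : ∀ e, P e ≠ 0 → sz (e.1 - w) ≤ r) (hW : ∀ e, W e ≠ 0 → r + d ≤ sz (e.1 - w)) :
    Bq a m n P W = 0 := by
  unfold Bq
  have h1 : ∑ e, P e * W e = 0 := by
    refine Finset.sum_eq_zero fun e _ => ?_
    by_cases h : P e = 0
    · rw [h, zero_mul]
    · by_cases h' : W e = 0
      · rw [h', mul_zero]
      · have := hP e h
        have := hW e h'
        omega
  have hstep : ∀ x : V N, sz (x - w) ≤ sz (x - e1 - w) + 1 ∧ sz (x - e1 - w) ≤ sz (x - w) + 1 ∧
      sz (x - w) ≤ sz (x - e2 - w) + 1 ∧ sz (x - e2 - w) ≤ sz (x - w) + 1 := by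
    intro x
    have h3 := sz_e1 (x - e1 - w)
    have h4 := sz_e2 (x - e2 - w)
    have e3 : x - e1 - w + e1 = x - w := by abel
    have e4 : x - e2 - w + e2 = x - w := by abel
    rw [e3] at h3
    rw [e4] at h4
    omega
  have hz : ∀ {Y : V N × Bool → ℝ} {e : V N × Bool} {q : Prop}, (Y e ≠ 0 → q) → ¬q → Y e = 0 :=
    fun h1 h2 => by
      by_contra h3
      exact h2 (h1 h3)
  have hdP : ∀ x, r + 1 < sz (x - w) → dv P x = 0 := by
    intro x hx
    have h3 := hstep x
    unfold dv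
    rw [hz (hP (x - e1, false)) (by simp only; omega), hz (hP (x, false)) (by simp only; omega),
      hz (hP (x - e2, true)) (by simp only; omega), hz (hP (x, true)) (by simp only; omega)]
    ring
  have hdW : ∀ x, sz (x - w) + 1 < r + d → dv W x = 0 := by
    intro x hx
    have h3 := hstep x
    unfold dv
    rw [hz (hW (x - e1, false)) (by simp only; omega), hz (hW (x, false)) (by simp only; omega),
      hz (hW (x - e2, true)) (by simp only; omega), hz (hW (x, true)) (by simp only; omega)]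
    ring
  have h2 : ∑ x, Matrix.mulVec (PM (pb n m)) (dv P) x * dv W x = 0 := by
    refine Finset.sum_eq_zero fun x _ => ?_
    rcases le_or_gt (sz (x - w)) (r + 1 + n) with h | h
    · rw [hdW x (by omega), mul_zero]
    · rw [PM_supp (pb_deg n m) hdP h, zero_mul]
  rw [h1, h2]
  ring

/-- **mixed differences vanish** -/
lemma Qf_mixed {w : V N} {r d : ℕ} (hd : n + 3 ≤ d) {B P W : V N × Bool → ℝ}
    (hP : ∀ e, P e ≠ 0 → sz (e.1 - w) ≤ r) (hW : ∀ e, W e ≠ 0 → r + d ≤ sz (e.1 - w)) :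
    Qf a m n (fun e => B e + P e + W e) - Qf a m n (fun e => B e + P e) -
      Qf a m n (fun e => B e + W e) + Qf a m n B = 0 := by
  rw [Qf_add (fun e => B e + P e) W, Qf_add B W, Bq_add_left, Bq_zero hd hP hW]
  ring

/-- divergence free part -/
lemma Qf_div {β : V N × Bool → ℝ} (hβ : ∀ x, dv β x = 0) (F : V N → ℝ) :
    Qf a m n (fun e => β e + gr F e) = a * nrm β + Qf a m n (gr F) := by
  have h0 : dv β = 0 := funext hβ
  have h1 : Qf a m n β = a * nrm β := by
    unfold Qf Bq nrm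
    rw [h0, Matrix.mulVec_zero]
    simp only [Pi.zero_apply, mul_zero, Finset.sum_const_zero, sub_zero]
    congr 1
    exact Finset.sum_congr rfl fun e _ => by ring
  have h2 : Bq a m n β (gr F) = 0 := by
    unfold Bq
    rw [h0, Matrix.mulVec_zero, parts]
    simp [hβ]
  rw [Qf_add, h1, h2]
  ring

/-! ### the form on gradients -/

/-- the matrix of the form on gradients -/
def FM (a m : ℝ) (n : ℕ) : Matrix (V N) (V N) ℝ := a • (lapM - lapM * PM (pb n m) * lapM)

lemma ti_FM : TI (FM a m n : Matrix (V N) (V N) ℝ) :=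
  (ti_lapM.sub ((ti_lapM.mul (ti_PM _)).mul ti_lapM)).smul _

lemma sym_FM (hn : 1 ≤ n) (hm : 0 < m) (k : V N) :
    sym (FM a m n) k = a * (EE k * (wb n m).eval (EE k)) := by
  unfold FM
  rw [H864.sym_smul, H864.sym_sub, H864.sym_mul (ti_lapM.mul (ti_PM _)) ti_lapM,
    H864.sym_mul ti_lapM (ti_PM _), sym_lapM, sym_PM]
  have h := pb_eval hn hm (EE k)
  congr 1
  linear_combination -(EE k) * h

lemma Qf_gr (F : V N → ℝ) : Qf a m n (gr F) = qf (FM a m n) F := by
  have h1 : dv (gr F) = Matrix.mulVec lapM F := by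
    rw [lapM_mulVec]
    funext x
    exact dv_gr F x
  have h2 : ∑ e, gr F e * gr F e = qf lapM F := by
    rw [qf_lap]
    unfold nrm
    exact Finset.sum_congr rfl fun e _ => (sq _).symm
  have h3 : ∑ x, Matrix.mulVec (PM (pb n m)) (Matrix.mulVec lapM F) x *
      Matrix.mulVec lapM F x = qf (lapM * PM (pb n m) * lapM) F := by
    rw [H37.qf_eq, ← Matrix.mulVec_mulVec, ← Matrix.mulVec_mulVec,
      Matrix.dotProduct_mulVec, ← Matrix.mulVec_transpose, ti_lapM.transpose]
    unfold dotProduct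
    exact Finset.sum_congr rfl fun x _ => mul_comm _ _
  unfold Qf Bq
  rw [h1, h2, h3]
  unfold FM
  rw [H37.qf_eq (a • _), Matrix.smul_mulVec, dotProduct_smul, smul_eq_mul, ← H37.qf_eq,
    H864.qf_sub_mat]

end

end Vale.Agent.P159.H817
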