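import Vale.Agent.P159.H817.St8

/-!
P159 / module STATG-IDEAL (helper817), part 1: ideal pairs (helper686's shifted windows). The near
field of every core is the same function `b0` of the offset; no response of a core to a smooth field
is needed.
-/

set_option linter.unusedSectionVars false

namespace Vale.Agent.P159.H817

open Finset
open Vale.Agent.P159.TM.Spec (V)

noncomputable section

/-- the near field around the point `p` -/
def nf {N : ℕ} [NeZero N] (b0 : ℤ → ℤ → Bool → ℝ) (p : V N) (e : V N × Bool) : ℝ :=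
  b0 (e.1 - p).1.valMinAbs (e.1 - p).2.valMinAbs e.2

/-- `g` makes the pair `p, q` ideal: on the boxes of radius `m` around the cores the field is the
near field `b0` -/
structure Idl {N : ℕ} [NeZero N] (b0 : ℤ → ℤ → Bool → ℝ) (m : ℕ) (p q : V N) (g : V N → ℝ) :
    Prop where
  at0 : ∀ e : V N × Bool, sz (e.1 - p) ≤ m → bD p q e + gr g e = nf b0 p e
  at1 : ∀ e : V N × Bool, sz (e.1 - q) ≤ m → bD p q e + gr g e = -nf b0 q e

/-- the near field is odd under the reflection -/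
def RefB (b0 : ℤ → ℤ → Bool → ℝ) (m : ℕ) : Prop :=
  ∀ i j : ℤ, i.natAbs ≤ m → j.natAbs ≤ m →
    b0 i j false = -b0 i (1 - j) false ∧ b0 i j true = b0 i (-j) true

/-- every pair can be made ideal by a smooth field of slope `L / r` -/
def HasId (N : ℕ) [NeZero N] (b0 : ℤ → ℤ → Bool → ℝ) (l r : ℕ) (L : ℝ) : Prop :=
  ∀ p q : V N, Far r p q → ∃ g : V N → ℝ, Idl b0 (20 * l) p q g ∧ GB (L / r) g ∧ ∀ x, |g x| ≤ 1

/-- **the hypotheses on the functional `ρ`**, without any bound of the response of a core -/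
structure SysI (N : ℕ) [NeZero N] (l r : ℕ) (Λ ε₂ ε₃ : ℝ) (D0 D1 : Dec)
    (ρ : (V N × Bool → ℝ) → ℝ) : Prop where
  hl : 4 ≤ l
  hlr : 256 * l ≤ r
  hrN : 64 * r ≤ N
  supp0 : ∀ F ∈ D0, SuppD l F
  supp1 : ∀ F ∈ D1, SuppD l F
  neg01 : ∀ F ∈ D0, (fun i j => -F i j) ∈ D1
  neg10 : ∀ F ∈ D1, (fun i j => -F i j) ∈ D0
  rfl1 : ∀ F ∈ D1, (fun i j => -rfl2 F i j) ∈ D1
  /-- concavity along real changes, up to a small quadratic term -/
  conc : ∀ β g (w : V N), KK l r Λ D0 D1 β → GB (Λ / l) g → (∀ x, 20 * l ≤ sz (x - w) → g x = 0) →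
    ConcaveOn ℝ Set.univ (fun t : ℝ => ρ (fun e => β e + t * gr g e) - ε₂ / 2 * t ^ 2)
  even : ∀ β, KK l r Λ D0 D1 β → ρ (fun e => -β e) = ρ β
  trans : ∀ β (a : V N), KK l r Λ D0 D1 β → ρ (fun e => β (e.1 + a, e.2)) = ρ β
  refl : ∀ β, KK l r Λ D0 D1 β → ρ (Rf β) = ρ β
  /-- locality -/
  loc : ∀ (w : V N) (m : ℕ) (B P W : V N × Bool → ℝ), 8 * m ≤ r → KK l r Λ D0 D1 B →
    KK l r Λ D0 D1 (fun e => B e + P e) → KK l r Λ D0 D1 (fun e => B e + W e) →
    KK l r Λ D0 D1 (fun e => B e + P e + W e) → (∀ e, P e ≠ 0 → sz (e.1 - w) ≤ m) →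
    (∀ e, W e ≠ 0 → m + l ≤ sz (e.1 - w)) →
    |ρ (fun e => B e + P e + W e) - ρ (fun e => B e + P e) - ρ (fun e => B e + W e) + ρ B| ≤ ε₃
  /-- real local fields -/
  real : ∀ F (w : V N), GB (Λ / l) F → (∀ x, 4 * l ≤ sz (x - w) → F x = 0) → |ρ (gr F)| ≤ ε₂

lemma Sys.toI {N : ℕ} [NeZero N] {l r : ℕ} {Λ ε₁ ε₂ ε₃ : ℝ} {D0 D1 : Dec}
    {ρ : (V N × Bool → ℝ) → ℝ} (H : Sys N l r Λ ε₁ ε₂ ε₃ D0 D1 ρ) :
    SysI N l r Λ ε₂ ε₃ D0 D1 ρ :=
  ⟨H.hl, H.hlr, H.hrN, H.supp0, H.supp1, H.neg01, H.neg10, H.rfl1, H.conc, H.even, H.trans, H.refl,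
    H.loc, H.real⟩

section

variable {N : ℕ} [NeZero N] {l r : ℕ} {Λ ε₂ ε₃ : ℝ} {D0 D1 : Dec} {ρ : (V N × Bool → ℝ) → ℝ}

/-- **simple bumps** -/
theorem SysI.bump (H : SysI N l r Λ ε₂ ε₃ D0 D1 ρ) {F0 F1 : ℤ → ℤ → ℝ} (h0 : F0 ∈ D0)
    (h1 : F1 ∈ D1) {p q : V N} (hf : Far r p q) {g h : V N → ℝ} {s t : ℝ} (hs : 0 ≤ s) (ht : 0 ≤ t)
    (hg : GB (s / l) g) (hh : GB (t / l) h) {w : V N} (hw : ∀ x, l ≤ sz (x - w) → h x = 0)
    (hp : 8 * l ≤ sz (w - p)) (hq : 8 * l ≤ sz (w - q)) (hΛ : 41 * (s + 1 + 2 * CG) + t ≤ Λ) :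
    |ρ (cfg F0 F1 p q fun x => g x + h x) - ρ (cfg F0 F1 p q g)| ≤ 2 * ε₂ + ε₃ := by
  have hC := CG_pos
  have hl4 := H.hl
  have hl0 : 0 < l := by omega
  have hlr := H.hlr
  have hrN := H.hrN
  have hl' : (0 : ℝ) < l := by exact_mod_cast hl0
  have hN := N_pos_real (N := N)
  set β := cfg F0 F1 p q g with hβ
  -- geometry
  have dist : ∀ x c : V N, 8 * l ≤ sz (w - c) → sz (x - w) ≤ 5 * l → 3 * l ≤ sz (x - c) := by
    intro x c hc hx
    have h3 := sz_add_le (w - x) (x - c)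
    rw [sub_add_sub_cancel, sz_sub_comm w x] at h3
    omega
  set S : ℝ := s + 1 + 2 * CG with hS
  have hS0 : 0 ≤ S := by positivity
  -- size of `β` on the box
  have hβb : ∀ x b, sz (x - w) ≤ 5 * l → |β (x, b)| ≤ S / l := by
    intro x b hx
    have d1 := dist x p hp hx
    have d2 := dist x q hq hx
    have e : β (x, b) = bD p q (x, b) + gr g (x, b) := by
      rw [hβ]
      unfold cfg
      rw [gr_dec_zero (H.supp0 F0 h0) b (by omega), gr_dec_zero (H.supp1 F1 h1) b (by omega)]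
      ring
    rw [e]
    refine (abs_add_le _ _).trans ?_
    have a1 := bD_le p q x b d1 d2
    have a2 := hg (x, b)
    have a3 : 1 / (N : ℝ) ≤ 1 / l := by
      refine one_div_le_one_div_of_le hl' ?_
      have : l ≤ N := by omega
      exact_mod_cast this
    have a4 : 4 * CG / (1 + ((3 * l : ℕ) : ℝ)) ≤ 2 * CG / l := by
      rw [div_le_div_iff₀ (by positivity) hl']
      push_cast
      nlinarith
    have e2 : S / l = 1 / l + 2 * CG / l + s / l := by rw [hS]; ring
    rw [e2]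
    linarith
  have hcu : ∀ x, sz (x - w) ≤ 5 * l → cu β x = 0 := by
    intro x hx
    have d1 := dist x p hp hx
    have d2 := dist x q hq hx
    refine cu_cfg ?_ ?_
    · intro h
      rw [h, sub_self, sz_zero] at d1
      omega
    · intro h
      rw [h, sub_self, sz_zero] at d2
      omega
  obtain ⟨f, -, hfg, hfb⟩ := box_pot β w (m := 5 * l) (by omega) hβb hcu
  have hfb' : ∀ x, sz (x - w) ≤ 5 * l → |f x| ≤ 40 * S := by
    intro x hx
    refine (hfb x hx).trans (le_of_eq ?_)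
    push_cast
    field_simp
    ring
  have hχ : GB (41 * S / l) (fun x => U (3 * l) l (x - w) * f x) := by
    have h2 := GB.cut (w := w) (m := 5 * l) (k := 3 * l) (l := l) (s := S / l) (B := 40 * S)
      (f := f) hl0 (by omega) (by positivity)
      (fun x b hx => by rw [hfg x b hx]; exact hβb x b hx) hfb'
    refine h2.mono (le_of_eq ?_)
    ring
  set F : V N → ℝ := fun x => U (3 * l) l (x - w) * f x with hF
  -- the four fields
  set W : V N × Bool → ℝ := fun e => β e - gr F e with hW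
  have k1 : KK l r Λ D0 D1 (gr F) := KK.real' hχ (by linarith)
  have k2 : KK l r Λ D0 D1 (fun e => gr F e + gr h e) := by
    have h3 : (fun e => gr F e + gr h e) = gr (fun x => F x + h x) := by
      funext e; rw [gr_add]
    rw [h3]
    refine KK.real' (s := 41 * S + t) ?_ (by linarith)
    refine (hχ.add hh).mono (le_of_eq ?_)
    ring
  have k3 : KK l r Λ D0 D1 (fun e => gr F e + W e) := by
    have h3 : (fun e => gr F e + W e) = β := by
      funext e; rw [hW]; ring
    rw [h3]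
    exact KK.core' h0 h1 hf hg (by linarith)
  have e4 : (fun e => gr F e + gr h e + W e) = cfg F0 F1 p q (fun x => g x + h x) := by
    funext e
    rw [cfg_add, hW]
    ring
  have k4 : KK l r Λ D0 D1 (fun e => gr F e + gr h e + W e) := by
    rw [e4]
    refine KK.core' h0 h1 hf (s := s + t) ?_ (by linarith)
    refine (hg.add hh).mono (le_of_eq ?_)
    ring
  have hP : ∀ e : V N × Bool, gr h e ≠ 0 → sz (e.1 - w) ≤ l := by
    rintro ⟨x, b⟩ hx
    by_contra h4
    refine hx ?_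
    simp only at h4
    have h5 := (sz_step (x - w) b).1
    rw [gr_eq, hw x (by omega), hw (x + eb b) (by rw [add_sub_right_comm]; omega), sub_self]
  have hWs : ∀ e : V N × Bool, W e ≠ 0 → l + l ≤ sz (e.1 - w) := by
    rintro ⟨y, c⟩ hy
    by_contra h4
    refine hy ?_
    simp only at h4
    have h5 := (sz_step (y - w) c).2
    have h8 : sz (y + eb c - w) ≤ 3 * l := by rw [add_sub_right_comm]; omega
    have e5 : gr F (y, c) = β (y, c) := by
      rw [← hfg y c (by omega), gr_eq, gr_eq]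
      simp only [hF]
      rw [U_one hl0 h8, U_one hl0 (show sz (y - w) ≤ 3 * l by omega)]
      ring
    simp only [hW]
    rw [e5, sub_self]
  have hloc := H.loc w l (gr F) (gr h) W (by omega) k1 k2 k3 k4 hP hWs
  have r1 := H.real F w (hχ.mono (div_le_div_of_nonneg_right (by linarith) hl'.le)) (fun x hx => by
    simp only [hF]
    rw [U_zero (by omega), zero_mul])
  have r2 := H.real (fun x => F x + h x) w ((hχ.add hh).mono (by
    rw [← add_div]
    exact div_le_div_of_nonneg_right (by linarith) hl'.le)) (fun x hx => by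
    simp only [hF]
    rw [U_zero (by omega), zero_mul, hw x (by omega), add_zero])
  have h3 : (fun e => gr F e + gr h e) = gr (fun x => F x + h x) := by
    funext e; rw [gr_add]
  have h5 : (fun e => gr F e + W e) = β := by
    funext e; rw [hW]; ring
  rw [e4, h3, h5] at hloc
  rw [abs_le] at hloc r1 r2 ⊢
  constructor <;> linarith

/-- **sums of bumps**: changes vanishing near both cores -/
theorem SysI.bumps (H : SysI N l r Λ ε₂ ε₃ D0 D1 ρ) {F0 F1 : ℤ → ℤ → ℝ} (h0 : F0 ∈ D0)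
    (h1 : F1 ∈ D1) {p q : V N} (hf : Far r p q) {g h : V N → ℝ} {s t B : ℝ} (hs : 0 ≤ s)
    (ht : 0 ≤ t) (hB : 0 ≤ B) (hg : GB (s / l) g) (hh : GB (t / l) h) (hb : ∀ x, |h x| ≤ B)
    (hp : ∀ x, sz (x - p) ≤ 9 * l → h x = 0) (hq : ∀ x, sz (x - q) ≤ 9 * l → h x = 0)
    (hΛ : 42 * (s + t + 72 * B + 1 + 2 * CG) ≤ Λ) :
    |ρ (cfg F0 F1 p q fun x => g x + h x) - ρ (cfg F0 F1 p q g)| ≤
      8 * ((N : ℝ) / l) ^ 2 * (3 * ε₂ + ε₃) := by
  classical
  have hC := CG_pos
  have hl4 := H.hl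
  have hl0 : 0 < l := by omega
  have hlr := H.hlr
  have hrN := H.hrN
  have hlN : l < N := by omega
  have hl' : (0 : ℝ) < l := by exact_mod_cast hl0
  have hl4' : (4 : ℝ) ≤ l := by exact_mod_cast hl4
  have hN := N_pos_real (N := N)
  have hZ := ZT_ge (N := N) hl0 hlN
  have hZ1 : 1 ≤ ZT N l := by nlinarith
  have hZ0 : 0 < ZT N l := by linarith
  set ε := 2 * ε₂ + ε₃ with hε
  have hΛ0 : 0 ≤ Λ := by
    have h3 : 0 ≤ 42 * (s + t + 72 * B + 1 + 2 * CG) := by positivity
    linarith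
  have heps : 0 ≤ ε₂ ∧ 0 ≤ ε₃ := by
    have r0 := H.real (fun _ => 0) p (GB.zero (by positivity)) (fun _ _ => rfl)
    have k1 : KK l r Λ D0 D1 (gr (fun _ : V N => (0 : ℝ))) := KK.real' (s := 0) (by
      rw [zero_div]
      exact GB.zero le_rfl) hΛ0
    have r1 := H.loc p 0 (gr (fun _ : V N => (0 : ℝ))) (fun _ => 0) (fun _ => 0) (by omega) k1
      (by simpa using k1) (by simpa using k1) (by simpa using k1)
      (fun e he => absurd rfl he) (fun e he => absurd rfl he)
    exact ⟨(abs_nonneg _).trans r0, (abs_nonneg _).trans r1⟩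
  -- the partial sums
  have hGB : ∀ S : Finset (V N), GB ((s + t + 72 * B) / l) (fun x => g x + cS l S x * h x) := by
    intro S
    have a1 := GB.mul (cS_GB (N := N) hl4 hlN S) hh (cS_abs hl0 hlN S) hb
    refine (hg.add a1).mono (le_of_eq ?_)
    ring
  have hbump : ∀ w : V N, GB ((t + B) / l) (fun x => T l (x - w) * h x) := by
    intro w
    have a1 := GB.mul (U_shift_GB (N := N) 0 hl0 w) hh (fun x => abs_U _ _ _) hb
    refine a1.mono (le_of_eq ?_)
    ring
  have key : ∀ (S : Finset (V N)) (w : V N), ∀ σ : ℝ, |σ| ≤ 1 →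
      |ρ (cfg F0 F1 p q fun x => (g x + cS l S x * h x) + σ * (T l (x - w) * h x)) -
        ρ (cfg F0 F1 p q fun x => g x + cS l S x * h x)| ≤ ε := by
    intro S w σ hσ
    have hbσ : GB ((t + B) / l) (fun x => σ * (T l (x - w) * h x)) := by
      refine ((hbump w).smul σ).mono ?_
      have : 0 ≤ (t + B) / l := by positivity
      nlinarith [abs_nonneg σ]
    by_cases hc : 8 * l ≤ sz (w - p) ∧ 8 * l ≤ sz (w - q)
    · refine H.bump h0 h1 hf (s := s + t + 72 * B) (t := t + B) (by positivity) (by positivity)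
        (hGB S) hbσ (w := w) (fun x hx => ?_) hc.1 hc.2 ?_
      · rw [T_zero hx]
        ring
      · linarith
    · have hz : ∀ x, T l (x - w) * h x = 0 := by
        intro x
        by_cases hx : l ≤ sz (x - w)
        · rw [T_zero hx, zero_mul]
        · rcases not_and_or.1 hc with hc | hc
          · rw [hp x, mul_zero]
            have h3 := sz_add_le (x - w) (w - p)
            rw [sub_add_sub_cancel] at h3
            omega
          · rw [hq x, mul_zero]
            have h3 := sz_add_le (x - w) (w - q)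
            rw [sub_add_sub_cancel] at h3
            omega
      have e : (fun x => (g x + cS l S x * h x) + σ * (T l (x - w) * h x)) =
          fun x => g x + cS l S x * h x := by
        funext x
        rw [hz x]
        ring
      rw [e, sub_self, abs_zero]
      rw [hε]
      linarith [heps.1, heps.2]
  have step : ∀ (S : Finset (V N)) (w : V N), w ∉ S →
      |ρ (cfg F0 F1 p q fun x => g x + cS l (insert w S) x * h x) -
        ρ (cfg F0 F1 p q fun x => g x + cS l S x * h x)| ≤ 1 / ZT N l * (ε + ε₂) := by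
    intro S w hw
    have kS : KK l r Λ D0 D1 (cfg F0 F1 p q fun x => g x + cS l S x * h x) :=
      KK.core' h0 h1 hf (hGB S) (by nlinarith)
    have hcv := H.conc _ (fun x => T l (x - w) * h x) w kS
      ((hbump w).mono (div_le_div_of_nonneg_right (by nlinarith) hl'.le))
      (fun x hx => by rw [T_zero (by omega), zero_mul])
    set φ : ℝ → ℝ := fun σ => ρ (fun e => cfg F0 F1 p q (fun x => g x + cS l S x * h x) e +
      σ * gr (fun x => T l (x - w) * h x) e) with hφ
    have hφe : ∀ σ, φ σ = ρ (cfg F0 F1 p q fun x =>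
        (g x + cS l S x * h x) + σ * (T l (x - w) * h x)) := by
      intro σ
      simp only [hφ]
      congr 1
      funext e
      rw [cfg_add F0 F1 p q (fun x => g x + cS l S x * h x)
        (fun x => σ * (T l (x - w) * h x)), gr_smul]
    have hφ0 : φ 0 = ρ (cfg F0 F1 p q fun x => g x + cS l S x * h x) := by
      rw [hφe]
      congr 2
      funext x
      ring
    have b1 : |φ 1 - φ 0| ≤ ε := by
      rw [hφ0, hφe]
      exact key S w 1 (by simp)
    have b2 : |φ (-1) - φ 0| ≤ ε := by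
      rw [hφ0, hφe]
      exact key S w (-1) (by simp)
    have h3 := concave4 (φ := φ) hcv heps.1 b1 b2 (δ := 1 / ZT N l) (by positivity) (by
      rw [div_le_one hZ0]; exact hZ1)
    rw [hφ0, hφe] at h3
    have e : (fun x => (g x + cS l S x * h x) + 1 / ZT N l * (T l (x - w) * h x)) =
        fun x => g x + cS l (insert w S) x * h x := by
      funext x
      have : cS l (insert w S) x = T l (x - w) / ZT N l + cS l S x := by
        unfold cS
        rw [Finset.sum_insert hw, add_div]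
      rw [this]
      ring
    rw [e] at h3
    exact h3
  have main : ∀ S : Finset (V N),
      |ρ (cfg F0 F1 p q fun x => g x + cS l S x * h x) - ρ (cfg F0 F1 p q g)| ≤
        S.card * (1 / ZT N l * (ε + ε₂)) := by
    intro S
    induction S using Finset.induction_on with
    | empty =>
      have : (fun x : V N => g x + cS l ∅ x * h x) = g := by
        funext x
        unfold cS
        simp
      rw [this]
      simp
    | insert w S hw ih =>
      rw [Finset.card_insert_of_notMem hw]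
      have h3 := step S w hw
      push_cast
      have e : ρ (cfg F0 F1 p q fun x => g x + cS l (insert w S) x * h x) - ρ (cfg F0 F1 p q g) =
          (ρ (cfg F0 F1 p q fun x => g x + cS l (insert w S) x * h x) -
            ρ (cfg F0 F1 p q fun x => g x + cS l S x * h x)) +
          (ρ (cfg F0 F1 p q fun x => g x + cS l S x * h x) - ρ (cfg F0 F1 p q g)) := by ring
      rw [e]
      refine (abs_add_le _ _).trans ?_
      linarith
  have h3 := main univ
  have e : (fun x : V N => g x + cS l univ x * h x) = fun x => g x + h x := by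
    funext x
    rw [cS_univ hl0 hlN, one_mul]
  rw [e, Finset.card_univ, card_VN] at h3
  refine h3.trans ?_
  have hε0 : 0 ≤ ε + ε₂ := by
    rw [hε]
    linarith [heps.1, heps.2]
  have hε3 : 3 * ε₂ + ε₃ = ε + ε₂ := by rw [hε]; ring
  rw [← mul_assoc, hε3]
  refine mul_le_mul_of_nonneg_right ?_ hε0
  rw [mul_one_div, div_pow, div_le_iff₀ hZ0, mul_comm (8 * ((N : ℝ) ^ 2 / (l : ℝ) ^ 2))]
  calc (N : ℝ) ^ 2 = (l : ℝ) ^ 2 / 8 * (8 * ((N : ℝ) ^ 2 / (l : ℝ) ^ 2)) := by field_simp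
    _ ≤ _ := mul_le_mul_of_nonneg_right hZ (by positivity)


lemma SysI.eps (H : SysI N l r Λ ε₂ ε₃ D0 D1 ρ) (hΛ : 0 ≤ Λ) : 0 ≤ ε₂ ∧ 0 ≤ ε₃ := by
  have r0 := H.real (fun _ => 0) 0 (GB.zero (by positivity)) (fun _ _ => rfl)
  have k1 : KK l r Λ D0 D1 (gr (fun _ : V N => (0 : ℝ))) := KK.real' (s := 0) (by
    rw [zero_div]
    exact GB.zero le_rfl) hΛ
  have r1 := H.loc 0 0 (gr (fun _ : V N => (0 : ℝ))) (fun _ => 0) (fun _ => 0) (by omega) k1
    (by simpa using k1) (by simpa using k1) (by simpa using k1)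
    (fun e he => absurd rfl he) (fun e he => absurd rfl he)
  exact ⟨(abs_nonneg _).trans r0, (abs_nonneg _).trans r1⟩

lemma SysI.eB_ge (H : SysI N l r Λ ε₂ ε₃ D0 D1 ρ) (hΛ : 0 ≤ Λ) :
    ε₃ ≤ eB N l ε₂ ε₃ ∧ 0 ≤ eB N l ε₂ ε₃ := by
  obtain ⟨h2, h3⟩ := H.eps hΛ
  have hl := H.hl
  have hlr := H.hlr
  have hrN := H.hrN
  have hl' : (0 : ℝ) < l := by exact_mod_cast (by omega : 0 < l)
  have h4 : 1 ≤ (N : ℝ) / l := by
    rw [le_div_iff₀ hl', one_mul]
    exact_mod_cast (by omega : l ≤ N)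
  have h5 : 1 ≤ ((N : ℝ) / l) ^ 2 := one_le_pow₀ h4
  unfold eB
  constructor <;> nlinarith

lemma SysI.far_lt (H : SysI N l r Λ ε₂ ε₃ D0 D1 ρ) {p q : V N} (hf : Far r p q) :
    2 * sz (q - p) < N := by
  have := H.hrN
  have := H.hl
  have := H.hlr
  have := hf.2
  omega

lemma SysI.ev (H : SysI N l r Λ ε₂ ε₃ D0 D1 ρ) {F0 F1 : ℤ → ℤ → ℝ} (h0 : F0 ∈ D0)
    (h1 : F1 ∈ D1) {p q : V N} (hf : Far r p q) {g : V N → ℝ} (hg : GB (Λ / l) g) :
    ρ (cfg (fun i j => -F1 i j) (fun i j => -F0 i j) q p (fun x => -g x)) =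
      ρ (cfg F0 F1 p q g) := by
  rw [← cfg_neg' (H.far_lt hf)]
  exact H.even _ (KK.core' h0 h1 hf hg le_rfl)

/-- a point near `p` is far from `q` -/
lemma SysI.sep (H : SysI N l r Λ ε₂ ε₃ D0 D1 ρ) {p q x : V N} (hf : Far r p q)
    (hx : sz (x - p) ≤ 20 * l) : 50 * l ≤ sz (x - q) := by
  have := H.hlr
  have := hf.1
  have h3 := sz_add_le (q - x) (x - p)
  rw [sub_add_sub_cancel, sz_sub_comm q x] at h3
  omega

/-- the reflected decorations -/
lemma SysI.rfl0 (H : SysI N l r Λ ε₂ ε₃ D0 D1 ρ) {F : ℤ → ℤ → ℝ} (hF : F ∈ D0) :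
    (fun i j => -rfl2 F i j) ∈ D0 := by
  have h1 := H.neg01 F hF
  have h2 := H.rfl1 _ h1
  have h3 : (fun i j => -rfl2 (fun i j => -F i j) i j) = fun i j => rfl2 F i j := by
    funext i j
    unfold rfl2
    ring
  rw [h3] at h2
  exact H.neg10 _ h2

lemma SysI.rf (H : SysI N l r Λ ε₂ ε₃ D0 D1 ρ) {F0 F1 : ℤ → ℤ → ℝ} (h0 : F0 ∈ D0)
    (h1 : F1 ∈ D1) {p q : V N} (hf : Far r p q) {g : V N → ℝ} (hg : GB (Λ / l) g) :
    ρ (cfg (fun i j => -rfl2 F0 i j) (fun i j => -rfl2 F1 i j) (sF p) (sF q)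
        (fun x => -g (sR x))) = ρ (cfg F0 F1 p q g) := by
  have hl := H.hl
  have hlr := H.hlr
  have hrN := H.hrN
  rw [← Rf_cfg (H.supp0 _ h0) (H.supp1 _ h1) (supp_rfl2 (H.supp0 _ (H.rfl0 h0)))
    (supp_rfl2 (H.supp1 _ (H.rfl1 _ h1))) (by omega) (H.far_lt hf)]
  have k1 : KK l r Λ D0 D1 (fun e => -cfg F0 F1 p q g e) := by
    rw [cfg_neg' (H.far_lt hf)]
    exact KK.core' (H.neg10 _ h1) (H.neg01 _ h0) hf.symm hg.neg le_rfl
  rw [← H.even _ (KK.core' h0 h1 hf hg le_rfl)]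
  exact H.refl _ k1

/-- translation of the functional -/
lemma SysI.tr (H : SysI N l r Λ ε₂ ε₃ D0 D1 ρ) {F0 F1 : ℤ → ℤ → ℝ} (h0 : F0 ∈ D0)
    (h1 : F1 ∈ D1) {p q : V N} (hf : Far r p q) {g : V N → ℝ} (hg : GB (Λ / l) g) (a : V N) :
    ρ (cfg F0 F1 (p + a) (q + a) fun y => g (y - a)) = ρ (cfg F0 F1 p q g) := by
  have hf' : Far r (p + a) (q + a) := by
    unfold Far at hf ⊢
    rw [add_sub_add_right_eq_sub]
    exact hf
  have k1 : KK l r Λ D0 D1 (cfg F0 F1 (p + a) (q + a) fun y => g (y - a)) :=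
    KK.core' h0 h1 hf' (hg.shift a) le_rfl
  rw [← H.trans _ a k1]
  congr 1
  funext e
  obtain ⟨x, b⟩ := e
  exact cfg_shift F0 F1 p q a g x b

end

end

end Vale.Agent.P159.H817
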