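import Vale.Agent.P159.H817.Id6
import Vale.Agent.P159.H817.St16

/-!
P159 / module STATG-IDEAL (helper817), part 7: `SysI` for the concrete functional, **STATZ-IDEAL**:
the theorem for the partition functions with dislocations, no hypothesis on the response of a core.
-/

set_option linter.unusedSectionVars false

namespace Vale.Agent.P159.H817

open Finset Polynomial
open Vale.Agent.P159.TM.Spec (V)
open Vale.Agent.P159.TM.H764 (EE EE_nonneg)
open Vale.Agent.P159.H37 (qf bf re Zn ZM Zs Rs Gm)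
open Vale.Agent.P159.H864 (TI sym lapM ti_lapM sym_lapM)
open Vale.Agent.P159.H963 (Pin Ank Anm Pn ntr nM nwt)
open Vale.Agent.P159.H770 (wTD)
open Vale.Agent.P159.TM.SpecC (wT)
open Vale.Agent.P159.H883 (PT)

noncomputable section

variable {N : ℕ} [NeZero N] {b t a m η : ℝ} {n : ℕ}

/-- **`SysI` for the concrete functional** -/
theorem sysI_rh {l r : ℕ} {Λ ε₂ ε₃ εR : ℝ} {D0 D1 : Dec} (hb : 0 < b) (ht : 0 < t) (ha : 0 < a)
    (hη : 0 ≤ η) (hl : 4 ≤ l) (hlr : 256 * l ≤ r) (hrN : 64 * r ≤ N) (hn : 1 ≤ n)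
    (hnl : n + 3 ≤ l) (supp0 : ∀ F ∈ D0, SuppD l F) (supp1 : ∀ F ∈ D1, SuppD l F)
    (neg01 : ∀ F ∈ D0, (fun i j => -F i j) ∈ D1) (neg10 : ∀ F ∈ D1, (fun i j => -F i j) ∈ D0)
    (rfl1 : ∀ F ∈ D1, (fun i j => -rfl2 F i j) ∈ D1)
    (hP : ∀ k : V N, k ≠ 0 → |Pin N b t k - a * EE k| ≤ η * EE k * (1 + EE k / t))
    (hR : ∀ F (w : V N), GB (Λ / l) F → (∀ x, 4 * l ≤ sz (x - w) → F x = 0) →
      Rs (nwt N b t 0) (Pt t F) ≤ εR)
    (hεR : 0 ≤ εR) (hε : 3528 * kap0 a t η n * Λ ^ 2 + εR ≤ ε₂)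
    (loc : ∀ (w : V N) (m : ℕ) (B P W : V N × Bool → ℝ), 8 * m ≤ r → KK l r Λ D0 D1 B →
      KK l r Λ D0 D1 (fun e => B e + P e) → KK l r Λ D0 D1 (fun e => B e + W e) →
      KK l r Λ D0 D1 (fun e => B e + P e + W e) → (∀ e, P e ≠ 0 → sz (e.1 - w) ≤ m) →
      (∀ e, W e ≠ 0 → m + l ≤ sz (e.1 - w)) →
      |EZ N b t (fun e => B e + P e + W e) - EZ N b t (fun e => B e + P e) -
        EZ N b t (fun e => B e + W e) + EZ N b t B| ≤ ε₃) :
    SysI N l r Λ ε₂ ε₃ D0 D1 (rh N b t a n) := by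
  have hD := Db_pos hn (by positivity : 0 < t / a)
  have hκ : 0 ≤ kap0 a t η n := by unfold kap0; positivity
  have hl' : (0 : ℝ) < l := by
    have : 0 < l := by omega
    exact_mod_cast this
  have hflat : ∀ (F : V N → ℝ) (w : V N), GB (Λ / l) F → (∀ x, 20 * l ≤ sz (x - w) → F x = 0) →
      |qf (Anm N b t) F - Qf a (t / a) n (gr F)| ≤ 3528 * kap0 a t η n * Λ ^ 2 := by
    intro F w hF hw
    refine (flat_qf hb ht ha hη hn hP F).trans ?_
    have h1 := nrm_local (by omega) hF hw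
    calc kap0 a t η n * nrm (gr F) ≤ kap0 a t η n * (3528 * Λ ^ 2) :=
          mul_le_mul_of_nonneg_left h1 hκ
      _ = _ := by ring
  refine ⟨hl, hlr, hrN, supp0, supp1, neg01, neg10, rfl1, ?_, ?_, ?_, ?_, ?_, ?_⟩
  · intro β g w hβ hg hw
    refine rh_conc hb ht hβ.eg ?_
    have h1 := (abs_le.1 (hflat g w hg hw)).2
    linarith
  · intro β hβ
    unfold rh
    rw [EZ_neg hb ht hβ.eg, Qf_neg]
  · intro β c hβ
    unfold rh
    rw [EZ_tr hb c hβ.eg, Qf_tr]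
  · intro β hβ
    unfold rh
    rw [EZ_rf hb hβ.eg, Qf_rf]
  · intro w m B P W hm k1 k2 k3 k4 hPs hWs
    have h1 := loc w m B P W hm k1 k2 k3 k4 hPs hWs
    have h2 := Qf_mixed (a := a) (m := t / a) hnl (B := B) hPs hWs
    unfold rh
    have e : EZ N b t (fun e => B e + P e + W e) - Qf a (t / a) n (fun e => B e + P e + W e) / 2 -
        (EZ N b t (fun e => B e + P e) - Qf a (t / a) n (fun e => B e + P e) / 2) -
        (EZ N b t (fun e => B e + W e) - Qf a (t / a) n (fun e => B e + W e) / 2) +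
        (EZ N b t B - Qf a (t / a) n B / 2) =
        EZ N b t (fun e => B e + P e + W e) - EZ N b t (fun e => B e + P e) -
        EZ N b t (fun e => B e + W e) + EZ N b t B := by
      linear_combination (-1 / 2 : ℝ) * h2
    rw [e]
    exact h1
  · intro F w hF hw
    have h1 := hflat F w hF fun x hx => hw x (by omega)
    have h2 := hR F w hF hw
    have h3 := Rs_nwt_nonneg (N := N) hb ht (Pt t F)
    unfold rh
    rw [EZ_gr hb ht]
    rw [abs_le] at h1 ⊢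
    constructor <;> linarith [h1.1, h1.2]

/-! ### the functional with a real field on top -/

/-- `log (Z(0, edec + g) / Z(D, edec + g))` -/
def LPg (N : ℕ) [NeZero N] (b t : ℝ) (F0 F1 : ℤ → ℤ → ℝ) (p q : V N) (g : V N → ℝ) : ℝ :=
  EZ N b t (cfg F0 F1 p q g) - EZ N b t (gr fun x => edec F0 F1 p q x + g x)

lemma cfg_edec (F0 F1 : ℤ → ℤ → ℝ) (p q : V N) (g : V N → ℝ) :
    cfg F0 F1 p q g = fun e => bD p q e + gr (fun x => edec F0 F1 p q x + g x) e := by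
  funext e
  unfold cfg
  have h : gr (fun x => edec F0 F1 p q x + g x) e = gr (edec F0 F1 p q) e + gr g e := gr_add _ _ e
  rw [h, gr_edec]
  ring

/-- in the letters of helper883 -/
theorem LPg_eq (hb : 0 < b) (ht : 0 < t) {F0 F1 : ℤ → ℤ → ℝ} {p q : V N} {η : V N × Bool → ℤ}
    {φ : V N → ℝ} (h : bD p q = eF η φ) (g : V N → ℝ) :
    LPg N b t F0 F1 p q g =
      -Real.log (PT N b (t • (1 : Matrix (V N) (V N) ℝ)) η φ
        (fun x => edec F0 F1 p q x + g x)) := by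
  have hM := H883.mf_scalar (N := N) ht
  obtain ⟨G, hG⟩ : ∃ G : V N → ℝ, G = fun x => edec F0 F1 p q x + g x := ⟨_, rfl⟩
  have e1 : cfg F0 F1 p q g = eF η (φ + G) := by
    rw [cfg_edec, h, hG]
    funext ⟨x, c⟩
    unfold eF
    rw [gr_eq, gr_eq, gr_eq]
    simp only [Pi.add_apply]
    ring
  have p1 := (H883.bw_wTD (N := N) hb η).Zn_pos hM (φ + G)
  have p2 := (H883.bw_wTD (N := N) hb 0).Zn_pos hM G
  have p3 := (H883.bw_wTD (N := N) hb 0).Zn_pos hM 0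
  unfold LPg EZ
  rw [e1, ← hG, gr_eF, zero_eF, ZE_eF hb, ZE_eF hb, ZE_eF hb, H883.PT_eq,
    Real.log_div p1.ne' p3.ne', Real.log_div p2.ne' p3.ne']
  rw [H770.wTD_zero] at p2 ⊢
  rw [Real.log_div p1.ne' p2.ne']
  ring

/-- the functional through `ρ` -/
lemma LPg_rh (F0 F1 : ℤ → ℤ → ℝ) (p q : V N) (g : V N → ℝ) :
    LPg N b t F0 F1 p q g = rh N b t a n (cfg F0 F1 p q g) + a / 2 * nrm (bD p q) -
      rh N b t a n (gr fun x => edec F0 F1 p q x + g x) := by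
  unfold LPg rh
  rw [cfg_edec, Qf_bD]
  ring

/-- **STATZ-IDEAL** -/
theorem statz_ideal {M : ℕ} [NeZero M] {l r : ℕ} {Λ ε₂ ε₃ ε₄ : ℝ} {D0 D1 : Dec}
    {b0 : ℤ → ℤ → Bool → ℝ} {L : ℝ}
    (H : SysI N l r Λ ε₂ ε₃ D0 D1 (rh N b t a n))
    (H' : SysI (M * N) l r Λ ε₂ ε₃ D0 D1 (rh (M * N) b t a n))
    (hRb : RefB b0 (20 * l)) (hId : HasId N b0 l r L) (hId' : HasId (M * N) b0 l r L)
    (hL : 0 ≤ L) (hn8 : 8 * n + 64 ≤ N)
    (hX : ∀ β : V N × Bool → ℝ, KK l r Λ D0 D1 β → (∀ e, N < 7 * sz e.1 → β e = 0) →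
      KK l r Λ D0 D1 (ext M β) → |EZ (M * N) b t (ext M β) - EZ N b t β| ≤ ε₃)
    {s : ℕ} (hs : r = 64 * s) (hr : 4096 * l ≤ r)
    {F0 F1 : ℤ → ℤ → ℝ} (h0 : F0 ∈ D0) (h1 : F1 ∈ D1) {S B : ℝ} (hLS : L ≤ S) (hB1 : 1 ≤ B)
    (hΛ : 10000000000 * (1 + CG + S + B) ≤ Λ) {R : ℕ} (hR1 : r ≤ R) (hR2 : R ≤ 2 * r)
    {g : V N → ℝ} (hg : GB (S / l) g) (hgB : ∀ x, |g x| ≤ B)
    (hgI : Idl b0 (20 * l) (0 : V N) (r • e1) g)
    {g' : V (M * N) → ℝ} (hg' : GB (S / l) g') (hgB' : ∀ x, |g' x| ≤ B)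
    (hgI' : Idl b0 (20 * l) (0 : V (M * N)) (R • e1) g')
    (hreal : |rh (M * N) b t a n (gr fun x => edec F0 F1 0 (R • e1) x + g' x) -
      rh N b t a n (gr fun x => edec F0 F1 0 (r • e1) x + g x)| ≤ ε₄) :
    |LPg (M * N) b t F0 F1 0 (R • e1) g' - LPg N b t F0 F1 0 (r • e1) g -
      a / 2 * (eD (M * N) R - eD N r)| ≤ 500000 * eB (M * N) l ε₂ ε₃ + ε₄ := by
  have hrN := H.hrN
  have hXr : ∀ β : V N × Bool → ℝ, KK l r Λ D0 D1 β → (∀ e, N < 7 * sz e.1 → β e = 0) →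
      KK l r Λ D0 D1 (ext M β) → |rh (M * N) b t a n (ext M β) - rh N b t a n β| ≤ ε₃ := by
    intro β k1 hs k2
    have h := hX β k1 hs k2
    unfold rh
    rw [Qf_ext hn8 (fun e he => hs e (by omega))]
    have e : EZ (M * N) b t (ext M β) - Qf a (t / a) n β / 2 -
        (EZ N b t β - Qf a (t / a) n β / 2) = EZ (M * N) b t (ext M β) - EZ N b t β := by ring
    rw [e]
    exact h
  have key := statg_ideal (M := M) H H' hRb hId hId' hL hXr hs hr h0 h1 hLS hB1 hΛ hR1 hR2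
    hg hgB hgI hg' hgB' hgI'
  rw [LPg_rh (a := a) (n := n), LPg_rh (N := N) (a := a) (n := n), eD_eq, eD_eq]
  have c1 : ax (M * N) R = R • e1 := (nsmul_e1 R).symm
  have c2 : ax N r = r • e1 := (nsmul_e1 r).symm
  rw [c1, c2]
  rw [abs_le] at key hreal ⊢
  constructor <;> linarith [key.1, key.2, hreal.1, hreal.2]

/-- the real part: two decorations and a smooth field, from the decorations alone -/
theorem real_two {M : ℕ} [NeZero M] {l r : ℕ} {ε₃ ε₅ : ℝ} {F0 F1 : ℤ → ℤ → ℝ} (hb : 0 < b)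
    (hnl : n + 3 ≤ l) (hlr : 256 * l ≤ r) (hrN : 64 * r ≤ N) (s0 : SuppD l F0) (s1 : SuppD l F1)
    {R : ℕ} (hR : r ≤ R) (hR2 : R ≤ 2 * r) {g : V N → ℝ} {g' : V (M * N) → ℝ}
    (hX0 : |EZ (M * N) b t (gr (dec F0 0)) - EZ N b t (gr (dec F0 0))| ≤ ε₃)
    (hX1 : |EZ (M * N) b t (gr (dec F1 0)) - EZ N b t (gr (dec F1 0))| ≤ ε₃)
    (hd : |EZ N b t (gr (edec F0 F1 0 (r • e1))) - EZ N b t (gr (dec F0 0)) -
      EZ N b t (gr (dec F1 (r • e1)))| ≤ ε₃)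
    (hd' : |EZ (M * N) b t (gr (edec F0 F1 0 (R • e1))) - EZ (M * N) b t (gr (dec F0 0)) -
      EZ (M * N) b t (gr (dec F1 (R • e1)))| ≤ ε₃)
    (hg : |rh N b t a n (gr fun x => edec F0 F1 0 (r • e1) x + g x) -
      rh N b t a n (gr (edec F0 F1 0 (r • e1)))| ≤ ε₅)
    (hg' : |rh (M * N) b t a n (gr fun x => edec F0 F1 0 (R • e1) x + g' x) -
      rh (M * N) b t a n (gr (edec F0 F1 0 (R • e1)))| ≤ ε₅) :
    |rh (M * N) b t a n (gr fun x => edec F0 F1 0 (R • e1) x + g' x) -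
      rh N b t a n (gr fun x => edec F0 F1 0 (r • e1) x + g x)| ≤ 4 * ε₃ + 2 * ε₅ := by
  have hl : 1 ≤ l := by omega
  have hMN : N ≤ M * N := Nat.le_mul_of_pos_left N (NeZero.pos M)
  have g1 : rh N b t a n (gr (edec F0 F1 0 (r • e1))) =
      EZ N b t (gr (edec F0 F1 0 (r • e1))) - (Qf a (t / a) n (gr (dec F0 (0 : V N))) +
        Qf a (t / a) n (gr (dec F1 (0 : V N)))) / 2 := by
    unfold rh
    have hq : sz ((r • e1 : V N) - 0) = r := by rw [sub_zero, sz_ne1 (by omega)]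
    rw [Qf_edec s0 s1 (by rw [hq]; omega), Qf_dec F1 (r • e1)]
  have g2 : rh (M * N) b t a n (gr (edec F0 F1 0 (R • e1))) =
      EZ (M * N) b t (gr (edec F0 F1 0 (R • e1))) -
        (Qf a (t / a) n (gr (dec F0 (0 : V N))) +
        Qf a (t / a) n (gr (dec F1 (0 : V N)))) / 2 := by
    unfold rh
    have hq : sz ((R • e1 : V (M * N)) - 0) = R := by rw [sub_zero, sz_ne1 (by omega)]
    rw [Qf_edec s0 s1 (by rw [hq]; omega), Qf_dec F1 (R • e1),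
      ← ext_dec s0 (by omega : 8 * l + 64 ≤ N), ← ext_dec s1 (by omega : 8 * l + 64 ≤ N),
      Qf_ext (by omega) (fun e he => dec_box s0 (by omega) e he),
      Qf_ext (by omega) (fun e he => dec_box s1 (by omega) e he)]
  rw [g1] at hg
  rw [g2] at hg'
  rw [EZ_dec hb F1] at hd hd'
  rw [abs_le] at hX0 hX1 hd hd' hg hg' ⊢
  constructor <;> linarith [hX0.1, hX0.2, hX1.1, hX1.2, hd.1, hd.2, hd'.1, hd'.2, hg.1, hg.2,
    hg'.1, hg'.2]

end

end Vale.Agent.P159.H817
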