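import Vale.Agent.P159.H817.Id8
import Vale.Agent.P159.H963.Core2

/-!
P159 / module STATG-IDEAL (helper817), part 9: the real part. The real fields of two ideal pairs
(decorations and the smooth correction) on two tori have almost the same energy, up to the flat
form: from single decorations.
-/

set_option linter.unusedSectionVars false

namespace Vale.Agent.P159.H817

open Finset
open Vale.Agent.P159.TM.Spec (V)
open Vale.Agent.P159.TM.H764 (EE EE_nonneg)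
open Vale.Agent.P159.H37 (qf bf Rs)
open Vale.Agent.P159.H963 (Pin Ank Anm nwt)
open Vale.Agent.P159.H963.Core (RF RF_nonneg RF_convex RF_tr nS nS_nonneg nS_add3 nS_tr nS_le kap1
  kap1_nonneg flat_cross dec_tr)

noncomputable section

section one

variable {N : ℕ} [NeZero N] {b t a η : ℝ} {n l : ℕ}

lemma RF_zero (hb : 0 < b) (ht : 0 < t) : RF N b t 0 = 0 := by
  have h1 := EZ_gr (N := N) hb ht 0
  have h2 : gr (0 : V N → ℝ) = fun _ => 0 := by
    funext ⟨x, c⟩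
    rw [gr_eq]
    simp
  have h3 : EZ N b t (fun _ => 0) = 0 := by
    unfold EZ
    change -Real.log (ZE N b t 0 / ZE N b t 0) = 0
    by_cases h : ZE N b t 0 = 0
    · simp [h]
    · simp [h]
  have h4 : qf (Anm N b t) (0 : V N → ℝ) = 0 := by
    unfold H37.qf
    simp
  rw [h2, h3, h4] at h1
  unfold Vale.Agent.P159.H963.Core.RF
  linarith

/-- three pieces, amplitude 3 -/
theorem RF_three (hb : 0 < b) (ht : 0 < t) (F G H : V N → ℝ) :
    RF N b t (F + G + H) ≤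
      (RF N b t ((3 : ℝ) • F) + RF N b t ((3 : ℝ) • G) + RF N b t ((3 : ℝ) • H)) / 3 := by
  have hc := RF_convex (N := N) hb ht
  have h1 := hc.2 (Set.mem_univ ((3 : ℝ) • F)) (Set.mem_univ ((3 : ℝ) • G))
    (show (0 : ℝ) ≤ 1 / 2 by norm_num) (show (0 : ℝ) ≤ 1 / 2 by norm_num) (by norm_num)
  have h2 := hc.2 (Set.mem_univ ((1 / 2 : ℝ) • (3 : ℝ) • F + (1 / 2 : ℝ) • (3 : ℝ) • G))
    (Set.mem_univ ((3 : ℝ) • H)) (show (0 : ℝ) ≤ 2 / 3 by norm_num)
    (show (0 : ℝ) ≤ 1 / 3 by norm_num) (by norm_num)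
  have e : F + G + H =
      (2 / 3 : ℝ) • ((1 / 2 : ℝ) • (3 : ℝ) • F + (1 / 2 : ℝ) • (3 : ℝ) • G) +
        (1 / 3 : ℝ) • ((3 : ℝ) • H) := by
    funext x
    simp only [Pi.add_apply, Pi.smul_apply, smul_eq_mul]
    ring
  rw [e]
  simp only [smul_eq_mul] at h1 h2
  linarith

/-- **a smooth field on top of a rough real field**: only the nonlinear parts and the cross term of
the flat form -/
theorem real_smooth (hb : 0 < b) (ht : 0 < t) (ha : 0 < a) (hη : 0 ≤ η) (hn : 1 ≤ n)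
    (hP : ∀ k : V N, k ≠ 0 → |Pin N b t k - a * EE k| ≤ η * EE k * (1 + EE k / t))
    (F g : V N → ℝ) {r1 B G : ℝ} (hR1 : RF N b t F ≤ r1) (hR2 : RF N b t (F + g) ≤ r1)
    (hB : nS a t F ≤ B) (hG : nrm (gr g) ≤ G) :
    |rh N b t a n (gr fun x => F x + g x) - rh N b t a n (gr F)| ≤
      kap1 (1 / b) a t η n * √(B * G) + kap0 a t η n * G / 2 + r1 := by
  have hm : 0 < t / a := by positivity
  have hD := Db_pos hn hm
  have hκ0 : 0 ≤ kap0 a t η n := by unfold kap0; positivity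
  have hκ1 : 0 ≤ kap1 (1 / b) a t η n := kap1_nonneg (by positivity) ha ht hη hn
  have hG0 : 0 ≤ nrm (gr g) := by
    unfold nrm
    exact Finset.sum_nonneg fun _ _ => sq_nonneg _
  have f1 := flat_qf hb ht ha hη hn hP g
  have f3 := flat_cross hb ht ha hη hn (by positivity : 0 < 1 / b) hP
    (fun k hk => H276.Pin_ge hb ht hk) F g
  have s1 : (Anm N b t - FM a (t / a) n).transpose = Anm N b t - FM a (t / a) n :=
    ((H963.ti_Anm (N := N) hb.le ht).sub ti_FM).transpose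
  have s2 := H37.qf_add_vec s1 F g
  rw [H864.qf_sub_mat, H864.qf_sub_mat, H864.qf_sub_mat, ← Qf_gr, ← Qf_gr, ← Qf_gr] at s2
  have e1 := EZ_gr (N := N) hb ht (F + g)
  have e2 := EZ_gr (N := N) hb ht F
  have p1 := RF_nonneg (N := N) hb ht (F + g)
  have p2 := RF_nonneg (N := N) hb ht F
  unfold Vale.Agent.P159.H963.Core.RF at hR1 hR2 p1 p2
  have g2 : |qf (Anm N b t) g - Qf a (t / a) n (gr g)| ≤ kap0 a t η n * G :=
    f1.trans (mul_le_mul_of_nonneg_left hG hκ0)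
  have g3 : |bf (Anm N b t - FM a (t / a) n) F g| ≤ kap1 (1 / b) a t η n * √(B * G) := by
    refine f3.trans (mul_le_mul_of_nonneg_left (Real.sqrt_le_sqrt ?_) hκ1)
    exact mul_le_mul hB hG hG0 ((nS_nonneg a t F).trans hB)
  have e0 : (fun x => F x + g x) = F + g := rfl
  unfold rh
  rw [e0, e1, e2]
  rw [abs_le] at g2 g3 ⊢
  constructor <;> linarith [g2.1, g2.2, g3.1, g3.2]

lemma edec_add (F0 F1 : ℤ → ℤ → ℝ) (p q : V N) : edec F0 F1 p q = dec F0 p + dec F1 q := rfl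

/-- energy of the smoothed decorations -/
lemma nS_edec {a t B1 : ℝ} {F0 F1 : ℤ → ℤ → ℝ} (h0 : nS a t (dec F0 (0 : V N)) ≤ B1)
    (h1 : nS a t (dec F1 (0 : V N)) ≤ B1) (p q : V N) : nS a t (edec F0 F1 p q) ≤ 6 * B1 := by
  have k := nS_add3 a t (dec F0 p) (dec F1 q) (0 : V N → ℝ)
  have z : nS a t (0 : V N → ℝ) = 0 := by
    unfold Vale.Agent.P159.H963.Core.nS
    rw [Matrix.mulVec_zero]
    unfold H37.qf
    simp
  have e0 : nS a t (dec F0 p) = nS a t (dec F0 (0 : V N)) := by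
    rw [dec_tr F0 p]
    exact nS_tr a t (-p) (dec F0 0)
  have e1 : nS a t (dec F1 q) = nS a t (dec F1 (0 : V N)) := by
    rw [dec_tr F1 q]
    exact nS_tr a t (-q) (dec F1 0)
  rw [edec_add]
  rw [add_zero, z, e0, e1] at k
  linarith

lemma RF_dec (hb : 0 < b) (ht : 0 < t) (F : ℤ → ℤ → ℝ) (p : V N) (c : ℝ) :
    RF N b t (c • dec F p) = RF N b t (c • dec F (0 : V N)) := by
  rw [← RF_tr hb ht (-p) (c • dec F 0), dec_tr F p]
  rfl

/-- the nonlinear part of two decorations and a smooth field -/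
lemma RF_edec (hb : 0 < b) (ht : 0 < t) {F0 F1 : ℤ → ℤ → ℝ} {r1 r2 : ℝ}
    (h0 : RF N b t ((3 : ℝ) • dec F0 0) ≤ r1) (h1 : RF N b t ((3 : ℝ) • dec F1 0) ≤ r1)
    (p q : V N) {g : V N → ℝ} (hg : RF N b t ((3 : ℝ) • g) ≤ r2) :
    RF N b t (edec F0 F1 p q + g) ≤ (2 * r1 + r2) / 3 := by
  have k := RF_three (N := N) hb ht (dec F0 p) (dec F1 q) g
  rw [RF_dec hb ht F0 p, RF_dec hb ht F1 q] at k
  rw [edec_add]
  linarith

/-- the error of the real part on one torus -/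
def e5 (a t η b B1 G r1 r2 : ℝ) (n : ℕ) : ℝ :=
  kap1 (1 / b) a t η n * √(6 * B1 * G) + kap0 a t η n * G / 2 + (2 * r1 + r2) / 3

/-- **the smooth field of an ideal decorated pair, real part** -/
theorem real_pair (hb : 0 < b) (ht : 0 < t) (ha : 0 < a) (hη : 0 ≤ η) (hn : 1 ≤ n)
    (hP : ∀ k : V N, k ≠ 0 → |Pin N b t k - a * EE k| ≤ η * EE k * (1 + EE k / t))
    {F0 F1 : ℤ → ℤ → ℝ} {r1 r2 B1 G : ℝ} (h0 : RF N b t ((3 : ℝ) • dec F0 0) ≤ r1)
    (h1 : RF N b t ((3 : ℝ) • dec F1 0) ≤ r1) (s0 : nS a t (dec F0 (0 : V N)) ≤ B1)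
    (s1 : nS a t (dec F1 (0 : V N)) ≤ B1) (p q : V N) {g : V N → ℝ}
    (hg : RF N b t ((3 : ℝ) • g) ≤ r2) (hG : nrm (gr g) ≤ G) :
    |rh N b t a n (gr fun x => edec F0 F1 p q x + g x) - rh N b t a n (gr (edec F0 F1 p q))| ≤
      e5 a t η b B1 G r1 r2 n := by
  have hr2 : 0 ≤ r2 := (RF_nonneg hb ht _).trans hg
  have k0 : RF N b t ((3 : ℝ) • (0 : V N → ℝ)) ≤ 0 := by rw [smul_zero, RF_zero hb ht]
  have k1 := RF_edec hb ht h0 h1 p q k0
  have k2 := RF_edec hb ht h0 h1 p q hg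
  rw [add_zero] at k1
  exact real_smooth hb ht ha hη hn hP (edec F0 F1 p q) g (by linarith) k2
    (nS_edec s0 s1 p q) hG

end one

/-- **the real part across two tori** -/
theorem real_tor {N N' : ℕ} [NeZero N] [NeZero N'] {M : ℕ} {b t a : ℝ} {n l : ℕ}
    {ε₃ εX ε₅ : ℝ} {F0 F1 : ℤ → ℤ → ℝ} (hM : N' = M * N) (hb : 0 < b)
    (hnl : n + 3 ≤ l) (hlN : 8 * l + 64 ≤ N) (s0 : SuppD l F0) (s1 : SuppD l F1)
    {r R : ℕ} (hr : 256 * l ≤ r) (hrN : 64 * r ≤ N) (hR : 256 * l ≤ R) (hRN : 32 * R ≤ N')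
    {g : V N → ℝ} {g' : V N' → ℝ}
    (hX0 : |EZ N' b t (gr (dec F0 0)) - EZ N b t (gr (dec F0 0))| ≤ εX)
    (hX1 : |EZ N' b t (gr (dec F1 0)) - EZ N b t (gr (dec F1 0))| ≤ εX)
    (hd : |EZ N b t (gr (edec F0 F1 0 (r • e1))) - EZ N b t (gr (dec F0 0)) -
      EZ N b t (gr (dec F1 (r • e1)))| ≤ ε₃)
    (hd' : |EZ N' b t (gr (edec F0 F1 0 (R • e1))) - EZ N' b t (gr (dec F0 0)) -
      EZ N' b t (gr (dec F1 (R • e1)))| ≤ ε₃)
    (hg : |rh N b t a n (gr fun x => edec F0 F1 0 (r • e1) x + g x) -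
      rh N b t a n (gr (edec F0 F1 0 (r • e1)))| ≤ ε₅)
    (hg' : |rh N' b t a n (gr fun x => edec F0 F1 0 (R • e1) x + g' x) -
      rh N' b t a n (gr (edec F0 F1 0 (R • e1)))| ≤ ε₅) :
    |rh N' b t a n (gr fun x => edec F0 F1 0 (R • e1) x + g' x) -
      rh N b t a n (gr fun x => edec F0 F1 0 (r • e1) x + g x)| ≤
      2 * εX + 2 * ε₃ + 2 * ε₅ := by
  subst hM
  have hl : 1 ≤ l := by
    rcases Nat.eq_zero_or_pos l with h | h
    · omega
    · exact h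
  have hne : NeZero M := ⟨by
    rintro rfl
    have := NeZero.pos (0 * N)
    omega⟩
  have hMN : N ≤ M * N := Nat.le_mul_of_pos_left N (NeZero.pos M)
  have g1 : rh N b t a n (gr (edec F0 F1 0 (r • e1))) =
      EZ N b t (gr (edec F0 F1 0 (r • e1))) - (Qf a (t / a) n (gr (dec F0 (0 : V N))) +
        Qf a (t / a) n (gr (dec F1 (0 : V N)))) / 2 := by
    unfold rh
    have hq : sz ((r • e1 : V N) - 0) = r := by rw [sub_zero, sz_ne1 (by omega)]
    rw [Qf_edec s0 s1 (by rw [hq]; omega), Qf_dec F1 (r • e1)]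
  have g2 : rh (M * N) b t a n (gr (edec F0 F1 0 (R • e1))) =
      EZ (M * N) b t (gr (edec F0 F1 0 (R • e1))) -
        (Qf a (t / a) n (gr (dec F0 (0 : V N))) +
        Qf a (t / a) n (gr (dec F1 (0 : V N)))) / 2 := by
    unfold rh
    have hq : sz ((R • e1 : V (M * N)) - 0) = R := by rw [sub_zero, sz_ne1 (by omega)]
    rw [Qf_edec s0 s1 (by rw [hq]; omega), Qf_dec F1 (R • e1),
      ← ext_dec s0 (by omega : 8 * l + 64 ≤ N), ← ext_dec s1 (by omega : 8 * l + 64 ≤ N),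
      Qf_ext (by omega) (fun e he => dec_box s0 (by omega) e he),
      Qf_ext (by omega) (fun e he => dec_box s1 (by omega) e he)]
  rw [g1] at hg
  rw [g2] at hg'
  rw [EZ_dec hb F1] at hd hd'
  rw [abs_le] at hX0 hX1 hd hd' hg hg' ⊢
  constructor <;> linarith [hX0.1, hX0.2, hX1.1, hX1.2, hd.1, hd.2, hd'.1, hd'.2, hg.1, hg.2,
    hg'.1, hg'.2]

end

end Vale.Agent.P159.H817
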