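import Vale.Agent.P159.H686.Loc1
import Vale.Agent.P159.H817.Id9

/-!
P159 / module STATG-IDEAL (helper817), part 10: the real part `RealW` of helper686's window from
facts at a real base: torus change of ONE decoration, decoupling of two decorations.
-/

set_option linter.unusedSectionVars false

namespace Vale.Agent.P159.H817

open Finset
open Vale.Agent.P159.TM.Spec (V)
open Vale.Agent.P159.TM.H764 (EE EE_nonneg)
open Vale.Agent.P159.H37 (qf bf Rs)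
open Vale.Agent.P159.H963 (Pin Ank Anm nwt)
open Vale.Agent.P159.H963.Core (RF RF_nonneg RF_convex RF_tr nS nS_nonneg kap1 kap1_nonneg)
open Vale.Agent.P159.H773 (sd sd_ge sd_pow)
open Vale.Agent.P159.H686 (sd_dbl RealW)

noncomputable section

section one

variable {N : ℕ} [NeZero N] {b t : ℝ}

lemma RF_neg (hb : 0 < b) (ht : 0 < t) (F : V N → ℝ) : RF N b t (fun x => -F x) = RF N b t F := by
  have h1 := EZ_gr (N := N) hb ht F
  have h2 := EZ_gr (N := N) hb ht (fun x => -F x)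
  have e1 : gr (fun x => -F x) = fun e => -gr F e := by
    funext e
    exact gr_neg F e
  have e2 : qf (Anm N b t) (fun x => -F x) = qf (Anm N b t) F := by
    unfold H37.qf
    refine Finset.sum_congr rfl fun x _ => Finset.sum_congr rfl fun y _ => ?_
    ring
  rw [e1, EZ_neg hb ht (EG.gr F), e2] at h2
  unfold Vale.Agent.P159.H963.Core.RF
  linarith

lemma nrm_neg (g : V N → ℝ) : nrm (gr fun x => -g x) = nrm (gr g) := by
  unfold nrm
  refine Finset.sum_congr rfl fun e _ => ?_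
  rw [gr_neg g e]
  ring

end one

/-- the facts on one torus: flatness, nonlinear part and smoothed energy of the decorations -/
structure RealT (N : ℕ) [NeZero N] (b t a η : ℝ) (D0 D1 : Dec) (r1 B1 : ℝ) : Prop where
  hP : ∀ k : V N, k ≠ 0 → |Pin N b t k - a * EE k| ≤ η * EE k * (1 + EE k / t)
  R3 : ∀ F, F ∈ D0 ∨ F ∈ D1 → RF N b t ((3 : ℝ) • dec F 0) ≤ r1
  nS : ∀ F, F ∈ D0 ∨ F ∈ D1 → nS a t (dec F (0 : V N)) ≤ B1

lemma RealT.cast {N N' : ℕ} [NeZero N] [NeZero N'] (h : N' = N) {b t a η r1 B1 : ℝ} {D0 D1 : Dec}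
    (H : RealT N b t a η D0 D1 r1 B1) : RealT N' b t a η D0 D1 r1 B1 := by
  subst h
  exact H

lemma EZ_dec_cast {N N' : ℕ} [NeZero N] [NeZero N'] (h : N' = N) {b t : ℝ} (F : ℤ → ℤ → ℝ) :
    EZ N' b t (gr (dec F (0 : V N'))) = EZ N b t (gr (dec F (0 : V N))) := by
  subst h
  rfl

/-- **the inputs of the real part on a window** `2^k0 ≤ R ≤ 2^k1`, tori `sd i R` -/
structure RealI (i : ℕ) (b t a η : ℝ) (n l : ℕ) (D0 D1 : Dec) (k0 k1 : ℕ)
    (gs : ∀ R, V (sd i R) → ℝ) (εX ε₃ r1 r2 B1 G : ℝ) : Prop where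
  s0 : ∀ F ∈ D0, SuppD l F
  s1 : ∀ F ∈ D1, SuppD l F
  i6 : 6 ≤ i
  lr : 256 * l ≤ 2 ^ k0
  n1 : 1 ≤ n
  nl : n + 3 ≤ l
  T : ∀ k, k0 ≤ k → k ≤ k1 → RealT (sd i (2 ^ k)) b t a η D0 D1 r1 B1
  /-- torus change for one decoration -/
  tor : ∀ k, k0 ≤ k → k < k1 → ∀ F, F ∈ D0 ∨ F ∈ D1 →
    |EZ (sd i (2 ^ (k + 1))) b t (gr (dec F 0)) - EZ (sd i (2 ^ k)) b t (gr (dec F 0))| ≤ εX
  X0 : 0 ≤ εX
  /-- decoupling of two decorations -/
  dd : ∀ R, 2 ^ k0 ≤ R → R ≤ 2 ^ k1 → ∀ F0 ∈ D0, ∀ F1 ∈ D1,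
    |EZ (sd i R) b t (gr (edec F0 F1 0 (R • e1))) - EZ (sd i R) b t (gr (dec F0 0)) -
      EZ (sd i R) b t (gr (dec F1 (R • e1)))| ≤ ε₃
  gR : ∀ R, 2 ^ k0 ≤ R → R ≤ 2 ^ k1 → RF (sd i R) b t ((3 : ℝ) • gs R) ≤ r2
  gG : ∀ R, 2 ^ k0 ≤ R → R ≤ 2 ^ k1 → nrm (gr (gs R)) ≤ G

section

variable {i : ℕ} {b t a η : ℝ} {n l : ℕ} {D0 D1 : Dec} {k0 k1 : ℕ}
  {gs : ∀ R, V (sd i R) → ℝ} {εX ε₃ r1 r2 B1 G : ℝ}

/-- torus change along the doublings -/
lemma RealI.tors (H : RealI i b t a η n l D0 D1 k0 k1 gs εX ε₃ r1 r2 B1 G) {F : ℤ → ℤ → ℝ}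
    (hF : F ∈ D0 ∨ F ∈ D1) : ∀ d : ℕ, k0 + d ≤ k1 →
    |EZ (sd i (2 ^ (k0 + d))) b t (gr (dec F 0)) - EZ (sd i (2 ^ k0)) b t (gr (dec F 0))| ≤
      d * εX := by
  intro d
  induction d with
  | zero =>
    intro _
    simp
  | succ d ih =>
    intro hd
    have h1 := ih (by omega)
    have h2 := H.tor (k0 + d) (by omega) (by omega) F hF
    have e : k0 + (d + 1) = k0 + d + 1 := by ring
    rw [e]
    push_cast
    rw [abs_le] at h1 h2 ⊢
    constructor <;> linarith [h1.1, h1.2, h2.1, h2.2]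

/-- **`RealW` of helper686** -/
theorem RealI.realW (hb : 0 < b) (ht : 0 < t) (ha : 0 < a) (hη : 0 ≤ η)
    (H : RealI i b t a η n l D0 D1 k0 k1 gs εX ε₃ r1 r2 B1 G) :
    RealW i b t a n D0 D1 k0 k1 gs
      (2 * ((k1 - k0) * εX) + 2 * ε₃ + 2 * e5 a t η b B1 G r1 r2 n) := by
  intro R hR0 hR1 F0 h0 F1 h1
  have hb1 : 2 ^ k0 ≤ 2 ^ k1 := hR0.trans hR1
  have hkk : k0 ≤ k1 := (Nat.pow_le_pow_iff_right (by norm_num)).1 hb1
  have hkr : (k0 : ℝ) ≤ k1 := by exact_mod_cast hkk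
  have hX := H.X0
  have hε : 0 ≤ ε₃ := (abs_nonneg _).trans (H.dd R hR0 hR1 F0 h0 F1 h1)
  -- on one torus
  have one : ∀ R, 2 ^ k0 ≤ R → R ≤ 2 ^ k1 → RealT (sd i R) b t a η D0 D1 r1 B1 →
      |rh (sd i R) b t a n (gr fun x => edec F0 F1 0 (R • e1) x + -gs R x) -
        rh (sd i R) b t a n (gr (edec F0 F1 0 (R • e1)))| ≤ e5 a t η b B1 G r1 r2 n := by
    intro R g1 g2 hT
    have k2 := H.gR R g1 g2
    have k3 := H.gG R g1 g2
    have e1 : (3 : ℝ) • (fun x => -gs R x) = fun x => -((3 : ℝ) • gs R) x := by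
      funext x
      simp only [Pi.smul_apply, smul_eq_mul]
      ring
    refine real_pair hb ht ha hη H.n1 hT.hP (hT.R3 F0 (Or.inl h0)) (hT.R3 F1 (Or.inr h1))
      (hT.nS F0 (Or.inl h0)) (hT.nS F1 (Or.inr h1)) _ _ ?_ ?_
    · rw [e1, RF_neg hb ht]
      exact k2
    · rw [nrm_neg]
      exact k3
  have T0 := H.T k0 le_rfl hkk
  have o0 := one (2 ^ k0) le_rfl hb1 T0
  have he5 : 0 ≤ e5 a t η b B1 G r1 r2 n := (abs_nonneg _).trans o0
  rcases hR0.eq_or_lt with h | h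
  · subst h
    rw [sub_self, abs_zero]
    have := mul_nonneg (sub_nonneg.2 hkr) hX
    linarith
  · have h2 : 1 < R := lt_of_le_of_lt Nat.one_le_two_pow h
    obtain ⟨k, hk⟩ : ∃ k, Nat.clog 2 R = k + 1 :=
      ⟨Nat.clog 2 R - 1, by have := Nat.clog_pos (by norm_num : 1 < 2) h2; omega⟩
    have a1 : 2 ^ k < R := (Nat.lt_clog_iff_pow_lt (by norm_num)).1 (by omega)
    have a2 : R ≤ 2 ^ (k + 1) := (Nat.clog_le_iff_le_pow (by norm_num)).1 hk.le
    have a3 : k0 ≤ k := by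
      have h3 := (Nat.pow_lt_pow_iff_right (by norm_num : 1 < 2)).1 (lt_of_lt_of_le h a2)
      omega
    have a4 : k < k1 := (Nat.pow_lt_pow_iff_right (by norm_num : 1 < 2)).1 (lt_of_lt_of_le a1 hR1)
    have hsd : sd i R = sd i (2 ^ (k + 1)) := sd_dbl i a1 a2
    have oR := one R hR0 hR1 ((H.T (k + 1) (by omega) (by omega)).cast hsd)
    have tt : ∀ F, F ∈ D0 ∨ F ∈ D1 →
        |EZ (sd i R) b t (gr (dec F 0)) - EZ (sd i (2 ^ k0)) b t (gr (dec F 0))| ≤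
          (k1 - k0) * εX := by
      intro F hF
      have h3 := H.tors hF (k + 1 - k0) (by omega)
      have e : k0 + (k + 1 - k0) = k + 1 := by omega
      rw [e] at h3
      rw [EZ_dec_cast hsd]
      refine h3.trans (mul_le_mul_of_nonneg_right ?_ hX)
      rw [Nat.cast_sub (by omega)]
      have : ((k + 1 : ℕ) : ℝ) ≤ k1 := by exact_mod_cast a4
      linarith
    have hi : 2 ^ 6 ≤ 2 ^ i := Nat.pow_le_pow_right (by norm_num) H.i6
    have hi' : 64 ≤ 2 ^ i := by simpa using hi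
    have hN : 64 * 2 ^ k0 ≤ sd i (2 ^ k0) := by
      refine le_trans ?_ (sd_ge i (2 ^ k0))
      exact Nat.mul_le_mul_right _ hi'
    have hN' : 64 * R ≤ sd i R := (Nat.mul_le_mul_right _ hi').trans (sd_ge i R)
    have hM : sd i R = 2 ^ (k + 1 - k0) * sd i (2 ^ k0) := by
      rw [hsd, sd_pow, sd_pow, ← pow_add]
      congr 1
      omega
    have hlr := H.lr
    have hnl := H.nl
    have hn1 := H.n1
    have key := real_tor (a := a) (n := n) (g := fun x => -gs (2 ^ k0) x)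
      (g' := fun x => -gs R x) (ε₅ := e5 a t η b B1 G r1 r2 n) hM hb hnl (by omega)
      (H.s0 F0 h0) (H.s1 F1 h1) hlr hN (by omega) (by omega) (tt F0 (Or.inl h0))
      (tt F1 (Or.inr h1)) (H.dd _ le_rfl hb1 F0 h0 F1 h1) (H.dd R hR0 hR1 F0 h0 F1 h1) o0 oR
    exact key

end

end

end Vale.Agent.P159.H817
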