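import Vale.Agent.P159.H817.Id9

/-!
P159 / module STATG-IDEAL (helper817), part 11: the PLATEAU STEP for the partition functions with
dislocations: the functional at a decorated ideal pair does not see a change of the smooth field
which keeps the pair ideal.
-/

set_option linter.unusedSectionVars false

namespace Vale.Agent.P159.H817

open Finset
open Vale.Agent.P159.TM.Spec (V)
open Vale.Agent.P159.TM.H764 (EE)
open Vale.Agent.P159.H963 (Pin)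
open Vale.Agent.P159.H963.Core (RF nS)
open Vale.Agent.P159.H883 (PT)

noncomputable section

variable {N : ℕ} [NeZero N] {b t a η : ℝ} {n l r : ℕ} {Λ ε₂ ε₃ : ℝ} {D0 D1 : Dec}
  {b0 : ℤ → ℤ → Bool → ℝ} {F0 F1 : ℤ → ℤ → ℝ} {p q : V N} {g g' : V N → ℝ}
  {S B r1 r2 B1 G : ℝ}

/-- **the plateau step** -/
theorem LPg_plat (hb : 0 < b) (ht : 0 < t) (ha : 0 < a) (hη : 0 ≤ η) (hn : 1 ≤ n)
    (H : SysI N l r Λ ε₂ ε₃ D0 D1 (rh N b t a n)) (hR : RefB b0 (20 * l))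
    (hP : ∀ k : V N, k ≠ 0 → |Pin N b t k - a * EE k| ≤ η * EE k * (1 + EE k / t))
    (h0 : F0 ∈ D0) (h1 : F1 ∈ D1) (hf : Far r p q) (hS : 0 ≤ S)
    (hΛ : 1000000 * (1 + CG + S + B) ≤ Λ)
    (hg : GB (S / l) g) (hgB : ∀ x, |g x| ≤ B) (hI : Idl b0 (20 * l) p q g)
    (hg' : GB (S / l) g') (hgB' : ∀ x, |g' x| ≤ B) (hI' : Idl b0 (20 * l) p q g')
    (k0 : RF N b t ((3 : ℝ) • dec F0 0) ≤ r1) (k1 : RF N b t ((3 : ℝ) • dec F1 0) ≤ r1)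
    (s0 : nS a t (dec F0 (0 : V N)) ≤ B1) (s1 : nS a t (dec F1 (0 : V N)) ≤ B1)
    (kg : RF N b t ((3 : ℝ) • g) ≤ r2) (kg' : RF N b t ((3 : ℝ) • g') ≤ r2)
    (hG : nrm (gr g) ≤ G) (hG' : nrm (gr g') ≤ G) :
    |LPg N b t F0 F1 p q g' - LPg N b t F0 F1 p q g| ≤
      5 * eB N l ε₂ ε₃ + 2 * e5 a t η b B1 G r1 r2 n := by
  have t1 := H.plat hR h0 h1 hf hS hg hg' hI hI' hgB hgB' hΛ
  have t2 := real_pair hb ht ha hη hn hP k0 k1 s0 s1 p q kg hG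
  have t3 := real_pair hb ht ha hη hn hP k0 k1 s0 s1 p q kg' hG'
  rw [LPg_rh (a := a) (n := n), LPg_rh (a := a) (n := n)]
  rw [abs_le] at t1 t2 t3 ⊢
  constructor <;> linarith [t1.1, t1.2, t2.1, t2.2, t3.1, t3.2]

/-- the same for `log PT` -/
theorem PT_plat {η' : V N × Bool → ℤ} {φ : V N → ℝ} (hD : bD p q = eF η' φ)
    (hb : 0 < b) (ht : 0 < t) (ha : 0 < a) (hη : 0 ≤ η) (hn : 1 ≤ n)
    (H : SysI N l r Λ ε₂ ε₃ D0 D1 (rh N b t a n)) (hR : RefB b0 (20 * l))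
    (hP : ∀ k : V N, k ≠ 0 → |Pin N b t k - a * EE k| ≤ η * EE k * (1 + EE k / t))
    (h0 : F0 ∈ D0) (h1 : F1 ∈ D1) (hf : Far r p q) (hS : 0 ≤ S)
    (hΛ : 1000000 * (1 + CG + S + B) ≤ Λ)
    (hg : GB (S / l) g) (hgB : ∀ x, |g x| ≤ B) (hI : Idl b0 (20 * l) p q g)
    (hg' : GB (S / l) g') (hgB' : ∀ x, |g' x| ≤ B) (hI' : Idl b0 (20 * l) p q g')
    (k0 : RF N b t ((3 : ℝ) • dec F0 0) ≤ r1) (k1 : RF N b t ((3 : ℝ) • dec F1 0) ≤ r1)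
    (s0 : nS a t (dec F0 (0 : V N)) ≤ B1) (s1 : nS a t (dec F1 (0 : V N)) ≤ B1)
    (kg : RF N b t ((3 : ℝ) • g) ≤ r2) (kg' : RF N b t ((3 : ℝ) • g') ≤ r2)
    (hG : nrm (gr g) ≤ G) (hG' : nrm (gr g') ≤ G) :
    |Real.log (PT N b (t • (1 : Matrix (V N) (V N) ℝ)) η' φ (fun x => edec F0 F1 p q x + g' x)) -
      Real.log (PT N b (t • (1 : Matrix (V N) (V N) ℝ)) η' φ
        (fun x => edec F0 F1 p q x + g x))| ≤
      5 * eB N l ε₂ ε₃ + 2 * e5 a t η b B1 G r1 r2 n := by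
  have key := LPg_plat hb ht ha hη hn H hR hP h0 h1 hf hS hΛ hg hgB hI hg' hgB' hI' k0 k1 s0 s1
    kg kg' hG hG'
  rw [LPg_eq hb ht hD, LPg_eq hb ht hD] at key
  rw [← abs_neg]
  refine (le_of_eq ?_).trans key
  congr 1
  ring

end

end Vale.Agent.P159.H817
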