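import Vale.Agent.P159.H817.Ang6

/-!
P159 / module STATG (helper817), part 1: calculus of real functions on the torus: bounded
differences, oscillation, cut-off functions, the potential of a closed field on a box.
-/

set_option linter.unusedSectionVars false

namespace Vale.Agent.P159.H817

open Finset
open Vale.Agent.P159.TM.Spec (V)

noncomputable section

variable {N : ℕ} [NeZero N]

/-! ### gradients -/

/-- the unit vector of the direction `b` -/
def eb (b : Bool) : V N := if b then e2 else e1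

lemma gr_eq (f : V N → ℝ) (x : V N) (b : Bool) : gr f (x, b) = f (x + eb b) - f x := by
  cases b <;> rfl

lemma eb_cases (b : Bool) : (eb b : V N) = e1 ∨ (eb b : V N) = e2 := by
  cases b
  · left; rfl
  · right; rfl

lemma gr_add (f g : V N → ℝ) (e : V N × Bool) : gr (fun x => f x + g x) e = gr f e + gr g e := by
  obtain ⟨x, b⟩ := e
  simp only [gr_eq]
  ring

lemma gr_sub (f g : V N → ℝ) (e : V N × Bool) : gr (fun x => f x - g x) e = gr f e - gr g e := by
  obtain ⟨x, b⟩ := e
  simp only [gr_eq]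
  ring

lemma gr_neg (f : V N → ℝ) (e : V N × Bool) : gr (fun x => -f x) e = -gr f e := by
  obtain ⟨x, b⟩ := e
  simp only [gr_eq]
  ring

lemma gr_smul (c : ℝ) (f : V N → ℝ) (e : V N × Bool) : gr (fun x => c * f x) e = c * gr f e := by
  obtain ⟨x, b⟩ := e
  simp only [gr_eq]
  ring

lemma gr_const (c : ℝ) (e : V N × Bool) : gr (fun _ : V N => c) e = 0 := by
  obtain ⟨x, b⟩ := e
  simp only [gr_eq]
  ring

lemma gr_mul (χ f : V N → ℝ) (x : V N) (b : Bool) : gr (fun x => χ x * f x) (x, b) =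
    χ (x + eb b) * gr f (x, b) + gr χ (x, b) * f x := by
  simp only [gr_eq]
  ring

/-- all differences are bounded by `s` -/
def GB (s : ℝ) (g : V N → ℝ) : Prop := ∀ e, |gr g e| ≤ s

lemma GB.mono {s s' : ℝ} {g : V N → ℝ} (h : GB s g) (hs : s ≤ s') : GB s' g :=
  fun e => (h e).trans hs

lemma GB.add {s s' : ℝ} {g g' : V N → ℝ} (h : GB s g) (h' : GB s' g') :
    GB (s + s') (fun x => g x + g' x) := fun e => by
  rw [gr_add]
  exact (abs_add_le _ _).trans (add_le_add (h e) (h' e))

lemma GB.sub {s s' : ℝ} {g g' : V N → ℝ} (h : GB s g) (h' : GB s' g') :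
    GB (s + s') (fun x => g x - g' x) := fun e => by
  rw [gr_sub]
  exact (abs_sub _ _).trans (add_le_add (h e) (h' e))

lemma GB.neg {s : ℝ} {g : V N → ℝ} (h : GB s g) : GB s (fun x => -g x) := fun e => by
  rw [gr_neg, abs_neg]
  exact h e

lemma GB.smul {s : ℝ} {g : V N → ℝ} (h : GB s g) (c : ℝ) : GB (|c| * s) (fun x => c * g x) :=
  fun e => by
  rw [gr_smul, abs_mul]
  exact mul_le_mul_of_nonneg_left (h e) (abs_nonneg c)

lemma GB.zero {s : ℝ} (hs : 0 ≤ s) : GB s (fun _ : V N => (0 : ℝ)) := fun e => by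
  rw [gr_const, abs_zero]
  exact hs

lemma GB.const {s : ℝ} (hs : 0 ≤ s) (c : ℝ) : GB s (fun _ : V N => c) := fun e => by
  rw [gr_const, abs_zero]
  exact hs

lemma GB.shift {s : ℝ} {g : V N → ℝ} (h : GB s g) (p : V N) : GB s (fun x => g (x - p)) := by
  rintro ⟨x, b⟩
  have h1 := h (x - p, b)
  rw [gr_eq] at h1 ⊢
  rw [add_sub_right_comm]
  exact h1

/-- product with a cut-off -/
lemma GB.mul {s s' B : ℝ} {χ f : V N → ℝ} (hχ : GB s' χ) (hf : GB s f) (h1 : ∀ x, |χ x| ≤ 1)
    (hB : ∀ x, |f x| ≤ B) : GB (s + s' * B) (fun x => χ x * f x) := by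
  rintro ⟨x, b⟩
  rw [gr_mul]
  refine (abs_add_le _ _).trans (add_le_add ?_ ?_)
  · rw [abs_mul]
    have h2 := hf (x, b)
    calc |χ (x + eb b)| * |gr f (x, b)| ≤ 1 * |gr f (x, b)| :=
          mul_le_mul_of_nonneg_right (h1 _) (abs_nonneg _)
      _ ≤ s := by rw [one_mul]; exact h2
  · rw [abs_mul]
    exact mul_le_mul (hχ _) (hB x) (abs_nonneg _) ((abs_nonneg _).trans (hχ (x, b)))

/-- unit steps -/
lemma GB.steps {s : ℝ} {g : V N → ℝ} (h : GB s g) {e : V N} (he : e = e1 ∨ e = e2) (x : V N)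
    (n : ℕ) : |g (x + n • e) - g x| ≤ n * s := by
  induction n with
  | zero => simp
  | succ n ih =>
    have h1 : |g (x + (n + 1) • e) - g (x + n • e)| ≤ s := by
      rw [succ_nsmul, ← add_assoc]
      rcases he with rfl | rfl
      · exact h (x + n • e1, false)
      · exact h (x + n • e2, true)
    have e3 : g (x + (n + 1) • e) - g x =
        (g (x + (n + 1) • e) - g (x + n • e)) + (g (x + n • e) - g x) := by ring
    rw [e3]
    refine (abs_add_le _ _).trans ?_
    push_cast
    linarith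

/-- oscillation -/
theorem GB.osc {s : ℝ} {g : V N → ℝ} (h : GB s g) (x r : V N) :
    |g (x + r) - g x| ≤ l1 r * s := by
  obtain ⟨a, c, hr, ha, hc⟩ := decomp r
  have m1 : |g (x + a) - g x| ≤ (r.1.valMinAbs.natAbs : ℝ) * s := by
    rcases ha with ha | ha
    · rw [ha]
      exact h.steps (Or.inl rfl) x _
    · have h1 := h.steps (Or.inl rfl) (x + a) r.1.valMinAbs.natAbs
      have e : x + a + r.1.valMinAbs.natAbs • (e1 : V N) = x := by rw [ha]; abel
      rw [e, abs_sub_comm] at h1
      exact h1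
  have m2 : |g (x + a + c) - g (x + a)| ≤ (r.2.valMinAbs.natAbs : ℝ) * s := by
    rcases hc with hc | hc
    · rw [hc]
      exact h.steps (Or.inr rfl) (x + a) _
    · have h1 := h.steps (Or.inr rfl) (x + a + c) r.2.valMinAbs.natAbs
      have e : x + a + c + r.2.valMinAbs.natAbs • (e2 : V N) = x + a := by rw [hc]; abel
      rw [e, abs_sub_comm] at h1
      exact h1
  have e3 : g (x + r) - g x = (g (x + a + c) - g (x + a)) + (g (x + a) - g x) := by
    rw [hr, ← add_assoc]; ring
  rw [e3]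
  refine (abs_add_le _ _).trans ?_
  unfold l1
  push_cast
  linarith

theorem GB.osc' {s : ℝ} (hs : 0 ≤ s) {g : V N → ℝ} (h : GB s g) (x y : V N) :
    |g x - g y| ≤ 2 * sz (x - y) * s := by
  have h1 := h.osc y (x - y)
  rw [add_sub_cancel] at h1
  refine h1.trans (mul_le_mul_of_nonneg_right ?_ hs)
  exact_mod_cast l1_le (x - y)

/-! ### the cut-off functions -/

/-- `1` on the box of radius `m`, `0` outside the box of radius `m + l` -/
def U (m l : ℕ) (x : V N) : ℝ := max 0 (min 1 (((m : ℝ) + l - sz x) / l))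

lemma U_nonneg (m l : ℕ) (x : V N) : 0 ≤ U m l x := le_max_left _ _

lemma U_le_one (m l : ℕ) (x : V N) : U m l x ≤ 1 := max_le zero_le_one (min_le_left _ _)

lemma abs_U (m l : ℕ) (x : V N) : |U m l x| ≤ 1 := by
  rw [abs_of_nonneg (U_nonneg m l x)]
  exact U_le_one m l x

lemma U_one {m l : ℕ} (hl : 0 < l) {x : V N} (hx : sz x ≤ m) : U m l x = 1 := by
  have hl' : (0 : ℝ) < l := by exact_mod_cast hl
  have hx' : (sz x : ℝ) ≤ m := by exact_mod_cast hx
  unfold U
  rw [min_eq_left, max_eq_right zero_le_one]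
  rw [le_div_iff₀ hl']
  linarith

lemma U_zero {m l : ℕ} {x : V N} (hx : m + l ≤ sz x) : U m l x = 0 := by
  have hx' : (m : ℝ) + l ≤ sz x := by exact_mod_cast hx
  unfold U
  have h1 : ((m : ℝ) + l - sz x) / l ≤ 0 := div_nonpos_of_nonpos_of_nonneg (by linarith) (by positivity)
  rw [min_eq_right (h1.trans zero_le_one), max_eq_left h1]

lemma sz_step (x : V N) (b : Bool) : sz x ≤ sz (x + eb b) + 1 ∧ sz (x + eb b) ≤ sz x + 1 := by
  cases b
  · exact sz_e1 x
  · exact sz_e2 x

lemma U_GB (m : ℕ) {l : ℕ} (hl : 0 < l) : GB (1 / (l : ℝ)) (U (N := N) m l) := by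
  rintro ⟨x, b⟩
  have hl' : (0 : ℝ) < l := by exact_mod_cast hl
  rw [gr_eq]
  unfold U
  have h1 : ∀ A B : ℝ, |max 0 A - max 0 B| ≤ |A - B| := fun A B => by
    rw [max_comm 0 A, max_comm 0 B]
    exact abs_max_sub_max_le_abs A B 0
  refine (h1 _ _).trans ?_
  have h2 : |min 1 (((m : ℝ) + l - sz (x + eb b)) / l) - min 1 (((m : ℝ) + l - sz x) / l)| ≤
      |((m : ℝ) + l - sz (x + eb b)) / l - ((m : ℝ) + l - sz x) / l| := by
    have := abs_min_sub_min_le_max (1 : ℝ) (((m : ℝ) + l - sz (x + eb b)) / l) 1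
      (((m : ℝ) + l - sz x) / l)
    simpa using this
  refine h2.trans ?_
  rw [← sub_div, abs_div, abs_of_pos hl']
  refine div_le_div_of_nonneg_right ?_ hl'.le
  have h3 := sz_step x b
  have h4 : (sz x : ℝ) ≤ sz (x + eb b) + 1 := by exact_mod_cast h3.1
  have h5 : (sz (x + eb b) : ℝ) ≤ sz x + 1 := by exact_mod_cast h3.2
  rw [abs_le]
  constructor <;> linarith

lemma U_shift_GB (m : ℕ) {l : ℕ} (hl : 0 < l) (p : V N) :
    GB (1 / (l : ℝ)) (fun x => U m l (x - p)) := (U_GB m hl).shift p

/-! ### the potential of a closed field on a box -/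

lemma val_box {a : ZMod N} {m : ℕ} (hm : 2 * m + 2 ≤ N) (ha : a.valMinAbs.natAbs ≤ m) :
    ((a + (m : ZMod N)).val : ℤ) = a.valMinAbs + m := by
  have h0 : ((a.valMinAbs : ℤ) : ZMod N) = a := ZMod.coe_valMinAbs a
  have h1 : (0 : ℤ) ≤ a.valMinAbs + m := by omega
  obtain ⟨k, hk⟩ := Int.eq_ofNat_of_zero_le h1
  have h2 : a + (m : ZMod N) = (k : ZMod N) := by
    have h3 : ((a.valMinAbs + (m : ℤ) : ℤ) : ZMod N) = ((k : ℤ) : ZMod N) := by rw [hk]
    push_cast at h3
    exact h3
  have h4 : k < N := by omega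
  rw [h2, ZMod.val_natCast, Nat.mod_eq_of_lt h4, hk]

lemma val_succ {a : ZMod N} (h : a.val + 1 < N) : (a + 1).val = a.val + 1 := by
  have h1 : (1 : ZMod N).val = 1 := by
    have h2 : ((1 : ℕ) : ZMod N).val = 1 % N := ZMod.val_natCast N 1
    rw [Nat.cast_one] at h2
    rw [h2, Nat.mod_eq_of_lt (by omega)]
  rw [ZMod.val_add_of_lt (by omega), h1]

/-- a field which is closed on the box of radius `m` around `w` has a potential there -/
theorem box_pot (β : V N × Bool → ℝ) (w : V N) {m : ℕ} (hm : 2 * m + 2 ≤ N) {s : ℝ}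
    (hβ : ∀ x b, sz (x - w) ≤ m → |β (x, b)| ≤ s) (hc : ∀ x, sz (x - w) ≤ m → cu β x = 0) :
    ∃ f : V N → ℝ, f w = 0 ∧ (∀ x b, sz (x - w) ≤ m → gr f (x, b) = β (x, b)) ∧
      ∀ x, sz (x - w) ≤ m → |f x| ≤ 8 * m * s := by
  -- lower left corner
  set w0 : V N := w - ((m : ZMod N), (m : ZMod N)) with hw0
  set I : V N → ℕ := fun y => (y.1 - w0.1).val with hI
  set J : V N → ℕ := fun y => (y.2 - w0.2).val with hJ
  have e1' : ∀ y : V N, y.1 - w0.1 = (y - w).1 + (m : ZMod N) := fun y => by
    rw [hw0]; simp only [Prod.fst_sub]; ring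
  have e2' : ∀ y : V N, y.2 - w0.2 = (y - w).2 + (m : ZMod N) := fun y => by
    rw [hw0]; simp only [Prod.snd_sub]; ring
  have hIv : ∀ y : V N, (y - w).1.valMinAbs.natAbs ≤ m → (I y : ℤ) = (y - w).1.valMinAbs + m := by
    intro y hy
    simp only [hI]
    rw [e1']
    exact val_box hm hy
  have hJv : ∀ y : V N, (y - w).2.valMinAbs.natAbs ≤ m → (J y : ℤ) = (y - w).2.valMinAbs + m := by
    intro y hy
    simp only [hJ]
    rw [e2']
    exact val_box hm hy
  have hsz : ∀ y : V N, sz (y - w) ≤ m ↔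
      ((y - w).1.valMinAbs.natAbs ≤ m ∧ (y - w).2.valMinAbs.natAbs ≤ m) := by
    intro y
    unfold sz
    exact max_le_iff
  have hI2 : ∀ y : V N, sz (y - w) ≤ m → I y ≤ 2 * m := by
    intro y hy
    have := hIv y ((hsz y).1 hy).1
    have := ((hsz y).1 hy).1
    omega
  have hJ2 : ∀ y : V N, sz (y - w) ≤ m → J y ≤ 2 * m := by
    intro y hy
    have := hJv y ((hsz y).1 hy).2
    have := ((hsz y).1 hy).2
    omega
  -- points of the box in coordinates
  have hyI : ∀ y : V N, y.1 = w0.1 + ((I y : ℕ) : ZMod N) := by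
    intro y
    simp only [hI]
    rw [ZMod.natCast_zmod_val]
    ring
  have hyJ : ∀ y : V N, y.2 = w0.2 + ((J y : ℕ) : ZMod N) := by
    intro y
    simp only [hJ]
    rw [ZMod.natCast_zmod_val]
    ring
  have hpt : ∀ i j : ℕ, i ≤ 2 * m → j ≤ 2 * m →
      sz (((w0.1 + (i : ZMod N), w0.2 + (j : ZMod N)) : V N) - w) ≤ m := by
    have hcoord : ∀ (a : ZMod N) (i : ℕ), i ≤ 2 * m → (-(m : ZMod N) + (i : ZMod N)).valMinAbs.natAbs ≤ m := by
      intro _ i hi
      have h1 : (-(m : ZMod N) + (i : ZMod N)).valMinAbs = (i : ℤ) - m := by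
        refine (ZMod.valMinAbs_spec _ _).2 ⟨by push_cast; ring, ?_⟩
        rw [Set.mem_Ioc]
        omega
      rw [h1]
      omega
    intro i j hi hj
    rw [hsz]
    constructor
    · have : (((w0.1 + (i : ZMod N), w0.2 + (j : ZMod N)) : V N) - w).1 =
          -(m : ZMod N) + (i : ZMod N) := by
        rw [hw0]; simp only [Prod.fst_sub]; ring
      rw [this]
      exact hcoord 0 i hi
    · have : (((w0.1 + (i : ZMod N), w0.2 + (j : ZMod N)) : V N) - w).2 =
          -(m : ZMod N) + (j : ZMod N) := by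
        rw [hw0]; simp only [Prod.snd_sub]; ring
      rw [this]
      exact hcoord 0 j hj
  have hs0 : 0 ≤ s := by
    have h1 : sz (w - w) ≤ m := by rw [sub_self, sz_zero]; exact Nat.zero_le _
    exact (abs_nonneg _).trans (hβ w false h1)
  -- the potential
  set f : V N → ℝ := fun y =>
    ∑ k ∈ range (I y), β (((w0.1 + (k : ZMod N)), w0.2), false) +
    ∑ k ∈ range (J y), β ((y.1, w0.2 + (k : ZMod N)), true) with hf
  have hIs : ∀ y : V N, sz (y - w) ≤ m → I (y + e1) = I y + 1 := by
    intro y hy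
    have h1 := hI2 y hy
    simp only [hI] at h1 ⊢
    have h2 : (y + e1).1 - w0.1 = (y.1 - w0.1) + 1 := by
      show y.1 + 1 - w0.1 = _
      ring
    rw [h2]
    exact val_succ (by omega)
  have hJs : ∀ y : V N, sz (y - w) ≤ m → J (y + e2) = J y + 1 := by
    intro y hy
    have h1 := hJ2 y hy
    simp only [hJ] at h1 ⊢
    have h2 : (y + e2).2 - w0.2 = (y.2 - w0.2) + 1 := by
      show y.2 + 1 - w0.2 = _
      ring
    rw [h2]
    exact val_succ (by omega)
  have hgr : ∀ x b, sz (x - w) ≤ m → gr f (x, b) = β (x, b) := by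
    intro x b hx
    cases b
    · rw [gr_false]
      have a1 := hIs x hx
      have a2 : J (x + e1) = J x := by
        simp only [hJ]
        have : (x + e1).2 = x.2 := by show x.2 + 0 = x.2; ring
        rw [this]
      simp only [hf]
      rw [a1, a2, Finset.sum_range_succ]
      have a3 : (x + e1).1 = x.1 + 1 := rfl
      rw [a3]
      have hi := hI2 x hx
      have hj := hJ2 x hx
      have tele : ∀ j ≤ J x, ∑ k ∈ range j, β ((x.1 + 1, w0.2 + (k : ZMod N)), true) -
          ∑ k ∈ range j, β ((x.1, w0.2 + (k : ZMod N)), true) =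
          β ((x.1, w0.2 + (j : ZMod N)), false) - β ((x.1, w0.2), false) := by
        intro j
        induction j with
        | zero => intro _; simp
        | succ j ih =>
          intro hjx
          rw [Finset.sum_range_succ, Finset.sum_range_succ]
          have h1 := ih (by omega)
          have h2 := hpt (I x) j (by omega) (by omega)
          rw [← hyI x] at h2
          have h3 := hc (x.1, w0.2 + (j : ZMod N)) h2
          unfold cu at h3
          have h4 : ((x.1, w0.2 + (j : ZMod N)) : V N) + e1 = (x.1 + 1, w0.2 + (j : ZMod N)) := by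
            show (x.1 + 1, w0.2 + (j : ZMod N) + 0) = _
            rw [add_zero]
          have h5 : ((x.1, w0.2 + (j : ZMod N)) : V N) + e2 =
              (x.1, w0.2 + ((j + 1 : ℕ) : ZMod N)) := by
            show (x.1 + 0, w0.2 + (j : ZMod N) + 1) = _
            push_cast
            rw [add_zero, add_assoc]
          rw [h4, h5] at h3
          linarith
      have h6 := tele (J x) le_rfl
      rw [← hyJ x] at h6
      have h7 : ((w0.1 + ((I x : ℕ) : ZMod N), w0.2) : V N) = (x.1, w0.2) := by rw [← hyI x]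
      rw [h7]
      have h8 : ((x.1, x.2) : V N) = x := rfl
      rw [h8] at h6
      linarith
    · rw [gr_true]
      have a1 := hJs x hx
      have a2 : I (x + e2) = I x := by
        simp only [hI]
        have : (x + e2).1 = x.1 := by show x.1 + 0 = x.1; ring
        rw [this]
      simp only [hf]
      rw [a1, a2, Finset.sum_range_succ]
      have a3 : (x + e2).1 = x.1 := by show x.1 + 0 = x.1; ring
      rw [a3]
      have h7 : ((x.1, w0.2 + ((J x : ℕ) : ZMod N)) : V N) = x := by rw [← hyJ x]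
      rw [h7]
      ring
  have hfb : ∀ x, sz (x - w) ≤ m → |f x| ≤ 4 * m * s := by
    intro x hx
    have hi := hI2 x hx
    have hj := hJ2 x hx
    simp only [hf]
    refine (abs_add_le _ _).trans ?_
    have b1 : |∑ k ∈ range (I x), β (((w0.1 + (k : ZMod N)), w0.2), false)| ≤ I x * s := by
      refine (Finset.abs_sum_le_sum_abs _ _).trans ?_
      have : ∑ k ∈ range (I x), |β (((w0.1 + (k : ZMod N)), w0.2), false)| ≤
          ∑ _k ∈ range (I x), s := by
        refine Finset.sum_le_sum fun k hk => hβ _ _ ?_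
        have h1 := hpt k 0 (by rw [Finset.mem_range] at hk; omega) (by omega)
        simpa using h1
      refine this.trans (le_of_eq ?_)
      rw [Finset.sum_const, Finset.card_range, nsmul_eq_mul]
    have b2 : |∑ k ∈ range (J x), β ((x.1, w0.2 + (k : ZMod N)), true)| ≤ J x * s := by
      refine (Finset.abs_sum_le_sum_abs _ _).trans ?_
      have : ∑ k ∈ range (J x), |β ((x.1, w0.2 + (k : ZMod N)), true)| ≤
          ∑ _k ∈ range (J x), s := by
        refine Finset.sum_le_sum fun k hk => hβ _ _ ?_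
        have h1 := hpt (I x) k (by omega) (by rw [Finset.mem_range] at hk; omega)
        rw [← hyI x] at h1
        exact h1
      refine this.trans (le_of_eq ?_)
      rw [Finset.sum_const, Finset.card_range, nsmul_eq_mul]
    have c1 : (I x : ℝ) ≤ 2 * m := by exact_mod_cast hi
    have c2 : (J x : ℝ) ≤ 2 * m := by exact_mod_cast hj
    calc _ ≤ (I x : ℝ) * s + J x * s := add_le_add b1 b2
      _ ≤ 2 * m * s + 2 * m * s :=
          add_le_add (mul_le_mul_of_nonneg_right c1 hs0) (mul_le_mul_of_nonneg_right c2 hs0)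
      _ = _ := by ring
  refine ⟨fun x => f x - f w, sub_self _, fun x b hx => ?_, fun x hx => ?_⟩
  · rw [gr_sub, gr_const, sub_zero]
    exact hgr x b hx
  · have h1 : sz (w - w) ≤ m := by rw [sub_self, sz_zero]; exact Nat.zero_le _
    refine (abs_sub _ _).trans ((add_le_add (hfb x hx) (hfb w h1)).trans (le_of_eq ?_))
    ring

end

end Vale.Agent.P159.H817
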