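import Vale.Agent.P159.H340.Kl2
import Vale.Agent.P159.H474.Green1

/-!
P159 / module ANG (helper817), part 1: the one dimensional sums
`N⁻¹ ∑_{k ≠ 0} √s_k ^ p z_k ^ n ≤ C_p / (1 + n) ^ (p+1)`, `s_k = 2 (1 - cos k)`.
-/

namespace Vale.Agent.P159.H817

open Finset
open Vale.Agent.P159.TM.H764 (cN)
open Vale.Agent.P159.H474 (zz rs kz)

noncomputable section

variable {N : ℕ} [NeZero N]

/-- the symbol of the one dimensional Laplacian -/
def sk (k : ZMod N) : ℝ := 2 * (1 - cN k)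

lemma sk_nonneg (k : ZMod N) : 0 ≤ sk k := by
  unfold sk
  have := TM.H764.cN_le_one k
  linarith

lemma sk_le (k : ZMod N) : sk k ≤ 8 := by
  unfold sk
  have := TM.H764.neg_one_le_cN k
  linarith

lemma sk_ge (k : ZMod N) : 4 * (k.valMinAbs.natAbs : ℝ) / N ≤ √(sk k) := by
  have hN : (0 : ℝ) < N := Nat.cast_pos.2 (NeZero.pos N)
  refine Real.le_sqrt_of_sq_le ?_
  have h := H340.one_sub_cN_ge k
  have h2 : ((k.valMinAbs.natAbs : ℝ)) ^ 2 = (k.valMinAbs : ℝ) ^ 2 := by
    rw [Nat.cast_natAbs, Int.cast_abs, sq_abs]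
  rw [div_pow, mul_pow, h2]
  unfold sk
  refine le_trans (le_of_eq ?_) h
  ring

lemma sk_pos {k : ZMod N} (hk : k ≠ 0) : 0 < sk k := by
  have h1 := sk_ge k
  have hN : (0 : ℝ) < N := Nat.cast_pos.2 (NeZero.pos N)
  have h2 : 0 < k.valMinAbs.natAbs := by
    rw [Int.natAbs_pos]
    intro h
    exact hk ((ZMod.valMinAbs_eq_zero k).1 h)
  have h3 : (0 : ℝ) < k.valMinAbs.natAbs := Nat.cast_pos.2 h2
  have h4 : 0 < √(sk k) := lt_of_lt_of_le (by positivity) h1
  exact Real.sqrt_pos.1 h4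

lemma sqrt_sk_le (k : ZMod N) : √(sk k) ≤ 3 := by
  rw [Real.sqrt_le_left (by norm_num)]
  have := sk_le k
  linarith

/-- geometric sum -/
lemma geo_exp {r : ℝ} (hr : 0 < r) (M : ℕ) :
    ∑ i ∈ range M, Real.exp (-(r * ((i : ℝ) + 1))) ≤ 1 / r := by
  have h1 : ∀ i : ℕ, Real.exp (-(r * ((i : ℝ) + 1))) = Real.exp (-r) * Real.exp (-r) ^ i := by
    intro i
    rw [← Real.exp_nat_mul, ← Real.exp_add]
    congr 1
    ring
  simp_rw [h1]
  rw [← Finset.mul_sum]
  have h2 : Real.exp (-r) < 1 := Real.exp_lt_one_iff.2 (by linarith)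
  have h3 : 0 < Real.exp (-r) := Real.exp_pos _
  have h4 : (∑ i ∈ range M, Real.exp (-r) ^ i) ≤ (1 - Real.exp (-r))⁻¹ := by
    rw [← tsum_geometric_of_lt_one h3.le h2]
    exact (summable_geometric_of_lt_one h3.le h2).sum_le_tsum _ fun i _ => pow_nonneg h3.le _
  refine (mul_le_mul_of_nonneg_left h4 h3.le).trans ?_
  rw [← div_eq_mul_inv, div_le_div_iff₀ (by linarith) hr]
  have h5 : r + 1 ≤ Real.exp r := Real.add_one_le_exp r
  have h6 : Real.exp (-r) * Real.exp r = 1 := by rw [← Real.exp_add]; simp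
  nlinarith

/-- the basic sum -/
lemma sum_exp_le (n : ℕ) :
    (∑ k ∈ (univ : Finset (ZMod N)).erase 0, Real.exp (-((n : ℝ) * √(sk k) / 8))) / N ≤
      5 / (1 + n) := by
  have hN : (0 : ℝ) < N := Nat.cast_pos.2 (NeZero.pos N)
  have hcard : (∑ _k ∈ (univ : Finset (ZMod N)).erase 0, (1 : ℝ)) ≤ N := by
    rw [Finset.sum_const, nsmul_eq_mul, mul_one]
    have h := Finset.card_erase_le (s := (univ : Finset (ZMod N))) (a := 0)
    rw [Finset.card_univ, ZMod.card] at h
    exact_mod_cast h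
  have hone : (∑ k ∈ (univ : Finset (ZMod N)).erase 0,
      Real.exp (-((n : ℝ) * √(sk k) / 8))) ≤ N := by
    refine le_trans (Finset.sum_le_sum fun k _ => ?_) hcard
    rw [Real.exp_le_one_iff]
    have := Real.sqrt_nonneg (sk k)
    have h2 : 0 ≤ (n : ℝ) * √(sk k) / 8 := by positivity
    linarith
  rcases le_or_gt n 4 with hn | hn
  · rw [div_le_div_iff₀ hN (by positivity)]
    have h1 : (1 : ℝ) + n ≤ 5 := by
      have : (n : ℝ) ≤ 4 := by exact_mod_cast hn
      linarith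
    calc _ ≤ (N : ℝ) * 5 := mul_le_mul hone h1 (by positivity) hN.le
      _ = 5 * N := by ring
  · have hn0 : (0 : ℝ) < n := by exact_mod_cast (by omega : 0 < n)
    obtain ⟨g, hg⟩ : ∃ g : ℕ → ℝ, g = fun i : ℕ =>
      if i = 0 then (0 : ℝ) else Real.exp (-((n : ℝ) / (2 * N) * i)) := ⟨_, rfl⟩
    have hg0 : ∀ i, 0 ≤ g i := by
      intro i
      rw [hg]
      dsimp only
      split_ifs
      · exact le_rfl
      · exact (Real.exp_pos _).le
    have h1 : (∑ k ∈ (univ : Finset (ZMod N)).erase 0, Real.exp (-((n : ℝ) * √(sk k) / 8))) ≤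
        ∑ k : ZMod N, g k.valMinAbs.natAbs := by
      rw [← Finset.sum_erase (s := (univ : Finset (ZMod N))) (a := 0)
        (f := fun k : ZMod N => g k.valMinAbs.natAbs) (by simp [hg])]
      refine Finset.sum_le_sum fun k hk => ?_
      have hk0 : k ≠ 0 := (Finset.mem_erase.1 hk).1
      have h2 : k.valMinAbs.natAbs ≠ 0 := by
        rw [Int.natAbs_ne_zero]
        intro h
        exact hk0 ((ZMod.valMinAbs_eq_zero k).1 h)
      rw [hg]
      dsimp only
      rw [if_neg h2, Real.exp_le_exp, neg_le_neg_iff]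
      have h3 := sk_ge k
      have h4 : (n : ℝ) / (2 * N) * (k.valMinAbs.natAbs : ℝ) =
          n * (4 * (k.valMinAbs.natAbs : ℝ) / N) / 8 := by
        field_simp
        ring
      rw [h4]
      have h5 := mul_le_mul_of_nonneg_left h3 hn0.le
      linarith
    have h2 := H340.sum_vma_le (N := N) hg0
    have h3 : ∑ i ∈ range (N + 1), g i ≤ 2 * N / n := by
      rw [Finset.sum_range_succ']
      have h4 : g 0 = 0 := by rw [hg]; simp
      rw [h4, add_zero]
      have h5 : ∀ i : ℕ, g (i + 1) = Real.exp (-((n : ℝ) / (2 * N) * ((i : ℝ) + 1))) := by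
        intro i
        rw [hg]
        dsimp only
        rw [if_neg (Nat.succ_ne_zero i)]
        push_cast
        rfl
      simp_rw [h5]
      refine (geo_exp (by positivity) N).trans (le_of_eq ?_)
      field_simp
    rw [div_le_div_iff₀ hN (by positivity)]
    have h6 : (∑ k ∈ (univ : Finset (ZMod N)).erase 0, Real.exp (-((n : ℝ) * √(sk k) / 8))) ≤
        4 * N / n := by
      refine h1.trans (h2.trans ?_)
      calc 2 * ∑ i ∈ range (N + 1), g i ≤ 2 * (2 * N / n) := by linarith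
        _ = 4 * N / n := by ring
    have h7 : (4 : ℝ) * (1 + n) ≤ 5 * n := by
      have : (5 : ℝ) ≤ n := by exact_mod_cast hn
      linarith
    refine (mul_le_mul_of_nonneg_right h6 (by positivity)).trans ?_
    have e1 : 4 * (N : ℝ) / n * (1 + n) = N * (4 * (1 + n)) / n := by ring
    have e2 : (N : ℝ) * (5 * n) / n = 5 * N := by field_simp
    rw [e1, ← e2]
    refine div_le_div_of_nonneg_right ?_ hn0.le
    exact mul_le_mul_of_nonneg_left h7 hN.le

/-- `x ^ p ≤ p! 8 ^ p e ^ (x/8)` -/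
lemma pow_le_exp8 {x : ℝ} (hx : 0 ≤ x) (p : ℕ) :
    x ^ p ≤ p.factorial * 8 ^ p * Real.exp (x / 8) := by
  have h := Real.pow_div_factorial_le_exp (x / 8) (by positivity) p
  rw [div_pow, div_div, div_le_iff₀ (by positivity)] at h
  calc x ^ p ≤ Real.exp (x / 8) * (8 ^ p * p.factorial) := h
    _ = _ := by ring

/-- the constant -/
def cp (p : ℕ) : ℝ := 10 * (p.factorial * 8 ^ p)

lemma cp_pos (p : ℕ) : 0 < cp p := by unfold cp; positivity

/-- **main one dimensional bound** -/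
theorem sum_pow_le (p n : ℕ) :
    (∑ k ∈ (univ : Finset (ZMod N)).erase 0, √(sk k) ^ p * zz (sk k) ^ n) / N ≤
      cp p / (1 + n) ^ (p + 1) := by
  have hN : (0 : ℝ) < N := Nat.cast_pos.2 (NeZero.pos N)
  have h1 : ∀ k : ZMod N, √(sk k) ^ p * zz (sk k) ^ n ≤
      2 * (p.factorial * 8 ^ p) / (1 + n) ^ p * Real.exp (-((n : ℝ) * √(sk k) / 8)) := by
    intro k
    have hu := Real.sqrt_nonneg (sk k)
    have hu3 := sqrt_sk_le k
    have h2 := H474.zz_pow_le (sk_nonneg k) (sk_le k) n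
    have h3 := pow_le_exp8 (x := (1 + n) * √(sk k)) (by positivity) p
    rw [mul_pow] at h3
    have h4 : √(sk k) ^ p ≤ p.factorial * 8 ^ p / (1 + n) ^ p *
        Real.exp ((1 + n) * √(sk k) / 8) := by
      rw [div_mul_eq_mul_div, le_div_iff₀ (by positivity)]
      calc √(sk k) ^ p * (1 + n) ^ p = (1 + n) ^ p * √(sk k) ^ p := by ring
        _ ≤ _ := h3
    have h5 : Real.exp ((1 + n) * √(sk k) / 8) * Real.exp (-(n * √(sk k) / 4)) ≤
        2 * Real.exp (-((n : ℝ) * √(sk k) / 8)) := by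
      rw [← Real.exp_add]
      have h6 : (1 + (n : ℝ)) * √(sk k) / 8 + -(n * √(sk k) / 4) =
          √(sk k) / 8 + -((n : ℝ) * √(sk k) / 8) := by ring
      rw [h6, Real.exp_add]
      refine mul_le_mul_of_nonneg_right ?_ (Real.exp_pos _).le
      have h7 : Real.exp (√(sk k) / 8) ≤ Real.exp (Real.log 2) := by
        rw [Real.exp_le_exp]
        have := Real.log_two_gt_d9
        linarith
      rwa [Real.exp_log (by norm_num)] at h7
    calc √(sk k) ^ p * zz (sk k) ^ n
        ≤ (p.factorial * 8 ^ p / (1 + n) ^ p * Real.exp ((1 + n) * √(sk k) / 8)) *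
          Real.exp (-(n * √(sk k) / 4)) :=
          mul_le_mul h4 h2 (pow_nonneg (H474.zz_pos (sk_nonneg k)).le _) (by positivity)
      _ = p.factorial * 8 ^ p / (1 + n) ^ p * (Real.exp ((1 + n) * √(sk k) / 8) *
          Real.exp (-(n * √(sk k) / 4))) := by ring
      _ ≤ p.factorial * 8 ^ p / (1 + n) ^ p * (2 * Real.exp (-((n : ℝ) * √(sk k) / 8))) :=
          mul_le_mul_of_nonneg_left h5 (by positivity)
      _ = _ := by ring
  have h2 := sum_exp_le (N := N) n
  calc (∑ k ∈ (univ : Finset (ZMod N)).erase 0, √(sk k) ^ p * zz (sk k) ^ n) / N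
      ≤ (∑ k ∈ (univ : Finset (ZMod N)).erase 0, 2 * (p.factorial * 8 ^ p) / (1 + n) ^ p *
          Real.exp (-((n : ℝ) * √(sk k) / 8))) / N :=
        div_le_div_of_nonneg_right (Finset.sum_le_sum fun k _ => h1 k) hN.le
    _ = 2 * (p.factorial * 8 ^ p) / (1 + n) ^ p *
        ((∑ k ∈ (univ : Finset (ZMod N)).erase 0, Real.exp (-((n : ℝ) * √(sk k) / 8))) / N) := by
        rw [← Finset.mul_sum, mul_div_assoc]
    _ ≤ 2 * (p.factorial * 8 ^ p) / (1 + n) ^ p * (5 / (1 + n)) :=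
        mul_le_mul_of_nonneg_left h2 (by positivity)
    _ = cp p / (1 + n) ^ (p + 1) := by
        unfold cp
        rw [pow_succ]
        field_simp
        ring

end

end Vale.Agent.P159.H817
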