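import Vale.Agent.P159.H817.Ang9

/-!
P159 / module ANG (helper817), part 10: exact scaling of the potential kernel of the torus under
`(N, x) → (M N, M x)`.
-/

set_option linter.unusedSectionVars false

namespace Vale.Agent.P159.H817

open Finset Real
open Vale.Agent.P159.TM.H764 (cN sN ch EE dt)
open Vale.Agent.P159.TM.Spec (V)
open Vale.Agent.P159.H474 (sx nx)

noncomputable section

variable {N : ℕ} [NeZero N] (M : ℕ) [NeZero M]

/-- the point `M x` of the torus `M N` -/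
def sc (x : V N) : V (M * N) :=
  (((M * x.1.valMinAbs : ℤ) : ZMod (M * N)), ((M * x.2.valMinAbs : ℤ) : ZMod (M * N)))

lemma refine_pt (m v : ℤ) (hv1 : 1 ≤ v.natAbs) (hv : 2 * v.natAbs ≤ N) :
    |G0 (((M * m : ℤ) : ZMod (M * N)), ((M * v : ℤ) : ZMod (M * N))) -
      G0 ((m : ZMod N), (v : ZMod N))| ≤ 600000 / (v.natAbs : ℝ) ^ 2 := by
  obtain ⟨n, hn⟩ : ∃ n : ℕ, v.natAbs = n := ⟨_, rfl⟩
  rw [hn] at hv1 hv ⊢
  rcases Int.natAbs_eq v with h | h
  · rw [hn] at h
    subst h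
    have h1 := G0_refine (M := M) (N := N) m hv1 hv
    have e1 : (((n : ℤ)) : ZMod N) = ((n : ℕ) : ZMod N) := by simp
    have e2 : ((M * (n : ℤ) : ℤ) : ZMod (M * N)) = ((M * n : ℕ) : ZMod (M * N)) := by
      push_cast
      rfl
    rw [e1, e2]
    exact h1
  · rw [hn] at h
    subst h
    have h1 := G0_refine (M := M) (N := N) (-m) hv1 hv
    have e1 : ((m : ZMod N), ((-(n : ℤ) : ℤ) : ZMod N)) =
        -((((-m : ℤ)) : ZMod N), ((n : ℕ) : ZMod N)) := by
      refine Prod.ext ?_ ?_ <;> simp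
    have e2 : (((M * m : ℤ) : ZMod (M * N)), ((M * (-(n : ℤ)) : ℤ) : ZMod (M * N))) =
        -(((M * -m : ℤ) : ZMod (M * N)), ((M * n : ℕ) : ZMod (M * N))) := by
      refine Prod.ext ?_ ?_ <;> simp
    rw [e1, e2, G0_neg, G0_neg]
    exact h1

lemma sz_pos {x : V N} (hx : x ≠ 0) : 1 ≤ sz x := H474.nx_pos hx

lemma coe_pair (x : V N) : ((x.1.valMinAbs : ZMod N), (x.2.valMinAbs : ZMod N)) = x :=
  Prod.ext (ZMod.coe_valMinAbs _) (ZMod.coe_valMinAbs _)

/-- **refinement** -/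
theorem G0_scale {x : V N} (hx : x ≠ 0) :
    |G0 (sc M x) - G0 x| ≤ 600000 / (sz x : ℝ) ^ 2 := by
  have h0 := sz_pos hx
  have h1 := half_ge x.1
  have h2 := half_ge x.2
  unfold sz at h0 ⊢
  rcases le_total x.1.valMinAbs.natAbs x.2.valMinAbs.natAbs with h | h
  · rw [max_eq_right h] at h0 ⊢
    have h3 := refine_pt (N := N) M x.1.valMinAbs x.2.valMinAbs h0 h2
    rw [coe_pair] at h3
    exact h3
  · rw [max_eq_left h] at h0 ⊢
    have h3 := refine_pt (N := N) M x.2.valMinAbs x.1.valMinAbs h0 h1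
    rw [← G0_swap (sc M x), ← G0_swap x]
    have e : ((x.2.valMinAbs : ZMod N), (x.1.valMinAbs : ZMod N)) = (x.2, x.1) :=
      Prod.ext (ZMod.coe_valMinAbs _) (ZMod.coe_valMinAbs _)
    rw [e] at h3
    exact h3

lemma vma_sc (v : ZMod N) : (((M * v.valMinAbs : ℤ) : ZMod (M * N))).valMinAbs = M * v.valMinAbs := by
  have h := ZMod.valMinAbs_mem_Ioc v
  have hM : (0 : ℤ) < M := by exact_mod_cast NeZero.pos M
  rw [Set.mem_Ioc] at h
  refine (ZMod.valMinAbs_spec _ _).2 ⟨rfl, ?_⟩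
  rw [Set.mem_Ioc]
  push_cast
  constructor
  · nlinarith
  · nlinarith

lemma sz_sc (x : V N) : sz (sc M x) = M * sz x := by
  unfold sz sc
  simp only [vma_sc, Int.natAbs_mul, Int.natAbs_natCast]
  rw [Nat.mul_max_mul_left]

lemma sx_sc (x : V N) : sx (sc M x) = (M : ℝ) ^ 2 * sx x := by
  unfold sx sc
  simp only [vma_sc]
  push_cast
  ring

lemma sc_ne {x : V N} (hx : x ≠ 0) : sc M x ≠ 0 := by
  intro h
  have h1 := sz_sc M x
  rw [h, sz_zero] at h1
  have h2 := sz_pos hx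
  have h3 := NeZero.pos M
  have := Nat.mul_pos h3 h2
  omega

/-- the constant term -/
theorem G0_zero_scale (hN : 2 ≤ N) :
    |G0 (0 : V (M * N)) - G0 (0 : V N) - Real.log M / (2 * π)| ≤ 3000000 * √(1 / √N) := by
  obtain ⟨ca, hca⟩ := aN_log
  have hpi := Real.pi_pos
  have hN0 : (0 : ℝ) < N := Nat.cast_pos.2 (NeZero.pos N)
  have hN1 : (1 : ℝ) ≤ N := by exact_mod_cast (NeZero.one_le (n := N))
  have hM : (0 : ℝ) < M := Nat.cast_pos.2 (NeZero.pos M)
  have hM1 : (1 : ℝ) ≤ M := by exact_mod_cast (NeZero.one_le (n := M))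
  set n : ℕ := Nat.sqrt N with hn
  have hn1 : 1 ≤ n := Nat.sqrt_pos.2 (NeZero.pos N)
  have hnn : n * n ≤ N := Nat.sqrt_le N
  have hn2 : N < (n + 1) * (n + 1) := Nat.lt_succ_sqrt N
  have hhalf : 2 * n ≤ N := by
    rcases Nat.lt_or_ge n 2 with h | h
    · omega
    · exact (Nat.mul_le_mul_right n h).trans hnn
  have hn0 : (0 : ℝ) < n := by exact_mod_cast hn1
  have hn1' : (1 : ℝ) ≤ n := by exact_mod_cast hn1
  set x : V N := ((0 : ZMod N), (n : ZMod N)) with hx
  have hv2 : x.2.valMinAbs = n := ZMod.valMinAbs_natCast_of_le_half (by omega)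
  have hv1 : x.1.valMinAbs = 0 := by simp [hx]
  have hsz : sz x = n := by
    unfold sz
    rw [hv1, hv2]
    simp
  have hsx : sx x = (n : ℝ) ^ 2 := by
    unfold H474.sx
    rw [hv1, hv2]
    push_cast
    ring
  have hx0 : x ≠ 0 := by
    intro h
    rw [h, sz_zero] at hsz
    omega
  have a1 := hca N x hx0
  have a2 := hca (M * N) (sc M x) (sc_ne M hx0)
  have a3 := G0_scale M hx0
  rw [hsz] at a1 a3
  rw [sz_sc, hsz] at a2
  rw [hsx] at a1
  rw [sx_sc, hsx] at a2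
  -- sizes
  set w : ℝ := √(1 / √N) with hw
  have hs1 : 1 ≤ √(N : ℝ) := Real.one_le_sqrt.2 hN1
  have hs0 : 0 < √(N : ℝ) := by linarith
  have hw2 : w ^ 2 = 1 / √N := Real.sq_sqrt (by positivity)
  have hw0 : 0 ≤ w := Real.sqrt_nonneg _
  have hw1 : w ≤ 1 := by
    rw [hw, Real.sqrt_le_left zero_le_one, one_pow, div_le_one hs0]
    exact hs1
  have hnle : (n : ℝ) ≤ √N := by
    refine Real.le_sqrt_of_sq_le ?_
    rw [pow_two]
    exact_mod_cast hnn
  have hnge : √(N : ℝ) ≤ 2 * n := by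
    rw [Real.sqrt_le_left (by positivity)]
    have h1 : (N : ℝ) < (n + 1) * (n + 1) := by exact_mod_cast hn2
    nlinarith
  have b1 : 1 / (n : ℝ) ≤ 2 * w := by
    have h1 : 1 / (n : ℝ) ≤ 2 * (1 / √N) := by
      rw [mul_one_div, div_le_div_iff₀ hn0 hs0]
      linarith
    rw [← hw2] at h1
    nlinarith
  have b2 : 1 / (n : ℝ) ^ 2 ≤ 2 * w := by
    refine le_trans ?_ b1
    refine one_div_le_one_div_of_le hn0 ?_
    nlinarith
  have b3 : √((n : ℝ) / N) ≤ w := by
    refine Real.sqrt_le_sqrt ?_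
    rw [div_le_div_iff₀ hN0 hs0]
    have h1 : √(N : ℝ) * √N = N := Real.mul_self_sqrt hN0.le
    calc (n : ℝ) * √N ≤ √N * √N := mul_le_mul_of_nonneg_right hnle hs0.le
      _ = 1 * N := by rw [h1, one_mul]
  have b4 : √(((M * n : ℕ) : ℝ) / ((M * N : ℕ) : ℝ)) ≤ w := by
    have e : ((M * n : ℕ) : ℝ) / ((M * N : ℕ) : ℝ) = (n : ℝ) / N := by
      push_cast
      field_simp
    rw [e]
    exact b3
  have b5 : 1 / ((M * n : ℕ) : ℝ) ≤ 2 * w := by
    refine le_trans ?_ b1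
    refine one_div_le_one_div_of_le hn0 ?_
    push_cast
    nlinarith
  have c1 : 20000 / (n : ℝ) + 700000 * √((n : ℝ) / N) ≤ 740000 * w := by
    have : 20000 / (n : ℝ) = 20000 * (1 / n) := by ring
    rw [this]
    linarith
  have c2 : 20000 / ((M * n : ℕ) : ℝ) + 700000 * √(((M * n : ℕ) : ℝ) / ((M * N : ℕ) : ℝ)) ≤
      740000 * w := by
    have : 20000 / ((M * n : ℕ) : ℝ) = 20000 * (1 / ((M * n : ℕ) : ℝ)) := by ring
    rw [this]
    linarith
  have c3 : 600000 / (n : ℝ) ^ 2 ≤ 1200000 * w := by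
    have : 600000 / (n : ℝ) ^ 2 = 600000 * (1 / (n : ℝ) ^ 2) := by ring
    rw [this]
    linarith
  have a1' := a1.trans c1
  have a2' := a2.trans c2
  have a3' := a3.trans c3
  have e1 : Real.log ((M : ℝ) ^ 2 * (n : ℝ) ^ 2) = 2 * Real.log M + Real.log ((n : ℝ) ^ 2) := by
    rw [Real.log_mul (by positivity) (by positivity), Real.log_pow]
    push_cast
    ring
  rw [e1] at a2'
  have e2 : G0 (0 : V (M * N)) - G0 (0 : V N) - Real.log M / (2 * π) =
      (aN (sc M x) - (2 * Real.log M + Real.log ((n : ℝ) ^ 2)) / (4 * π) - ca) +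
      (G0 (sc M x) - G0 x) - (aN x - Real.log ((n : ℝ) ^ 2) / (4 * π) - ca) := by
    unfold aN
    field_simp
    ring
  rw [e2]
  refine (abs_sub _ _).trans ((add_le_add ((abs_add_le _ _).trans (add_le_add a2' a3')) a1').trans ?_)
  linarith

/-- **exact scaling of the potential kernel**: `aN (M x) = aN x + (1/2π) log M + O(|x|^{-1/4})` on
the tori `M N` and `N`, uniformly in `N`, `M` and `x ≠ 0` (also for `|x|` comparable to `N`) -/
theorem aN_scale {x : V N} (hx : x ≠ 0) :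
    |aN (sc M x) - aN x - Real.log M / (2 * π)| ≤ 4000000 * √(1 / √(sz x)) := by
  have h1 := sz_pos hx
  have h2 := sz_le_N x
  have hN2 : 2 ≤ N := by
    have h3 := half_ge x.1
    have h4 := half_ge x.2
    unfold sz at h1
    omega
  have h1' : (1 : ℝ) ≤ sz x := by exact_mod_cast h1
  have h2' : (sz x : ℝ) ≤ N := by exact_mod_cast h2
  have hs : 0 < √(sz x : ℝ) := Real.sqrt_pos.2 (by linarith)
  have a1 := G0_zero_scale (N := N) M hN2
  have a2 := G0_scale M hx
  have b1 : √(1 / √(N : ℝ)) ≤ √(1 / √(sz x)) := by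
    refine Real.sqrt_le_sqrt ?_
    exact one_div_le_one_div_of_le hs (Real.sqrt_le_sqrt h2')
  have b2 : 1 / (sz x : ℝ) ^ 2 ≤ √(1 / √(sz x)) := by
    refine Real.le_sqrt_of_sq_le ?_
    rw [div_pow, one_pow]
    refine one_div_le_one_div_of_le hs ?_
    have h3 : √(sz x : ℝ) ≤ sz x := by
      rw [Real.sqrt_le_left (by linarith)]
      nlinarith
    have h4 : (sz x : ℝ) ≤ ((sz x : ℝ) ^ 2) ^ 2 := by
      have h5 : (sz x : ℝ) ^ 1 ≤ (sz x : ℝ) ^ 4 := pow_le_pow_right₀ h1' (by norm_num)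
      calc (sz x : ℝ) = (sz x : ℝ) ^ 1 := (pow_one _).symm
        _ ≤ (sz x : ℝ) ^ 4 := h5
        _ = _ := by ring
    linarith
  have e : aN (sc M x) - aN x - Real.log M / (2 * π) =
      (G0 (0 : V (M * N)) - G0 (0 : V N) - Real.log M / (2 * π)) - (G0 (sc M x) - G0 x) := by
    unfold aN
    ring
  rw [e]
  have a2' : |G0 (sc M x) - G0 x| ≤ 600000 * √(1 / √(sz x)) := by
    refine a2.trans ?_
    have : 600000 / (sz x : ℝ) ^ 2 = 600000 * (1 / (sz x : ℝ) ^ 2) := by ring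
    rw [this]
    linarith
  refine (abs_sub _ _).trans ((add_le_add a1 a2').trans ?_)
  have := Real.sqrt_nonneg (1 / √(sz x : ℝ))
  linarith

/-- scaling of the energy of a pair of dislocations: the field of the pair with charges at distance
`M x` on the torus `M N` and harmonic part of the same total flux per length -/
theorem nrm_scale {p q : V N} (hpq : p ≠ q) {p' q' : V (M * N)} (h : p' - q' = sc M (p - q))
    (a c : ℝ) :
    |nrm (jD p' q' (a / M) (c / M)) - nrm (jD p q a c) - Real.log M / π| ≤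
      8000000 * √(1 / √(sz (p - q))) := by
  have hM : (0 : ℝ) < M := Nat.cast_pos.2 (NeZero.pos M)
  have hpi := Real.pi_pos
  have h1 := aN_scale M (sub_ne_zero.2 hpq)
  rw [nrm_jD, nrm_jD, h]
  have e : 2 * aN (sc M (p - q)) + ((M * N : ℕ) : ℝ) ^ 2 * ((a / M) ^ 2 + (c / M) ^ 2) -
      (2 * aN (p - q) + (N : ℝ) ^ 2 * (a ^ 2 + c ^ 2)) - Real.log M / π =
      2 * (aN (sc M (p - q)) - aN (p - q) - Real.log M / (2 * π)) := by
    push_cast
    field_simp
    ring
  rw [e, abs_mul, abs_of_pos (by norm_num : (0 : ℝ) < 2)]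
  linarith

end

end Vale.Agent.P159.H817
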