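import Vale.Agent.P159.H817.Ang1
import Vale.Agent.P159.H864.Fou0

/-!
P159 / module ANG (helper817), part 2: the massless Green function of the torus
`G0 x = N⁻² ∑_{k ≠ 0} cos(k x) / EE k`, first and second differences.
-/

namespace Vale.Agent.P159.H817

open Finset
open Vale.Agent.P159.TM.H764 (cN sN dt EE)
open Vale.Agent.P159.TM.Spec (V)
open Vale.Agent.P159.H474 (zz rs kz)

noncomputable section

set_option linter.unusedSectionVars false

variable {N : ℕ} [NeZero N]

/-- massless Green function of the torus (zero mode removed) -/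
def G0 (x : V N) : ℝ := (∑ k ∈ (univ : Finset (V N)).erase 0, cN (dt k x) / EE k) / (N : ℝ) ^ 2

/-- potential kernel of the torus -/
def aN (x : V N) : ℝ := G0 (0 : V N) - G0 x

/-- size of a point of the torus (sup norm) -/
def sz (x : V N) : ℕ := max x.1.valMinAbs.natAbs x.2.valMinAbs.natAbs

lemma G0_neg (x : V N) : G0 (-x) = G0 x := by
  unfold G0
  congr 1
  refine Finset.sum_congr rfl fun k _ => ?_
  rw [H864.dt_neg, TM.H764.cN_neg]

lemma EE_swap (k : V N) : EE (k.2, k.1) = EE k := by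
  unfold TM.H764.EE
  simp only
  ring

lemma G0_swap (x : V N) : G0 (x.2, x.1) = G0 x := by
  unfold G0
  congr 1
  refine Finset.sum_nbij' (fun k => (k.2, k.1)) (fun k => (k.2, k.1)) ?_ ?_ ?_ ?_ ?_
  · intro k hk
    rw [Finset.mem_erase] at hk ⊢
    refine ⟨fun h => hk.1 ?_, Finset.mem_univ _⟩
    have h1 := congrArg Prod.fst h
    have h2 := congrArg Prod.snd h
    exact Prod.ext h2 h1
  · intro k hk
    rw [Finset.mem_erase] at hk ⊢
    refine ⟨fun h => hk.1 ?_, Finset.mem_univ _⟩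
    have h1 := congrArg Prod.fst h
    have h2 := congrArg Prod.snd h
    exact Prod.ext h2 h1
  · intro k _; rfl
  · intro k _; rfl
  · intro k _
    rw [EE_swap]
    congr 2
    unfold TM.H764.dt
    simp only
    ring

/-! ### the Laplacian -/

lemma cN_add_sub (a b : ZMod N) : cN (a + b) + cN (a - b) = 2 * cN a * cN b := by
  rw [TM.H764.cN_add, TM.H764.cN_sub]
  ring

lemma EE_pos {k : V N} (hk : k ≠ 0) : 0 < EE k := by
  have h1 := TM.H764.cN_le_one k.1
  have h2 := TM.H764.cN_le_one k.2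
  unfold TM.H764.EE
  by_cases h : k.1 = 0
  · have h3 : k.2 ≠ 0 := fun h3 => hk (Prod.ext h h3)
    have h4 := sk_pos h3
    unfold sk at h4
    linarith
  · have h4 := sk_pos h
    unfold sk at h4
    linarith

/-- **the equation**: `-Δ G0 = δ_0 - N⁻²` -/
theorem lap_G0 (x : V N) :
    G0 (x + (1, 0)) + G0 (x - (1, 0)) + G0 (x + (0, 1)) + G0 (x - (0, 1)) - 4 * G0 x =
      1 / (N : ℝ) ^ 2 - if x = 0 then 1 else 0 := by
  have hN := H864.N_pos (N := N)
  have h1 : ∀ k ∈ (univ : Finset (V N)).erase 0,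
      cN (dt k (x + (1, 0))) / EE k + cN (dt k (x - (1, 0))) / EE k +
      cN (dt k (x + (0, 1))) / EE k + cN (dt k (x - (0, 1))) / EE k - 4 * (cN (dt k x) / EE k) =
      -cN (dt k x) := by
    intro k hk
    have hE := (EE_pos (Finset.mem_erase.1 hk).1).ne'
    have d1 : dt k ((1, 0) : V N) = k.1 := by unfold TM.H764.dt; simp
    have d2 : dt k ((0, 1) : V N) = k.2 := by unfold TM.H764.dt; simp
    have s1 : cN (dt k (x + (1, 0))) + cN (dt k (x - (1, 0))) = 2 * cN (dt k x) * cN k.1 := by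
      rw [TM.H764.dt_add, TM.H764.dt_sub, d1, cN_add_sub]
    have s2 : cN (dt k (x + (0, 1))) + cN (dt k (x - (0, 1))) = 2 * cN (dt k x) * cN k.2 := by
      rw [TM.H764.dt_add, TM.H764.dt_sub, d2, cN_add_sub]
    have e : EE k = 4 - 2 * cN k.1 - 2 * cN k.2 := by unfold TM.H764.EE; ring
    field_simp
    rw [e]
    linarith
  have h2 : ∑ k ∈ (univ : Finset (V N)).erase 0, cN (dt k x) =
      (if x = 0 then (N : ℝ) ^ 2 else 0) - 1 := by
    rw [← H864.sum_cN x, ← Finset.add_sum_erase _ _ (Finset.mem_univ (0 : V N))]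
    have h3 : cN (dt x (0 : V N)) = 1 := by rw [H864.dt_zero, TM.H764.cN_zero]
    rw [h3]
    have h4 : ∀ k : V N, cN (dt k x) = cN (dt x k) := fun k => by rw [H864.dt_comm]
    simp_rw [h4]
    ring
  have h3 := Finset.sum_congr (rfl : (univ : Finset (V N)).erase 0 = _) h1
  rw [Finset.sum_sub_distrib, Finset.sum_add_distrib, Finset.sum_add_distrib,
    Finset.sum_add_distrib, ← Finset.mul_sum, Finset.sum_neg_distrib, h2] at h3
  unfold G0
  rw [← add_div, ← add_div, ← add_div, ← mul_div_assoc, ← sub_div, h3]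
  have hN0 : (N : ℝ) ≠ 0 := TM.H764.N_ne
  split_ifs
  · field_simp
    ring
  · field_simp
    ring

lemma sum_G0 : ∑ x : V N, G0 x = 0 := by
  unfold G0
  rw [← Finset.sum_div, Finset.sum_comm]
  have h : ∑ k ∈ (univ : Finset (V N)).erase 0, ∑ x : V N, cN (dt k x) / EE k = 0 := by
    refine Finset.sum_eq_zero fun k hk => ?_
    rw [← Finset.sum_div, H864.sum_cN, if_neg (Finset.mem_erase.1 hk).1, zero_div]
  rw [h, zero_div]

/-! ### reduction to one dimensional sums -/

/-- the line `k₁ = 0` -/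
def qn (N : ℕ) [NeZero N] (n : ℕ) : ℝ :=
  ∑ l ∈ (univ : Finset (ZMod N)).erase 0, cN (l * (n : ZMod N)) / sk l

/-- the part `k₁ ≠ 0` -/
def An (m : ZMod N) (n : ℕ) : ℝ :=
  (∑ k ∈ (univ : Finset (ZMod N)).erase 0, cN (k * m) * kz N n (sk k)) / N

lemma sum_line (a : ZMod N) (s : ℝ) (n : ℕ) :
    ∑ l : ZMod N, cN (a + l * (n : ZMod N)) / (s + 2 - 2 * cN l) =
      cN a * ∑ l : ZMod N, cN (l * (n : ZMod N)) / (s + 2 - 2 * cN l) := by
  have h1 : ∑ l : ZMod N, sN (l * (n : ZMod N)) / (s + 2 - 2 * cN l) = 0 := by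
    have h2 : ∑ l : ZMod N, sN (l * (n : ZMod N)) / (s + 2 - 2 * cN l) =
        ∑ l : ZMod N, sN (-l * (n : ZMod N)) / (s + 2 - 2 * cN (-l)) :=
      (Equiv.sum_comp (Equiv.neg (ZMod N))
        (fun l : ZMod N => sN (l * (n : ZMod N)) / (s + 2 - 2 * cN l))).symm
    have h3 : ∑ l : ZMod N, sN (-l * (n : ZMod N)) / (s + 2 - 2 * cN (-l)) =
        -∑ l : ZMod N, sN (l * (n : ZMod N)) / (s + 2 - 2 * cN l) := by
      rw [← Finset.sum_neg_distrib]
      refine Finset.sum_congr rfl fun l _ => ?_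
      rw [neg_mul, TM.H764.sN_neg, TM.H764.cN_neg, neg_div]
    linarith
  have h4 : ∀ l : ZMod N, cN (a + l * (n : ZMod N)) / (s + 2 - 2 * cN l) =
      cN a * (cN (l * (n : ZMod N)) / (s + 2 - 2 * cN l)) -
      sN a * (sN (l * (n : ZMod N)) / (s + 2 - 2 * cN l)) := by
    intro l
    rw [TM.H764.cN_add]
    ring
  simp_rw [h4]
  rw [Finset.sum_sub_distrib, ← Finset.mul_sum, ← Finset.mul_sum, h1, mul_zero, sub_zero]

theorem G0_eq (m : ZMod N) {n : ℕ} (hn : n ≤ N) :
    G0 (m, (n : ZMod N)) = An m n + qn N n / (N : ℝ) ^ 2 := by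
  have hN : (0 : ℝ) < N := Nat.cast_pos.2 (NeZero.pos N)
  unfold G0 An qn
  have h1 : ∑ k ∈ (univ : Finset (V N)).erase 0, cN (dt k (m, (n : ZMod N))) / EE k =
      ∑ k ∈ (univ : Finset (ZMod N)).erase 0, ∑ l : ZMod N,
        cN (dt (k, l) (m, (n : ZMod N))) / EE (k, l) +
      ∑ l ∈ (univ : Finset (ZMod N)).erase 0,
        cN (dt ((0 : ZMod N), l) (m, (n : ZMod N))) / EE ((0 : ZMod N), l) := by
    have e1 : (∑ k ∈ (univ : Finset (V N)).erase 0, cN (dt k (m, (n : ZMod N))) / EE k) +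
        cN (dt (0 : V N) (m, (n : ZMod N))) / EE (0 : V N) =
        ∑ k : V N, cN (dt k (m, (n : ZMod N))) / EE k :=
      Finset.sum_erase_add _ _ (Finset.mem_univ _)
    have e2 : EE (0 : V N) = 0 := TM.H764.EE_zero
    rw [e2, div_zero, add_zero] at e1
    rw [e1, Fintype.sum_prod_type, ← Finset.sum_erase_add _ _ (Finset.mem_univ (0 : ZMod N))]
    congr 1
    rw [← Finset.sum_erase_add _ _ (Finset.mem_univ (0 : ZMod N))]
    have e3 : EE ((0 : ZMod N), (0 : ZMod N)) = 0 := TM.H764.EE_zero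
    rw [e3, div_zero, add_zero]
  rw [h1, add_div]
  congr 1
  · rw [div_eq_div_iff (by positivity) hN.ne']
    have h2 : ∀ k ∈ (univ : Finset (ZMod N)).erase 0,
        ∑ l : ZMod N, cN (dt (k, l) (m, (n : ZMod N))) / EE (k, l) =
        N * (cN (k * m) * kz N n (sk k)) := by
      intro k hk
      have hs := sk_pos (Finset.mem_erase.1 hk).1
      have h3 : ∀ l : ZMod N, cN (dt (k, l) (m, (n : ZMod N))) / EE (k, l) =
          cN (k * m + l * (n : ZMod N)) / (sk k + 2 - 2 * cN l) := by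
        intro l
        congr 1
        unfold TM.H764.EE sk
        ring
      simp_rw [h3]
      rw [sum_line, H474.sum1 hs hn]
      ring
    rw [Finset.sum_congr rfl h2, ← Finset.mul_sum]
    ring
  · congr 1
    refine Finset.sum_congr rfl fun l _ => ?_
    unfold TM.H764.dt TM.H764.EE sk
    simp only [zero_mul, zero_add]
    rw [TM.H764.cN_zero]
    congr 1
    ring

/-! ### the line `k₁ = 0` -/

lemma qn_rec {n : ℕ} (h0 : 0 < n) (hn : n < N) :
    qn N (n + 1) + qn N (n - 1) - 2 * qn N n = 1 := by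
  unfold qn
  rw [← Finset.sum_add_distrib, Finset.mul_sum, ← Finset.sum_sub_distrib]
  have h1 : ∀ l ∈ (univ : Finset (ZMod N)).erase 0,
      cN (l * ((n + 1 : ℕ) : ZMod N)) / sk l + cN (l * ((n - 1 : ℕ) : ZMod N)) / sk l -
        2 * (cN (l * (n : ZMod N)) / sk l) = -cN (l * (n : ZMod N)) := by
    intro l hl
    have hs := (sk_pos (Finset.mem_erase.1 hl).1).ne'
    have e1 : l * ((n + 1 : ℕ) : ZMod N) = l * (n : ZMod N) + l := by push_cast; ring
    have e2 : l * ((n - 1 : ℕ) : ZMod N) = l * (n : ZMod N) - l := by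
      rw [Nat.cast_sub h0]; push_cast; ring
    have e3 := cN_add_sub (l * (n : ZMod N)) l
    rw [e1, e2]
    have e4 : sk l = 2 - 2 * cN l := by unfold sk; ring
    field_simp
    rw [e4]
    linarith
  rw [Finset.sum_congr rfl h1, Finset.sum_neg_distrib]
  have h2 : ∑ l : ZMod N, cN (l * (n : ZMod N)) = 0 := by
    rw [H474.sum_cN, if_neg]
    intro h
    rw [ZMod.natCast_eq_zero_iff] at h
    exact absurd (Nat.le_of_dvd h0 h) (by omega)
  rw [← Finset.sum_erase_add _ _ (Finset.mem_univ (0 : ZMod N)), zero_mul,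
    TM.H764.cN_zero] at h2
  linarith

lemma qn_diff (n : ℕ) (hn : n + 1 ≤ N) :
    qn N (n + 1) - qn N n = (n : ℝ) + (qn N 1 - qn N 0) := by
  induction n with
  | zero => simp
  | succ n ih =>
    have h1 := qn_rec (N := N) (n := n + 1) (by omega) (by omega)
    have h2 := ih (by omega)
    rw [Nat.add_sub_cancel] at h1
    push_cast
    linarith

lemma qn_N : qn N N = qn N 0 := by
  unfold qn
  simp

lemma qn_one : qn N 1 - qn N 0 = -((N : ℝ) - 1) / 2 := by
  have h1 : ∀ M : ℕ, M ≤ N → qn N M - qn N 0 =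
      (M : ℝ) * (M - 1) / 2 + M * (qn N 1 - qn N 0) := by
    intro M
    induction M with
    | zero => intro _; simp
    | succ M ih =>
      intro hM
      have h2 := ih (by omega)
      have h3 := qn_diff (N := N) M hM
      push_cast
      linarith
  have h2 := h1 N le_rfl
  rw [qn_N, sub_self] at h2
  have hN : (0 : ℝ) < N := Nat.cast_pos.2 (NeZero.pos N)
  have h3 : (N : ℝ) * (((N : ℝ) - 1) / 2 + (qn N 1 - qn N 0)) = 0 := by
    rw [h2]; ring
  rcases mul_eq_zero.1 h3 with h | h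
  · exact absurd h hN.ne'
  · linarith

lemma qn_diff' (n : ℕ) (hn : n + 1 ≤ N) :
    qn N (n + 1) - qn N n = (n : ℝ) - ((N : ℝ) - 1) / 2 := by
  rw [qn_diff n hn, qn_one]
  ring

lemma abs_qn_diff (n : ℕ) (hn : n + 1 ≤ N) : |qn N (n + 1) - qn N n| ≤ N / 2 := by
  rw [qn_diff' n hn, abs_le]
  have h : (n : ℝ) + 1 ≤ N := by exact_mod_cast hn
  have h2 : (0 : ℝ) ≤ n := Nat.cast_nonneg n
  constructor <;> linarith

end

end Vale.Agent.P159.H817
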