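import Vale.Agent.P159.H817.Ang2

/-!
P159 / module ANG (helper817), part 3: `|∇ G0 (x)| ≤ C / (1 + |x|)` and
`|∇² G0 (x)| ≤ C / (1 + |x|)²` on the torus of side `N`, uniformly in `N`.
-/

set_option linter.unusedSectionVars false

namespace Vale.Agent.P159.H817

open Finset
open Vale.Agent.P159.TM.H764 (cN sN dt EE)
open Vale.Agent.P159.TM.Spec (V)
open Vale.Agent.P159.H474 (zz rs kz)

noncomputable section

variable {N : ℕ} [NeZero N]

lemma zN_le {k : ZMod N} (hk : k ≠ 0) : zz (sk k) ^ N ≤ 1 / 2 := by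
  have hN : (0 : ℝ) < N := Nat.cast_pos.2 (NeZero.pos N)
  refine (H474.zz_pow_le (sk_nonneg k) (sk_le k) N).trans ?_
  have h1 := sk_ge k
  have h2 : (1 : ℝ) ≤ k.valMinAbs.natAbs := by
    have : 0 < k.valMinAbs.natAbs := by
      rw [Int.natAbs_pos]
      intro h
      exact hk ((ZMod.valMinAbs_eq_zero k).1 h)
    exact_mod_cast this
  have h3 : (1 : ℝ) ≤ N * √(sk k) / 4 := by
    have h4 : 4 * (1 : ℝ) / N ≤ √(sk k) := by
      refine le_trans ?_ h1
      exact div_le_div_of_nonneg_right (by linarith) hN.le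
    rw [div_le_iff₀ hN] at h4
    linarith
  have h5 : Real.exp (-(N * √(sk k) / 4)) ≤ Real.exp (-1) := Real.exp_le_exp.2 (by linarith)
  refine h5.trans ?_
  have h6 : Real.exp (-1) < 0.3678794412 := Real.exp_neg_one_lt_d9
  linarith

lemma rs_ge {s : ℝ} (hs : 0 ≤ s) : 2 * (1 - zz s) ≤ rs s := by
  have h1 := H474.zz_inv_sub hs
  have h2 := H474.zz_pos hs
  have h3 := H474.zz_le_one hs
  have h4 : 1 ≤ (zz s)⁻¹ := by
    rw [one_le_inv₀ h2]; exact h3
  have h5 : (zz s)⁻¹ * zz s = 1 := inv_mul_cancel₀ h2.ne'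
  nlinarith

lemma kz_nonneg {k : ZMod N} (hk : k ≠ 0) (n : ℕ) : 0 ≤ kz N n (sk k) := by
  have h1 := zN_le hk
  have h2 := H474.zz_pos (sk_nonneg k)
  have h3 := H474.rs_nonneg (sk k)
  unfold H474.kz
  exact div_nonneg (by positivity) (mul_nonneg (by linarith) h3)

lemma kz_le {k : ZMod N} (hk : k ≠ 0) (n : ℕ) :
    √(sk k) * kz N n (sk k) ≤ zz (sk k) ^ n + zz (sk k) ^ (N - n) := by
  have h1 := zN_le hk
  have h2 := H474.zz_pos (sk_nonneg k)
  have h3 := H474.sqrt_le_rs (sk_nonneg k)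
  have h4 := Real.sqrt_pos.2 (sk_pos hk)
  unfold H474.kz
  rw [mul_div_assoc', div_le_iff₀ (mul_pos (by linarith) (by linarith))]
  have h5 : √(sk k) ≤ (1 - zz (sk k) ^ N) * rs (sk k) := by
    have h6 : (1 / 2 : ℝ) * (2 * √(sk k)) ≤ (1 - zz (sk k) ^ N) * rs (sk k) :=
      mul_le_mul (by linarith) h3 (by positivity) (by linarith)
    linarith
  calc √(sk k) * (zz (sk k) ^ n + zz (sk k) ^ (N - n))
      = (zz (sk k) ^ n + zz (sk k) ^ (N - n)) * √(sk k) := by ring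
    _ ≤ _ := mul_le_mul_of_nonneg_left h5 (by positivity)

lemma kz_diff {k : ZMod N} (hk : k ≠ 0) {n : ℕ} (hn : n + 1 ≤ N) :
    |kz N (n + 1) (sk k) - kz N n (sk k)| ≤ zz (sk k) ^ n + zz (sk k) ^ (N - 1 - n) := by
  have h1 := zN_le hk
  have h2 := H474.zz_pos (sk_nonneg k)
  have h2' := H474.zz_le_one (sk_nonneg k)
  have h3 := rs_ge (sk_nonneg k)
  have h4 : 0 < rs (sk k) := H474.rs_pos (sk_pos hk)
  unfold H474.kz
  have e1 : N - (n + 1) = N - 1 - n := by omega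
  have e2 : N - n = (N - 1 - n) + 1 := by omega
  rw [e1, e2, ← sub_div, abs_div, abs_of_pos (mul_pos (by linarith) h4 :
    0 < (1 - zz (sk k) ^ N) * rs (sk k)), div_le_iff₀ (mul_pos (by linarith) h4)]
  have e3 : zz (sk k) ^ (n + 1) + zz (sk k) ^ (N - 1 - n) -
      (zz (sk k) ^ n + zz (sk k) ^ (N - 1 - n + 1)) =
      (1 - zz (sk k)) * (zz (sk k) ^ (N - 1 - n) - zz (sk k) ^ n) := by ring
  rw [e3, abs_mul, abs_of_nonneg (by linarith : 0 ≤ 1 - zz (sk k))]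
  have h5 : |zz (sk k) ^ (N - 1 - n) - zz (sk k) ^ n| ≤
      zz (sk k) ^ n + zz (sk k) ^ (N - 1 - n) := by
    have p1 : 0 ≤ zz (sk k) ^ (N - 1 - n) := by positivity
    have p2 : 0 ≤ zz (sk k) ^ n := by positivity
    rw [abs_le]
    constructor <;> linarith
  have h6 : 1 - zz (sk k) ≤ (1 - zz (sk k) ^ N) * rs (sk k) := by
    have h7 : (1 / 2 : ℝ) * (2 * (1 - zz (sk k))) ≤ (1 - zz (sk k) ^ N) * rs (sk k) :=
      mul_le_mul (by linarith) h3 (by linarith) (by linarith)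
    linarith
  calc (1 - zz (sk k)) * |zz (sk k) ^ (N - 1 - n) - zz (sk k) ^ n|
      ≤ ((1 - zz (sk k) ^ N) * rs (sk k)) * (zz (sk k) ^ n + zz (sk k) ^ (N - 1 - n)) :=
        mul_le_mul h6 h5 (abs_nonneg _) (mul_nonneg (by linarith) h4.le)
    _ = _ := by ring

lemma kz_diff2 {k : ZMod N} {n : ℕ} (hn : n + 2 ≤ N) :
    kz N (n + 2) (sk k) + kz N n (sk k) - 2 * kz N (n + 1) (sk k) =
      sk k * kz N (n + 1) (sk k) := by
  have h2 := H474.zz_pos (sk_nonneg k)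
  have h3 := H474.zz_add_inv (sk_nonneg k)
  have hz : zz (sk k) ^ 2 + 1 = (sk k + 2) * zz (sk k) := by
    rw [← h3, add_mul, inv_mul_cancel₀ h2.ne']
    ring
  unfold H474.kz
  have e1 : N - n = (N - (n + 2)) + 2 := by omega
  have e2 : N - (n + 1) = (N - (n + 2)) + 1 := by omega
  rw [e1, e2]
  generalize (1 - zz (sk k) ^ N) * rs (sk k) = D
  generalize N - (n + 2) = r
  have e3 : zz (sk k) ^ (n + 2) + zz (sk k) ^ r + (zz (sk k) ^ n + zz (sk k) ^ (r + 2)) -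
      2 * (zz (sk k) ^ (n + 1) + zz (sk k) ^ (r + 1)) =
      sk k * (zz (sk k) ^ (n + 1) + zz (sk k) ^ (r + 1)) := by
    have a1 : zz (sk k) ^ (n + 2) + zz (sk k) ^ n = (sk k + 2) * zz (sk k) ^ (n + 1) := by
      calc zz (sk k) ^ (n + 2) + zz (sk k) ^ n = zz (sk k) ^ n * (zz (sk k) ^ 2 + 1) := by ring
        _ = _ := by rw [hz]; ring
    have a2 : zz (sk k) ^ (r + 2) + zz (sk k) ^ r = (sk k + 2) * zz (sk k) ^ (r + 1) := by
      calc zz (sk k) ^ (r + 2) + zz (sk k) ^ r = zz (sk k) ^ r * (zz (sk k) ^ 2 + 1) := by ring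
        _ = _ := by rw [hz]; ring
    linarith
  rw [mul_div_assoc', mul_div_assoc', ← e3]
  ring

lemma abs_cN_le (a : ZMod N) : |cN a| ≤ 1 :=
  abs_le.2 ⟨TM.H764.neg_one_le_cN a, TM.H764.cN_le_one a⟩

lemma cN_step (a b : ZMod N) : |cN (a + b) - cN a| ≤ √(sk b) := by
  refine Real.abs_le_sqrt ?_
  have h1 := TM.H764.cN_sq_add a
  have h2 := TM.H764.cN_sq_add b
  have h3 := TM.H764.cN_add a b
  have h4 := TM.H764.sN_add a b
  have h5 : (cN (a + b) - cN a) ^ 2 + (sN (a + b) - sN a) ^ 2 = sk b := by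
    rw [h3, h4]
    unfold sk
    have e : (cN a * cN b - sN a * sN b - cN a) ^ 2 + (sN a * cN b + cN a * sN b - sN a) ^ 2 =
      (cN a ^ 2 + sN a ^ 2) * (cN b ^ 2 + sN b ^ 2) + (cN a ^ 2 + sN a ^ 2) -
      2 * (cN a ^ 2 + sN a ^ 2) * cN b := by ring
    rw [e, h1, h2]
    ring
  nlinarith [sq_nonneg (sN (a + b) - sN a)]

/-- the two one dimensional tails -/
def tl (N p n : ℕ) : ℝ := cp p / (1 + n) ^ (p + 1) + cp p / (1 + ((N - n : ℕ) : ℝ)) ^ (p + 1)

lemma sum_abs_le (p : ℕ) {n n' : ℕ} {f : ZMod N → ℝ}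
    (hf : ∀ k : ZMod N, k ≠ 0 → |f k| ≤ √(sk k) ^ p * (zz (sk k) ^ n + zz (sk k) ^ n')) :
    |(∑ k ∈ (univ : Finset (ZMod N)).erase 0, f k) / N| ≤
      cp p / (1 + n) ^ (p + 1) + cp p / (1 + (n' : ℝ)) ^ (p + 1) := by
  have hN : (0 : ℝ) < N := Nat.cast_pos.2 (NeZero.pos N)
  rw [abs_div, abs_of_pos hN]
  calc |∑ k ∈ (univ : Finset (ZMod N)).erase 0, f k| / N
      ≤ (∑ k ∈ (univ : Finset (ZMod N)).erase 0,
          (√(sk k) ^ p * zz (sk k) ^ n + √(sk k) ^ p * zz (sk k) ^ n')) / N := by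
        refine div_le_div_of_nonneg_right ?_ hN.le
        refine (Finset.abs_sum_le_sum_abs _ _).trans (Finset.sum_le_sum fun k hk => ?_)
        refine (hf k (Finset.mem_erase.1 hk).1).trans (le_of_eq ?_)
        ring
    _ = (∑ k ∈ (univ : Finset (ZMod N)).erase 0, √(sk k) ^ p * zz (sk k) ^ n) / N +
        (∑ k ∈ (univ : Finset (ZMod N)).erase 0, √(sk k) ^ p * zz (sk k) ^ n') / N := by
        rw [Finset.sum_add_distrib, add_div]
    _ ≤ _ := add_le_add (sum_pow_le p n) (sum_pow_le p n')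

/-! ### in terms of `|x₂|` -/

lemma val_ge (a : ZMod N) : a.valMinAbs.natAbs ≤ a.val := by
  have h := ZMod.valMinAbs_natAbs_eq_min a
  rw [h]
  exact min_le_left _ _

lemma sub_val_ge (a : ZMod N) : a.valMinAbs.natAbs ≤ N - a.val := by
  have h := ZMod.valMinAbs_natAbs_eq_min a
  rw [h]
  exact min_le_right _ _

lemma half_ge (a : ZMod N) : 2 * a.valMinAbs.natAbs ≤ N := by
  have h := ZMod.natAbs_valMinAbs_le a
  omega

/-- tails in terms of `r = |a|` -/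
lemma tail_le (p : ℕ) (a : ZMod N) :
    cp p / (1 + (a.val : ℝ)) ^ (p + 1) + cp p / (1 + ((N - 1 - a.val : ℕ) : ℝ)) ^ (p + 1) ≤
      (1 + 2 ^ (p + 1)) * cp p / (1 + (a.valMinAbs.natAbs : ℝ)) ^ (p + 1) := by
  have hc := cp_pos p
  set r := a.valMinAbs.natAbs with hr
  have h1 : (r : ℝ) ≤ a.val := by exact_mod_cast val_ge a
  have hlt : a.val < N := ZMod.val_lt a
  have h2 : (1 : ℝ) + r ≤ 2 * (1 + ((N - 1 - a.val : ℕ) : ℝ)) := by
    have h3 := sub_val_ge a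
    have h4 : 1 + r ≤ 2 * (1 + (N - 1 - a.val)) := by omega
    exact_mod_cast h4
  have h3 : cp p / (1 + (a.val : ℝ)) ^ (p + 1) ≤ cp p / (1 + (r : ℝ)) ^ (p + 1) := by
    refine div_le_div_of_nonneg_left hc.le (by positivity) ?_
    exact pow_le_pow_left₀ (by positivity) (by linarith) _
  have h4 : cp p / (1 + ((N - 1 - a.val : ℕ) : ℝ)) ^ (p + 1) ≤
      2 ^ (p + 1) * cp p / (1 + (r : ℝ)) ^ (p + 1) := by
    rw [div_le_div_iff₀ (by positivity) (by positivity)]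
    have h5 := pow_le_pow_left₀ (by positivity) h2 (p + 1)
    rw [mul_pow] at h5
    calc cp p * (1 + (r : ℝ)) ^ (p + 1) ≤
        cp p * (2 ^ (p + 1) * (1 + ((N - 1 - a.val : ℕ) : ℝ)) ^ (p + 1)) :=
          mul_le_mul_of_nonneg_left h5 hc.le
      _ = _ := by ring
  calc _ ≤ cp p / (1 + (r : ℝ)) ^ (p + 1) + 2 ^ (p + 1) * cp p / (1 + (r : ℝ)) ^ (p + 1) :=
        add_le_add h3 h4
    _ = _ := by ring

lemma tail_le' (p : ℕ) (a : ZMod N) :
    cp p / (1 + (a.val : ℝ)) ^ (p + 1) + cp p / (1 + ((N - a.val : ℕ) : ℝ)) ^ (p + 1) ≤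
      2 * cp p / (1 + (a.valMinAbs.natAbs : ℝ)) ^ (p + 1) := by
  have hc := cp_pos p
  set r := a.valMinAbs.natAbs with hr
  have h1 : (r : ℝ) ≤ a.val := by exact_mod_cast val_ge a
  have h2 : (r : ℝ) ≤ ((N - a.val : ℕ) : ℝ) := by exact_mod_cast sub_val_ge a
  have h3 : cp p / (1 + (a.val : ℝ)) ^ (p + 1) ≤ cp p / (1 + (r : ℝ)) ^ (p + 1) := by
    refine div_le_div_of_nonneg_left hc.le (by positivity) ?_
    exact pow_le_pow_left₀ (by positivity) (by linarith) _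
  have h4 : cp p / (1 + ((N - a.val : ℕ) : ℝ)) ^ (p + 1) ≤ cp p / (1 + (r : ℝ)) ^ (p + 1) := by
    refine div_le_div_of_nonneg_left hc.le (by positivity) ?_
    exact pow_le_pow_left₀ (by positivity) (by linarith) _
  calc _ ≤ cp p / (1 + (r : ℝ)) ^ (p + 1) + cp p / (1 + (r : ℝ)) ^ (p + 1) := add_le_add h3 h4
    _ = _ := by ring

lemma inv_N_le (p : ℕ) (a : ZMod N) :
    1 / (N : ℝ) ^ p ≤ 2 ^ p / (1 + (a.valMinAbs.natAbs : ℝ)) ^ p := by
  have hN : (0 : ℝ) < N := Nat.cast_pos.2 (NeZero.pos N)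
  have h1 := half_ge a
  have h2 : (1 : ℝ) + a.valMinAbs.natAbs ≤ 2 * N := by
    have hN1 : 1 ≤ N := NeZero.pos N
    have : 1 + a.valMinAbs.natAbs ≤ 2 * N := by omega
    exact_mod_cast this
  rw [div_le_div_iff₀ (by positivity) (by positivity), one_mul, ← mul_pow]
  exact pow_le_pow_left₀ (by positivity) h2 p

lemma eq_val (x : V N) : x = (x.1, ((x.2.val : ℕ) : ZMod N)) := by
  ext
  · rfl
  · simp

lemma add_e2 (x : V N) : x + (0, 1) = (x.1, ((x.2.val + 1 : ℕ) : ZMod N)) := by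
  ext
  · simp
  · simp

/-- first difference in direction 2, decay in `x₂` -/
lemma d2_le (x : V N) : |G0 (x + (0, 1)) - G0 x| ≤
    (3 * cp 0 + 1) / (1 + (x.2.valMinAbs.natAbs : ℝ)) := by
  have hN : (0 : ℝ) < N := Nat.cast_pos.2 (NeZero.pos N)
  have hlt : x.2.val < N := ZMod.val_lt x.2
  have e1 : G0 (x + (0, 1)) = An x.1 (x.2.val + 1) + qn N (x.2.val + 1) / (N : ℝ) ^ 2 := by
    rw [add_e2]
    exact G0_eq _ (by omega)
  have e2 : G0 x = An x.1 x.2.val + qn N x.2.val / (N : ℝ) ^ 2 := by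
    conv_lhs => rw [eq_val x]
    exact G0_eq _ hlt.le
  have e3 : G0 (x + (0, 1)) - G0 x =
      (∑ k ∈ (univ : Finset (ZMod N)).erase 0,
        cN (k * x.1) * (kz N (x.2.val + 1) (sk k) - kz N x.2.val (sk k))) / N +
      (qn N (x.2.val + 1) - qn N x.2.val) / (N : ℝ) ^ 2 := by
    rw [e1, e2]
    unfold An
    simp_rw [mul_sub]
    rw [Finset.sum_sub_distrib]
    ring
  rw [e3]
  refine (abs_add_le _ _).trans ?_
  have h1 : |(∑ k ∈ (univ : Finset (ZMod N)).erase 0,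
      cN (k * x.1) * (kz N (x.2.val + 1) (sk k) - kz N x.2.val (sk k))) / N| ≤
      3 * cp 0 / (1 + (x.2.valMinAbs.natAbs : ℝ)) := by
    have h2 := sum_abs_le (N := N) 0 (n := x.2.val) (n' := N - 1 - x.2.val)
      (f := fun k => cN (k * x.1) * (kz N (x.2.val + 1) (sk k) - kz N x.2.val (sk k)))
      (fun k hk => by
        rw [pow_zero, one_mul, abs_mul]
        calc |cN (k * x.1)| * |kz N (x.2.val + 1) (sk k) - kz N x.2.val (sk k)|
            ≤ 1 * (zz (sk k) ^ x.2.val + zz (sk k) ^ (N - 1 - x.2.val)) :=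
              mul_le_mul (abs_cN_le _) (kz_diff hk (by omega)) (abs_nonneg _) zero_le_one
          _ = _ := one_mul _)
    refine h2.trans ((tail_le 0 x.2).trans (le_of_eq ?_))
    norm_num
  have h2 : |(qn N (x.2.val + 1) - qn N x.2.val) / (N : ℝ) ^ 2| ≤
      1 / (1 + (x.2.valMinAbs.natAbs : ℝ)) := by
    rw [abs_div, abs_of_pos (by positivity : (0 : ℝ) < (N : ℝ) ^ 2)]
    have h3 := abs_qn_diff (N := N) x.2.val (by omega)
    have h4 := inv_N_le (N := N) 1 x.2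
    rw [pow_one, pow_one, pow_one] at h4
    calc |qn N (x.2.val + 1) - qn N x.2.val| / (N : ℝ) ^ 2 ≤ (N / 2) / (N : ℝ) ^ 2 :=
          div_le_div_of_nonneg_right h3 (by positivity)
      _ = (1 / N) / 2 := by field_simp
      _ ≤ (2 / (1 + (x.2.valMinAbs.natAbs : ℝ))) / 2 := by
          refine div_le_div_of_nonneg_right h4 (by norm_num)
      _ = _ := by ring
  calc _ ≤ 3 * cp 0 / (1 + (x.2.valMinAbs.natAbs : ℝ)) +
        1 / (1 + (x.2.valMinAbs.natAbs : ℝ)) := add_le_add h1 h2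
    _ = _ := by ring

/-- first difference in direction 1, decay in `x₂` -/
lemma d1_le (x : V N) : |G0 (x + (1, 0)) - G0 x| ≤
    2 * cp 0 / (1 + (x.2.valMinAbs.natAbs : ℝ)) := by
  have hlt : x.2.val < N := ZMod.val_lt x.2
  have e1 : G0 (x + (1, 0)) = An (x.1 + 1) x.2.val + qn N x.2.val / (N : ℝ) ^ 2 := by
    have h : x + (1, 0) = (x.1 + 1, ((x.2.val : ℕ) : ZMod N)) := by
      ext
      · simp
      · simp
    rw [h]
    exact G0_eq _ hlt.le
  have e2 : G0 x = An x.1 x.2.val + qn N x.2.val / (N : ℝ) ^ 2 := by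
    conv_lhs => rw [eq_val x]
    exact G0_eq _ hlt.le
  have e3 : G0 (x + (1, 0)) - G0 x =
      (∑ k ∈ (univ : Finset (ZMod N)).erase 0,
        (cN (k * x.1 + k) - cN (k * x.1)) * kz N x.2.val (sk k)) / N := by
    rw [e1, e2]
    unfold An
    simp_rw [sub_mul, mul_add, mul_one]
    rw [Finset.sum_sub_distrib]
    ring
  rw [e3]
  have h2 := sum_abs_le (N := N) 0 (n := x.2.val) (n' := N - x.2.val)
    (f := fun k => (cN (k * x.1 + k) - cN (k * x.1)) * kz N x.2.val (sk k))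
    (fun k hk => by
      rw [pow_zero, one_mul, abs_mul, abs_of_nonneg (kz_nonneg hk _)]
      exact (mul_le_mul_of_nonneg_right (cN_step _ _) (kz_nonneg hk _)).trans (kz_le hk _))
  refine h2.trans ((tail_le' 0 x.2).trans (le_of_eq ?_))
  norm_num

end

end Vale.Agent.P159.H817
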