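import Vale.Agent.P159.H817.Ang3

/-!
P159 / module ANG (helper817), part 4: differences of `G0` of order 1, 2, 3:
`|D_w G0 (x)| ≤ C / (1 + |x|) ^ |w|`, uniformly in the torus.
-/

set_option linter.unusedSectionVars false

namespace Vale.Agent.P159.H817

open Finset
open Vale.Agent.P159.TM.H764 (cN sN dt EE ch)
open Vale.Agent.P159.TM.Spec (V)
open Vale.Agent.P159.H474 (zz rs kz)

noncomputable section

variable {N : ℕ} [NeZero N]

/-- difference operator -/
def D (e : V N) (f : V N → ℝ) (x : V N) : ℝ := f (x + e) - f x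

/-- unit vectors -/
def e1 : V N := (1, 0)
def e2 : V N := (0, 1)

lemma D_comm (e e' : V N) (f : V N → ℝ) : D e (D e' f) = D e' (D e f) := by
  funext x
  unfold D
  rw [add_right_comm x e e']
  ring

lemma D_add (e : V N) (f g : V N → ℝ) : D e (fun x => f x + g x) = fun x => D e f x + D e g x := by
  funext x
  unfold D
  ring

lemma D_sub (e : V N) (f g : V N → ℝ) : D e (fun x => f x - g x) = fun x => D e f x - D e g x := by
  funext x
  unfold D
  ring

lemma D_const (e : V N) (c : ℝ) : D e (fun _ => c) = fun _ => 0 := by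
  funext x
  unfold D
  ring

lemma D_shift (e a : V N) (f : V N → ℝ) : D e (fun x => f (x + a)) = fun x => D e f (x + a) := by
  funext x
  unfold D
  rw [add_right_comm]

lemma D_negdir (e : V N) (f : V N → ℝ) (x : V N) : D (-e) f x = -D e f (x - e) := by
  unfold D
  rw [sub_add_cancel, ← sub_eq_add_neg]
  ring

/-! ### differences in direction 1 through the characters -/

/-- `D₁ ^ j` of `cos (k m)` -/
def Fk (j : ℕ) (k m : ZMod N) : ℝ := (ch (k * m) * (ch k - 1) ^ j).re

lemma Fk_zero (k m : ZMod N) : Fk 0 k m = cN (k * m) := by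
  unfold Fk
  rw [pow_zero, mul_one, TM.H764.ch_re]

lemma Fk_succ (j : ℕ) (k m : ZMod N) : Fk (j + 1) k m = Fk j k (m + 1) - Fk j k m := by
  unfold Fk
  rw [← Complex.sub_re]
  congr 1
  rw [mul_add, mul_one, TM.H764.ch_add]
  ring

lemma abs_ch (a : ZMod N) : ‖(ch a : ℂ)‖ = 1 := by
  unfold TM.H764.ch
  exact AddChar.norm_apply _ _

lemma norm_ch_sub (k : ZMod N) : ‖(ch k : ℂ) - 1‖ = √(sk k) := by
  have h1 : ‖(ch k : ℂ) - 1‖ ^ 2 = sk k := by
    rw [← Complex.normSq_eq_norm_sq, Complex.normSq_sub]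
    have h2 : Complex.normSq (ch k) = 1 := by
      rw [Complex.normSq_eq_norm_sq, abs_ch, one_pow]
    rw [h2, map_one, map_one, mul_one, TM.H764.ch_re]
    unfold sk
    ring
  rw [← h1, Real.sqrt_sq (norm_nonneg _)]

lemma abs_Fk (j : ℕ) (k m : ZMod N) : |Fk j k m| ≤ √(sk k) ^ j := by
  unfold Fk
  refine (Complex.abs_re_le_norm _).trans ?_
  rw [norm_mul, norm_pow, abs_ch, one_mul, norm_ch_sub]

/-- the kernel sums -/
def SF (j : ℕ) (x : V N) : ℝ :=
  (∑ k ∈ (univ : Finset (ZMod N)).erase 0, Fk j k x.1 * kz N x.2.val (sk k)) / N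

lemma D_SF (j : ℕ) : D e1 (SF (N := N) j) = SF (j + 1) := by
  funext x
  unfold D SF e1
  rw [← sub_div, ← Finset.sum_sub_distrib]
  congr 1
  refine Finset.sum_congr rfl fun k _ => ?_
  rw [Fk_succ]
  simp only [Prod.fst_add, Prod.snd_add, add_zero]
  ring

lemma G0_split (x : V N) : G0 x = SF 0 x + qn N x.2.val / (N : ℝ) ^ 2 := by
  conv_lhs => rw [eq_val x]
  rw [G0_eq _ (ZMod.val_lt x.2).le]
  unfold An SF
  simp_rw [Fk_zero]

lemma D1_G0 : D e1 (G0 (N := N)) = SF 1 := by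
  rw [← D_SF]
  funext x
  unfold D
  rw [G0_split, G0_split x]
  have h : (x + e1).2 = x.2 := by unfold e1; simp
  rw [h]
  ring

lemma abs_SF_le (j : ℕ) (x : V N) :
    |SF (j + 1) x| ≤ 2 * cp j / (1 + (x.2.valMinAbs.natAbs : ℝ)) ^ (j + 1) := by
  unfold SF
  have h2 := sum_abs_le (N := N) j (n := x.2.val) (n' := N - x.2.val)
    (f := fun k => Fk (j + 1) k x.1 * kz N x.2.val (sk k))
    (fun k hk => by
      rw [abs_mul, abs_of_nonneg (kz_nonneg hk _)]
      calc |Fk (j + 1) k x.1| * kz N x.2.val (sk k)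
          ≤ √(sk k) ^ (j + 1) * kz N x.2.val (sk k) :=
            mul_le_mul_of_nonneg_right (abs_Fk _ _ _) (kz_nonneg hk _)
        _ = √(sk k) ^ j * (√(sk k) * kz N x.2.val (sk k)) := by ring
        _ ≤ _ := mul_le_mul_of_nonneg_left (kz_le hk _) (by positivity))
  exact h2.trans (tail_le' j x.2)

lemma abs_D2SF_le (j : ℕ) (x : V N) :
    |D e2 (SF j) x| ≤
      (1 + 2 ^ (j + 1)) * cp j / (1 + (x.2.valMinAbs.natAbs : ℝ)) ^ (j + 1) := by
  have hlt : x.2.val < N := ZMod.val_lt x.2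
  have e0 : D e2 (SF j) x = (∑ k ∈ (univ : Finset (ZMod N)).erase 0,
      Fk j k x.1 * (kz N (x.2.val + 1) (sk k) - kz N x.2.val (sk k))) / N := by
    have h1 : SF j (x + e2) = (∑ k ∈ (univ : Finset (ZMod N)).erase 0,
        Fk j k x.1 * kz N (x.2.val + 1) (sk k)) / N := by
      unfold SF e2
      congr 1
      refine Finset.sum_congr rfl fun k hk => ?_
      simp only [Prod.fst_add, Prod.snd_add, add_zero]
      by_cases hw : x.2.val + 1 < N
      · have h2 : x.2 + 1 = ((x.2.val + 1 : ℕ) : ZMod N) := by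
          push_cast
          rw [ZMod.natCast_zmod_val]
        rw [h2, ZMod.val_natCast_of_lt hw]
      · have hw' : x.2.val + 1 = N := by omega
        have h2 : x.2 + 1 = 0 := by
          have h3 : ((x.2.val + 1 : ℕ) : ZMod N) = 0 := by rw [hw']; simp
          push_cast at h3
          rwa [ZMod.natCast_zmod_val] at h3
        rw [h2, ZMod.val_zero, hw']
        congr 1
        unfold H474.kz
        rw [Nat.sub_zero, Nat.sub_self, add_comm]
    unfold D
    rw [h1]
    unfold SF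
    rw [← sub_div, ← Finset.sum_sub_distrib]
    congr 1
    refine Finset.sum_congr rfl fun k _ => ?_
    ring
  rw [e0]
  have h2 := sum_abs_le (N := N) j (n := x.2.val) (n' := N - 1 - x.2.val)
    (f := fun k => Fk j k x.1 * (kz N (x.2.val + 1) (sk k) - kz N x.2.val (sk k)))
    (fun k hk => by
      rw [abs_mul]
      exact mul_le_mul (abs_Fk _ _ _) (kz_diff hk (by omega)) (abs_nonneg _) (by positivity))
  exact h2.trans (tail_le j x.2)

/-! ### the size -/

lemma natAbs_step (a : ZMod N) : a.valMinAbs.natAbs ≤ (a + 1).valMinAbs.natAbs + 1 ∧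
    (a + 1).valMinAbs.natAbs ≤ a.valMinAbs.natAbs + 1 := by
  have h1 : ((1 : ZMod N)).valMinAbs.natAbs ≤ 1 := by
    have h := ZMod.natAbs_valMinAbs_neg (1 : ZMod N)
    rcases Nat.lt_or_ge 1 N with hN | hN
    · rw [ZMod.valMinAbs_natAbs_eq_min]
      have : Fact (1 < N) := ⟨hN⟩
      rw [ZMod.val_one]
      exact min_le_left _ _
    · have hN1 : N = 1 := le_antisymm hN (NeZero.pos N)
      subst hN1
      rw [show (1 : ZMod 1) = 0 from Subsingleton.elim _ _]
      simp
  have h2 : ((-1 : ZMod N)).valMinAbs.natAbs ≤ 1 := by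
    rw [ZMod.natAbs_valMinAbs_neg]; exact h1
  constructor
  · have h3 := ZMod.natAbs_valMinAbs_add_le (a + 1) (-1)
    rw [add_neg_cancel_right] at h3
    refine h3.trans ((Int.natAbs_add_le _ _).trans ?_)
    omega
  · have h3 := ZMod.natAbs_valMinAbs_add_le a 1
    refine h3.trans ((Int.natAbs_add_le _ _).trans ?_)
    omega

lemma sz_e1 (x : V N) : sz x ≤ sz (x + e1) + 1 ∧ sz (x + e1) ≤ sz x + 1 := by
  have h := natAbs_step x.1
  unfold sz e1
  simp only [Prod.fst_add, Prod.snd_add, add_zero]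
  omega

lemma sz_e2 (x : V N) : sz x ≤ sz (x + e2) + 1 ∧ sz (x + e2) ≤ sz x + 1 := by
  have h := natAbs_step x.2
  unfold sz e2
  simp only [Prod.fst_add, Prod.snd_add, add_zero]
  omega

/-- swap -/
def sw (f : V N → ℝ) (x : V N) : ℝ := f (x.2, x.1)

lemma sw_G0 : sw (G0 (N := N)) = G0 := by
  funext x
  exact G0_swap x

lemma D1_sw (f : V N → ℝ) : D e1 (sw f) = sw (D e2 f) := by
  funext x
  unfold D sw e1 e2
  simp

lemma D2_sw (f : V N → ℝ) : D e2 (sw f) = sw (D e1 f) := by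
  funext x
  unfold D sw e1 e2
  simp

/-- bounded by `C / (1 + |x₂|) ^ p` -/
def Bd (C : ℝ) (p : ℕ) (f : V N → ℝ) : Prop :=
  ∀ x, |f x| ≤ C / (1 + (x.2.valMinAbs.natAbs : ℝ)) ^ p

/-- bounded by `C / (1 + |x|) ^ p` -/
def BD (C : ℝ) (p : ℕ) (f : V N → ℝ) : Prop := ∀ x, |f x| ≤ C / (1 + (sz x : ℝ)) ^ p

lemma BD_of {C : ℝ} {p : ℕ} {f : V N → ℝ} (h1 : Bd C p f) (h2 : Bd C p (sw f)) : BD C p f := by
  intro x
  unfold sz
  rcases le_total x.1.valMinAbs.natAbs x.2.valMinAbs.natAbs with h | h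
  · rw [max_eq_right h]
    exact h1 x
  · rw [max_eq_left h]
    exact h2 (x.2, x.1)

lemma Bd.mono {C C' : ℝ} {p : ℕ} {f : V N → ℝ} (h : Bd C p f) (hC : C ≤ C') : Bd C' p f :=
  fun x => (h x).trans (div_le_div_of_nonneg_right hC (by positivity))

lemma Bd.neg {C : ℝ} {p : ℕ} {f : V N → ℝ} (h : Bd C p f) : Bd C p (fun x => -f x) :=
  fun x => by rw [abs_neg]; exact h x

lemma Bd.add {C C' : ℝ} {p : ℕ} {f g : V N → ℝ} (h : Bd C p f) (h' : Bd C' p g) :
    Bd (C + C') p (fun x => f x + g x) := fun x => by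
  rw [add_div]
  exact (abs_add_le _ _).trans (add_le_add (h x) (h' x))

lemma Bd.sub {C C' : ℝ} {p : ℕ} {f g : V N → ℝ} (h : Bd C p f) (h' : Bd C' p g) :
    Bd (C + C') p (fun x => f x - g x) := fun x => by
  rw [add_div]
  exact (abs_sub _ _).trans (add_le_add (h x) (h' x))

/-- shift by a vector whose second coordinate has size at most `1` -/
lemma Bd.shift {C : ℝ} (hC : 0 ≤ C) {p : ℕ} {f : V N → ℝ} (h : Bd C p f) {a : V N}
    (ha : ∀ x : V N, x.2.valMinAbs.natAbs ≤ (x + a).2.valMinAbs.natAbs + 1) :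
    Bd (2 ^ p * C) p (fun x => f (x + a)) := fun x => by
  refine (h (x + a)).trans ?_
  have h1 : (1 : ℝ) + x.2.valMinAbs.natAbs ≤ 2 * (1 + (x + a).2.valMinAbs.natAbs) := by
    have h2 := ha x
    have : 1 + x.2.valMinAbs.natAbs ≤ 2 * (1 + (x + a).2.valMinAbs.natAbs) := by omega
    exact_mod_cast this
  rw [div_le_div_iff₀ (by positivity) (by positivity)]
  have h3 := pow_le_pow_left₀ (by positivity) h1 p
  rw [mul_pow] at h3
  calc C * (1 + (x.2.valMinAbs.natAbs : ℝ)) ^ p ≤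
      C * (2 ^ p * (1 + ((x + a).2.valMinAbs.natAbs : ℝ)) ^ p) := mul_le_mul_of_nonneg_left h3 hC
    _ = _ := by ring

/-! ### the Laplace equation gives the differences in direction 2 -/

/-- unit mass at `0` -/
def dl (x : V N) : ℝ := if x = 0 then 1 else 0

lemma abs_dl (x : V N) : |dl x| ≤ 1 := by
  unfold dl
  split_ifs <;> norm_num

/-- `D₂ D₂ G0 (x) = N⁻² - δ (x + e2) - D₁ D₁ G0 (x + e2 - e1)` -/
lemma D22 (x : V N) : D e2 (D e2 (G0 (N := N))) x =
    1 / (N : ℝ) ^ 2 - dl (x + e2) - SF 2 (x + (e2 - e1)) := by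
  have h := lap_G0 (x + e2)
  have h1 : D e1 (D e1 (G0 (N := N))) (x + (e2 - e1)) = SF 2 (x + (e2 - e1)) := by
    rw [D1_G0, D_SF]
  rw [← h1]
  have h2 : D e1 (D e1 (G0 (N := N))) (x + (e2 - e1)) =
      G0 (x + e2 + (1, 0)) + G0 (x + e2 - (1, 0)) - 2 * G0 (x + e2) := by
    have a1 : x + (e2 - e1) + e1 + e1 = x + e2 + (1, 0) := by
      have : (e1 : V N) = (1, 0) := rfl
      rw [this]; abel
    have a2 : x + (e2 - e1) + e1 = x + e2 := by abel
    have a3 : x + (e2 - e1) = x + e2 - (1, 0) := by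
      have : (e1 : V N) = (1, 0) := rfl
      rw [this]; abel
    unfold D
    rw [a1, a2, a3]
    ring
  have h3 : D e2 (D e2 (G0 (N := N))) x =
      G0 (x + e2 + (0, 1)) + G0 (x + e2 - (0, 1)) - 2 * G0 (x + e2) := by
    have a1 : x + e2 + e2 = x + e2 + (0, 1) := rfl
    have a2 : x + e2 - (0, 1) = x := by
      have : (e2 : V N) = (0, 1) := rfl
      rw [this]; abel
    unfold D
    rw [a1, a2]
    ring
  rw [h2, h3]
  unfold dl
  linarith

lemma Bd_dl (p : ℕ) (a : V N) (ha : ∀ x : V N, x + a = 0 → x.2.valMinAbs.natAbs ≤ 1) :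
    Bd (2 ^ p) p (fun x => dl (x + a)) := by
  intro x
  dsimp only
  unfold dl
  split_ifs with h
  · rw [abs_one, le_div_iff₀ (by positivity), one_mul]
    have h1 := ha x h
    have h2 : (1 : ℝ) + x.2.valMinAbs.natAbs ≤ 2 := by
      have : (x.2.valMinAbs.natAbs : ℝ) ≤ 1 := by exact_mod_cast h1
      linarith
    exact pow_le_pow_left₀ (by positivity) h2 p
  · rw [abs_zero]; positivity

lemma Bd_D2dl (p : ℕ) : Bd (2 * 3 ^ p) p (D e2 (fun x : V N => dl (x + e2))) := by
  intro x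
  have hs2 : ∀ a : ZMod N, a = 0 → a.valMinAbs.natAbs ≤ 0 := by
    intro a ha; rw [ha]; simp
  by_cases h : x.2.valMinAbs.natAbs ≤ 2
  · have h1 : |D e2 (fun x : V N => dl (x + e2)) x| ≤ 2 := by
      unfold D
      have p1 := abs_dl (x + e2 + e2)
      have p2 := abs_dl (x + e2)
      refine (abs_sub _ _).trans ?_
      linarith
    refine h1.trans ?_
    rw [le_div_iff₀ (by positivity)]
    have h2 : (1 : ℝ) + x.2.valMinAbs.natAbs ≤ 3 := by
      have : (x.2.valMinAbs.natAbs : ℝ) ≤ 2 := by exact_mod_cast h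
      linarith
    exact mul_le_mul_of_nonneg_left (pow_le_pow_left₀ (by positivity) h2 p) (by norm_num)
  · have h3 := natAbs_step x.2
    have h4 := natAbs_step (x.2 + 1)
    have z1 : dl (x + e2) = 0 := by
      unfold dl
      rw [if_neg]
      intro hx
      have h5 : x.2 + 1 = 0 := by
        have := congrArg Prod.snd hx
        simpa [e2] using this
      have h6 := hs2 _ h5
      omega
    have z2 : dl (x + e2 + e2) = 0 := by
      unfold dl
      rw [if_neg]
      intro hx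
      have h5 : x.2 + 1 + 1 = 0 := by
        have := congrArg Prod.snd hx
        simpa [e2] using this
      have h6 := hs2 _ h5
      omega
    unfold D
    dsimp only
    rw [z1, z2, sub_zero, abs_zero]
    positivity

lemma Bd_D1dl (p : ℕ) : Bd (2 * 2 ^ p) p (D e1 (fun x : V N => dl (x + e2))) := by
  intro x
  have hs2 : ∀ a : ZMod N, a = 0 → a.valMinAbs.natAbs ≤ 0 := by
    intro a ha; rw [ha]; simp
  by_cases h : x.2.valMinAbs.natAbs ≤ 1
  · have h1 : |D e1 (fun x : V N => dl (x + e2)) x| ≤ 2 := by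
      unfold D
      have p1 := abs_dl (x + e1 + e2)
      have p2 := abs_dl (x + e2)
      refine (abs_sub _ _).trans ?_
      linarith
    refine h1.trans ?_
    rw [le_div_iff₀ (by positivity)]
    have h2 : (1 : ℝ) + x.2.valMinAbs.natAbs ≤ 2 := by
      have : (x.2.valMinAbs.natAbs : ℝ) ≤ 1 := by exact_mod_cast h
      linarith
    exact mul_le_mul_of_nonneg_left (pow_le_pow_left₀ (by positivity) h2 p) (by norm_num)
  · have h3 := natAbs_step x.2
    have z : ∀ y : V N, y.2 = x.2 → dl (y + e2) = 0 := by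
      intro y hy
      unfold dl
      rw [if_neg]
      intro hx
      have h5 : y.2 + 1 = 0 := by
        have := congrArg Prod.snd hx
        simpa [e2] using this
      rw [hy] at h5
      have h6 := hs2 _ h5
      omega
    unfold D
    dsimp only
    rw [z x rfl, z (x + e1) (by simp [e1]), sub_zero, abs_zero]
    positivity

lemma Bd_invN (p : ℕ) : Bd (2 ^ p) p (fun _ : V N => 1 / (N : ℝ) ^ p) := by
  intro x
  rw [abs_of_nonneg (by positivity)]
  exact inv_N_le p x.2

lemma step_e2 (x : V N) : x.2.valMinAbs.natAbs ≤ (x + (e2 - e1)).2.valMinAbs.natAbs + 1 := by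
  have h := natAbs_step x.2
  have e : (x + (e2 - e1)).2 = x.2 + 1 := by simp [e1, e2]
  rw [e]
  exact h.1

/-! ### words of length 1, 2, 3 -/

/-- one constant -/
def CG : ℝ := 200 * (cp 0 + cp 1 + cp 2 + 1)

lemma CG_pos : 0 < CG := by
  have h0 := cp_pos 0
  have h1 := cp_pos 1
  have h2 := cp_pos 2
  unfold CG
  positivity

lemma w1 : Bd CG 1 (D e1 (G0 (N := N))) := by
  rw [D1_G0]
  intro x
  refine (abs_SF_le 0 x).trans (div_le_div_of_nonneg_right ?_ (by positivity))
  have h0 := cp_pos 0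
  have h1 := cp_pos 1
  have h2 := cp_pos 2
  unfold CG
  linarith

lemma w2 : Bd CG 1 (D e2 (G0 (N := N))) := by
  intro x
  have h := d2_le x
  rw [pow_one]
  refine h.trans (div_le_div_of_nonneg_right ?_ (by positivity))
  have h0 := cp_pos 0
  have h1 := cp_pos 1
  have h2 := cp_pos 2
  unfold CG
  linarith

lemma w11 : Bd CG 2 (D e1 (D e1 (G0 (N := N)))) := by
  rw [D1_G0, D_SF]
  intro x
  refine (abs_SF_le 1 x).trans (div_le_div_of_nonneg_right ?_ (by positivity))
  have h0 := cp_pos 0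
  have h1 := cp_pos 1
  have h2 := cp_pos 2
  unfold CG
  linarith

lemma w12 : Bd CG 2 (D e1 (D e2 (G0 (N := N)))) := by
  rw [D_comm, D1_G0]
  intro x
  refine (abs_D2SF_le 1 x).trans (div_le_div_of_nonneg_right ?_ (by positivity))
  have h0 := cp_pos 0
  have h1 := cp_pos 1
  have h2 := cp_pos 2
  unfold CG
  norm_num
  linarith

lemma SF_Bd (j : ℕ) : Bd (2 * cp j) (j + 1) (SF (N := N) (j + 1)) := abs_SF_le j

lemma w22 : Bd CG 2 (D e2 (D e2 (G0 (N := N)))) := by
  have h0 := cp_pos 0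
  have h1 := cp_pos 1
  have h2 := cp_pos 2
  have a1 : Bd (2 ^ 2) 2 (fun x : V N => dl (x + e2)) := Bd_dl 2 e2 (fun x hx => by
    have h5 : x.2 + 1 = 0 := by
      have := congrArg Prod.snd hx
      simpa [e2] using this
    have h3 := natAbs_step x.2
    rw [h5] at h3
    simpa using h3.1)
  have a2 := (SF_Bd (N := N) 1).shift (by positivity) (a := e2 - e1) step_e2
  have a3 := ((Bd_invN (N := N) 2).sub a1).sub a2
  intro x
  rw [D22]
  refine (a3 x).trans (div_le_div_of_nonneg_right ?_ (by positivity))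
  unfold CG
  norm_num
  linarith

lemma D22_fun : D e2 (D e2 (G0 (N := N))) =
    fun x => 1 / (N : ℝ) ^ 2 - dl (x + e2) - SF 2 (x + (e2 - e1)) := funext D22

lemma w111 : Bd CG 3 (D e1 (D e1 (D e1 (G0 (N := N))))) := by
  rw [D1_G0, D_SF, D_SF]
  intro x
  refine (abs_SF_le 2 x).trans (div_le_div_of_nonneg_right ?_ (by positivity))
  have h0 := cp_pos 0
  have h1 := cp_pos 1
  have h2 := cp_pos 2
  unfold CG
  linarith

lemma w112 : Bd CG 3 (D e1 (D e1 (D e2 (G0 (N := N))))) := by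
  rw [D_comm e1 e2, D_comm e1 e2, D1_G0, D_SF]
  intro x
  refine (abs_D2SF_le 2 x).trans (div_le_div_of_nonneg_right ?_ (by positivity))
  have h0 := cp_pos 0
  have h1 := cp_pos 1
  have h2 := cp_pos 2
  unfold CG
  norm_num
  linarith

lemma w122 : Bd CG 3 (D e1 (D e2 (D e2 (G0 (N := N))))) := by
  have h0 := cp_pos 0
  have h1 := cp_pos 1
  have h2 := cp_pos 2
  rw [D22_fun, D_sub, D_sub, D_const]
  have a1 := Bd_D1dl (N := N) 3
  have a2 := (SF_Bd (N := N) 2).shift (by positivity) (a := e2 - e1) step_e2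
  have a3 : D e1 (fun x : V N => SF 2 (x + (e2 - e1))) = fun x => SF 3 (x + (e2 - e1)) := by
    rw [D_shift, D_SF]
  rw [a3]
  intro x
  have a4 := (a1.neg.sub a2) x
  simp only [zero_sub] at a4 ⊢
  refine a4.trans (div_le_div_of_nonneg_right ?_ (by positivity))
  unfold CG
  norm_num
  linarith

lemma w222 : Bd CG 3 (D e2 (D e2 (D e2 (G0 (N := N))))) := by
  have h0 := cp_pos 0
  have h1 := cp_pos 1
  have h2 := cp_pos 2
  rw [D22_fun, D_sub, D_sub, D_const]
  have a1 := Bd_D2dl (N := N) 3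
  have a2' : Bd ((1 + 2 ^ 3) * cp 2) 3 (D e2 (SF (N := N) 2)) := abs_D2SF_le 2
  have a2 := a2'.shift (by positivity) (a := e2 - e1) step_e2
  have a3 : D e2 (fun x : V N => SF 2 (x + (e2 - e1))) =
      fun x => D e2 (SF 2) (x + (e2 - e1)) := by
    rw [D_shift]
  rw [a3]
  intro x
  have a4 := (a1.neg.sub a2) x
  simp only [zero_sub] at a4 ⊢
  refine a4.trans (div_le_div_of_nonneg_right ?_ (by positivity))
  unfold CG
  norm_num
  linarith

/-- **(ANG 1)** `|∇ G0 (x)| ≤ C / (1 + |x|)` -/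
theorem grad_G0 {e : V N} (he : e = e1 ∨ e = e2) : BD CG 1 (D e (G0 (N := N))) := by
  rcases he with rfl | rfl
  · refine BD_of w1 ?_
    rw [← D2_sw, sw_G0]
    exact w2
  · refine BD_of w2 ?_
    rw [← D1_sw, sw_G0]
    exact w1

/-- **(ANG 2)** `|∇² G0 (x)| ≤ C / (1 + |x|)²` -/
theorem grad2_G0 {e e' : V N} (he : e = e1 ∨ e = e2) (he' : e' = e1 ∨ e' = e2) :
    BD CG 2 (D e (D e' (G0 (N := N)))) := by
  have s11 : BD CG 2 (D e1 (D e1 (G0 (N := N)))) := by
    refine BD_of w11 ?_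
    rw [← D2_sw, ← D2_sw, sw_G0]
    exact w22
  have s22 : BD CG 2 (D e2 (D e2 (G0 (N := N)))) := by
    refine BD_of w22 ?_
    rw [← D1_sw, ← D1_sw, sw_G0]
    exact w11
  have s12 : BD CG 2 (D e1 (D e2 (G0 (N := N)))) := by
    refine BD_of w12 ?_
    rw [← D2_sw, ← D1_sw, sw_G0, D_comm]
    exact w12
  rcases he with rfl | rfl <;> rcases he' with rfl | rfl
  · exact s11
  · exact s12
  · rw [D_comm]; exact s12
  · exact s22

/-- **(ANG 3)** `|∇³ G0 (x)| ≤ C / (1 + |x|)³` -/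
theorem grad3_G0 {e e' e'' : V N} (he : e = e1 ∨ e = e2) (he' : e' = e1 ∨ e' = e2)
    (he'' : e'' = e1 ∨ e'' = e2) : BD CG 3 (D e (D e' (D e'' (G0 (N := N))))) := by
  have s111 : BD CG 3 (D e1 (D e1 (D e1 (G0 (N := N))))) := by
    refine BD_of w111 ?_
    rw [← D2_sw, ← D2_sw, ← D2_sw, sw_G0]
    exact w222
  have s222 : BD CG 3 (D e2 (D e2 (D e2 (G0 (N := N))))) := by
    refine BD_of w222 ?_
    rw [← D1_sw, ← D1_sw, ← D1_sw, sw_G0]
    exact w111
  have s112 : BD CG 3 (D e1 (D e1 (D e2 (G0 (N := N))))) := by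
    refine BD_of w112 ?_
    rw [← D2_sw, ← D2_sw, ← D1_sw, sw_G0, D_comm e2 e1, D_comm e2 e1]
    exact w122
  have s122 : BD CG 3 (D e1 (D e2 (D e2 (G0 (N := N))))) := by
    refine BD_of w122 ?_
    rw [← D2_sw, ← D1_sw, ← D1_sw, sw_G0, D_comm e2 e1, D_comm e2 e1]
    exact w112
  rcases he with rfl | rfl <;> rcases he' with rfl | rfl <;> rcases he'' with rfl | rfl
  · exact s111
  · exact s112
  · rw [D_comm e2 e1]; exact s112
  · exact s122
  · rw [D_comm e2 e1, D_comm e2 e1]; exact s112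
  · rw [D_comm e2 e1]; exact s122
  · rw [D_comm e2 e1 G0, D_comm e2 e1]; exact s122
  · exact s222

end

end Vale.Agent.P159.H817
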