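import Vale.Agent.P159.H817.Ang7

/-!
P159 / module ANG (helper817), part 8: refinement of the torus. The one dimensional kernels
`kz R r / R` against their continuum limit.
-/

set_option linter.unusedSectionVars false

namespace Vale.Agent.P159.H817

open Finset Real
open Vale.Agent.P159.TM.H764 (cN sN ch EE dt)
open Vale.Agent.P159.TM.Spec (V)
open Vale.Agent.P159.H474 (zz rs kz)

noncomputable section

/-! ### scalar inequalities -/

lemma sinh_le_cube {y : ℝ} (h0 : 0 ≤ y) (h1 : y ≤ 1) : Real.sinh y ≤ y + y ^ 3 := by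
  have a1 : |y| ≤ 1 := by rw [abs_of_nonneg h0]; exact h1
  have a2 : |-y| ≤ 1 := by rw [abs_neg]; exact a1
  have b1 := Real.exp_bound a1 (n := 3) (by norm_num)
  have b2 := Real.exp_bound a2 (n := 3) (by norm_num)
  simp only [Finset.sum_range_succ, Finset.sum_range_zero, Nat.factorial, abs_neg,
    abs_of_nonneg h0] at b1 b2
  norm_num at b1 b2
  rw [abs_le] at b1 b2
  rw [Real.sinh_eq]
  have h3 : 0 ≤ y ^ 3 := by positivity
  linarith [b1.2, b2.1]

lemma arsinh_le' {b : ℝ} (h0 : 0 ≤ b) : Real.arsinh b ≤ b := by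
  have h1 : b ≤ Real.sinh b := Real.self_le_sinh_iff.2 h0
  have h2 := Real.arsinh_le_arsinh.2 h1
  rwa [Real.arsinh_sinh] at h2

lemma arsinh_ge_cube {b : ℝ} (h0 : 0 ≤ b) (h1 : b ≤ 1) : b - b ^ 3 ≤ Real.arsinh b := by
  have h3 : 0 ≤ b ^ 3 := by positivity
  have hb2 : b ^ 3 ≤ b := by nlinarith [mul_nonneg h0 h0]
  have h4 : Real.sinh (b - b ^ 3) ≤ b := by
    have h5 := sinh_le_cube (y := b - b ^ 3) (by linarith) (by linarith)
    have h6 : (b - b ^ 3) ^ 3 ≤ b ^ 3 := pow_le_pow_left₀ (by linarith) (by linarith) 3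
    linarith
  have h5 := Real.arsinh_le_arsinh.2 h4
  rwa [Real.arsinh_sinh] at h5

lemma arsinh_ge_half {b : ℝ} (h0 : 0 ≤ b) (h1 : b ≤ 1) : b / 2 ≤ Real.arsinh b := by
  have h4 : Real.sinh (b / 2) ≤ b := by
    have h5 := sinh_le_cube (y := b / 2) (by linarith) (by linarith)
    have h6 : (b / 2) ^ 3 ≤ b / 2 := by
      have : (b / 2) ^ 3 ≤ (b / 2) ^ 1 :=
        pow_le_pow_of_le_one (by linarith) (by linarith) (by norm_num)
      simpa using this
    linarith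
  have h5 := Real.arsinh_le_arsinh.2 h4
  rwa [Real.arsinh_sinh] at h5

/-- `zz` at `4 sin² a` -/
lemma zz_sin {b : ℝ} (h0 : 0 ≤ b) : zz (4 * b ^ 2) = exp (-(2 * Real.arsinh b)) := by
  have h1 : √(4 * b ^ 2) = 2 * b := by
    rw [show 4 * b ^ 2 = (2 * b) ^ 2 by ring, Real.sqrt_sq (by linarith)]
  have h2 : √(4 * b ^ 2 + 4) = 2 * √(1 + b ^ 2) := by
    rw [show 4 * b ^ 2 + 4 = 2 ^ 2 * (1 + b ^ 2) by ring, Real.sqrt_mul (by norm_num),
      Real.sqrt_sq (by norm_num)]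
  have h3 : exp (-(Real.arsinh b)) = √(1 + b ^ 2) - b := by
    rw [← Real.arsinh_neg, Real.exp_arsinh]
    ring_nf
  unfold zz
  rw [h1, h2, show -(2 * Real.arsinh b) = -(Real.arsinh b) + -(Real.arsinh b) by ring,
    Real.exp_add, h3]
  ring

lemma rs_sin {b : ℝ} (h0 : 0 ≤ b) : rs (4 * b ^ 2) = 4 * b * √(1 + b ^ 2) := by
  unfold rs
  rw [show 4 * b ^ 2 * (4 * b ^ 2 + 4) = (4 * b) ^ 2 * (1 + b ^ 2) by ring,
    Real.sqrt_mul (by positivity), Real.sqrt_sq (by positivity)]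

/-! ### the comparison of profiles -/

/-- the profile -/
def hh (ρ U : ℝ) : ℝ := (exp (-(ρ * U)) + exp (-((1 - ρ) * U))) / (1 - exp (-U))

lemma exp_neg_one_le : exp (-1 : ℝ) ≤ 1 / 2 := by
  have h := Real.add_one_le_exp (1 : ℝ)
  rw [Real.exp_neg, inv_eq_one_div]
  exact one_div_le_one_div_of_le (by norm_num) (by linarith)

lemma exp_diff_le (x y : ℝ) : exp (-x) - exp (-y) ≤ (y - x) * exp (-x) := by
  have h1 : exp (-y) = exp (-x) * exp (-(y - x)) := by rw [← Real.exp_add]; ring_nf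
  have h2 := Real.add_one_le_exp (-(y - x))
  have h3 := Real.exp_pos (-x)
  rw [h1]
  nlinarith

lemma hh_diff {ρ U W j δ : ℝ} (hρ : 0 ≤ ρ) (hρ1 : ρ ≤ 1 / 2) (hj : 1 ≤ j) (hjU : j ≤ U)
    (hUW : U ≤ W) (hδ : W - U ≤ δ) :
    |hh ρ U - hh ρ W| ≤ δ * (2 * (ρ * exp (-(ρ * j))) + 10 * exp (-(j / 2))) := by
  have hU1 : 1 ≤ U := hj.trans hjU
  have hδ0 : 0 ≤ δ := by linarith
  have eU : exp (-U) ≤ 1 / 2 := (Real.exp_le_exp.2 (by linarith)).trans exp_neg_one_le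
  have eW : exp (-W) ≤ 1 / 2 := (Real.exp_le_exp.2 (by linarith)).trans exp_neg_one_le
  have dU : 0 < 1 - exp (-U) := by linarith
  have dW : 0 < 1 - exp (-W) := by linarith
  have a0 := Real.exp_pos (-(ρ * W))
  have b0 := Real.exp_pos (-((1 - ρ) * W))
  have eUW : exp (-W) ≤ exp (-U) := Real.exp_le_exp.2 (by linarith)
  -- numerators
  have n1 : exp (-(ρ * U)) - exp (-(ρ * W)) ≤ δ * (ρ * exp (-(ρ * j))) := by
    have h1 := exp_diff_le (ρ * U) (ρ * W)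
    have h2 : exp (-(ρ * U)) ≤ exp (-(ρ * j)) :=
      Real.exp_le_exp.2 (neg_le_neg (mul_le_mul_of_nonneg_left hjU hρ))
    calc _ ≤ (ρ * W - ρ * U) * exp (-(ρ * U)) := h1
      _ ≤ (ρ * δ) * exp (-(ρ * j)) := by
          refine mul_le_mul ?_ h2 (Real.exp_pos _).le (mul_nonneg hρ hδ0)
          rw [← mul_sub]
          exact mul_le_mul_of_nonneg_left hδ hρ
      _ = _ := by ring
  have n2 : exp (-((1 - ρ) * U)) - exp (-((1 - ρ) * W)) ≤ δ * exp (-(j / 2)) := by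
    have hr : 0 ≤ 1 - ρ := by linarith
    have h1 := exp_diff_le ((1 - ρ) * U) ((1 - ρ) * W)
    have h2 : exp (-((1 - ρ) * U)) ≤ exp (-(j / 2)) := by
      refine Real.exp_le_exp.2 (neg_le_neg ?_)
      nlinarith
    calc _ ≤ ((1 - ρ) * W - (1 - ρ) * U) * exp (-((1 - ρ) * U)) := h1
      _ ≤ δ * exp (-(j / 2)) := by
          refine mul_le_mul ?_ h2 (Real.exp_pos _).le hδ0
          rw [← mul_sub]
          nlinarith
  have n1' : 0 ≤ exp (-(ρ * U)) - exp (-(ρ * W)) :=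
    sub_nonneg.2 (Real.exp_le_exp.2 (neg_le_neg (mul_le_mul_of_nonneg_left hUW hρ)))
  have n2' : 0 ≤ exp (-((1 - ρ) * U)) - exp (-((1 - ρ) * W)) :=
    sub_nonneg.2 (Real.exp_le_exp.2 (neg_le_neg (mul_le_mul_of_nonneg_left hUW (by linarith))))
  have n3 : exp (-U) - exp (-W) ≤ δ * exp (-(j / 2)) := by
    have h1 := exp_diff_le U W
    have h2 : exp (-U) ≤ exp (-(j / 2)) := Real.exp_le_exp.2 (by linarith)
    refine h1.trans (mul_le_mul hδ h2 (Real.exp_pos _).le hδ0)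
  have e1 : hh ρ U - hh ρ W =
      ((exp (-(ρ * U)) - exp (-(ρ * W))) + (exp (-((1 - ρ) * U)) - exp (-((1 - ρ) * W)))) /
        (1 - exp (-U)) +
      (exp (-(ρ * W)) + exp (-((1 - ρ) * W))) * (exp (-U) - exp (-W)) /
        ((1 - exp (-U)) * (1 - exp (-W))) := by
    unfold hh
    field_simp
    ring
  have t2 : exp (-(ρ * W)) + exp (-((1 - ρ) * W)) ≤ 2 := by
    have h1 : exp (-(ρ * W)) ≤ 1 := by
      rw [Real.exp_le_one_iff, neg_nonpos]
      exact mul_nonneg hρ (by linarith)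
    have h2 : exp (-((1 - ρ) * W)) ≤ 1 := by
      rw [Real.exp_le_one_iff, neg_nonpos]
      exact mul_nonneg (by linarith) (by linarith)
    linarith
  have hpos : 0 ≤ hh ρ U - hh ρ W := by
    rw [e1]
    have := sub_nonneg.2 eUW
    positivity
  rw [abs_of_nonneg hpos, e1]
  have p1 : ((exp (-(ρ * U)) - exp (-(ρ * W))) + (exp (-((1 - ρ) * U)) - exp (-((1 - ρ) * W)))) /
        (1 - exp (-U)) ≤ 2 * (δ * (ρ * exp (-(ρ * j))) + δ * exp (-(j / 2))) := by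
    rw [div_le_iff₀ dU]
    nlinarith
  have p2 : (exp (-(ρ * W)) + exp (-((1 - ρ) * W))) * (exp (-U) - exp (-W)) /
        ((1 - exp (-U)) * (1 - exp (-W))) ≤ 8 * (δ * exp (-(j / 2))) := by
    rw [div_le_iff₀ (by positivity)]
    have h1 : (exp (-(ρ * W)) + exp (-((1 - ρ) * W))) * (exp (-U) - exp (-W)) ≤
        2 * (δ * exp (-(j / 2))) :=
      mul_le_mul t2 n3 (sub_nonneg.2 eUW) (by norm_num)
    have h2 : 1 / 4 ≤ (1 - exp (-U)) * (1 - exp (-W)) := by nlinarith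
    have h3 : 0 ≤ δ * exp (-(j / 2)) := by positivity
    nlinarith
  refine (add_le_add p1 p2).trans (le_of_eq ?_)
  ring

lemma hh_le {ρ W j : ℝ} (hρ : 0 ≤ ρ) (hρ1 : ρ ≤ 1 / 2) (hj : 1 ≤ j) (hjW : j ≤ W) :
    0 ≤ hh ρ W ∧ hh ρ W ≤ 4 * exp (-(ρ * j)) := by
  have eW : exp (-W) ≤ 1 / 2 := (Real.exp_le_exp.2 (by linarith)).trans exp_neg_one_le
  have dW : 0 < 1 - exp (-W) := by linarith
  have h1 : exp (-(ρ * W)) ≤ exp (-(ρ * j)) :=
    Real.exp_le_exp.2 (neg_le_neg (mul_le_mul_of_nonneg_left hjW hρ))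
  have h2 : exp (-((1 - ρ) * W)) ≤ exp (-(ρ * j)) := by
    refine Real.exp_le_exp.2 (neg_le_neg ?_)
    nlinarith
  refine ⟨by unfold hh; positivity, ?_⟩
  unfold hh
  rw [div_le_iff₀ dW]
  have := Real.exp_pos (-(ρ * j))
  nlinarith

lemma x_exp_le (x : ℝ) : x * exp (-(x / 2)) ≤ 1 := by
  have h := Real.add_one_le_exp (x / 2)
  have h2 : x ≤ exp (x / 2) := by
    have h3 := Real.exp_pos (x / 4)
    have h4 := Real.add_one_le_exp (x / 4)
    have h5 : exp (x / 2) = exp (x / 4) ^ 2 := by rw [← Real.exp_nat_mul]; congr 1; push_cast; ring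
    rcases le_or_gt x (-4) with hx | hx
    · have := Real.exp_pos (x / 2)
      linarith
    · rw [h5]
      nlinarith [sq_nonneg (x / 4 - 1)]
  rw [Real.exp_neg, ← div_eq_mul_inv, div_le_one (Real.exp_pos _)]
  exact h2

/-- **core comparison** -/
lemma core {ρ U W X j δ : ℝ} (hρ : 0 ≤ ρ) (hρ1 : ρ ≤ 1 / 2) (hj : 1 ≤ j) (hjU : j ≤ U)
    (hUW : U ≤ W) (hδ : W - U ≤ δ) (hX : |X - 2 * W| ≤ δ) (hX8 : 4 * j ≤ X) :
    |hh ρ U / X - hh ρ W / (2 * W)| ≤ 10 * δ / j ^ 2 * exp (-(ρ * j / 4)) := by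
  have hj0 : 0 < j := by linarith
  have hX0 : 0 < X := by linarith
  have hW0 : 0 < W := by linarith
  have hδ0 : 0 ≤ δ := by linarith
  have h1 := hh_diff hρ hρ1 hj hjU hUW hδ
  obtain ⟨h2, h3⟩ := hh_le hρ hρ1 hj (hjU.trans hUW)
  have e1 : hh ρ U / X - hh ρ W / (2 * W) =
      (hh ρ U - hh ρ W) / X - hh ρ W * (X - 2 * W) / (X * (2 * W)) := by
    field_simp
    ring
  have E := Real.exp_pos (-(ρ * j / 4))
  -- first term
  have f1 : ρ * exp (-(ρ * j)) ≤ 1 / j * exp (-(ρ * j / 4)) := by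
    have a1 : ρ * j * exp (-(ρ * j / 2)) ≤ 1 := x_exp_le (ρ * j)
    have a2 : exp (-(ρ * j)) = exp (-(ρ * j / 2)) * exp (-(ρ * j / 2)) := by
      rw [← Real.exp_add]; ring_nf
    have a3 : exp (-(ρ * j / 2)) ≤ exp (-(ρ * j / 4)) :=
      Real.exp_le_exp.2 (by nlinarith [mul_nonneg hρ hj0.le])
    have a4 := Real.exp_pos (-(ρ * j / 2))
    rw [div_mul_eq_mul_div, one_mul, le_div_iff₀ hj0]
    calc ρ * exp (-(ρ * j)) * j = (ρ * j * exp (-(ρ * j / 2))) * exp (-(ρ * j / 2)) := by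
          rw [a2]; ring
      _ ≤ 1 * exp (-(ρ * j / 4)) := mul_le_mul a1 a3 a4.le zero_le_one
      _ = _ := one_mul _
  have f2 : exp (-(j / 2)) ≤ 2 / j * exp (-(ρ * j / 4)) := by
    have a1 := x_exp_le (j / 2)
    have a2 : exp (-(j / 2)) = exp (-(j / 2 / 2)) * exp (-(j / 4)) := by
      rw [← Real.exp_add]; ring_nf
    have a3 : exp (-(j / 4)) ≤ exp (-(ρ * j / 4)) := Real.exp_le_exp.2 (by nlinarith)
    rw [div_mul_eq_mul_div, le_div_iff₀ hj0, a2]
    calc exp (-(j / 2 / 2)) * exp (-(j / 4)) * j =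
          2 * (j / 2 * exp (-(j / 2 / 2))) * exp (-(j / 4)) := by ring
      _ ≤ 2 * 1 * exp (-(ρ * j / 4)) := by
          refine mul_le_mul (by linarith) a3 (Real.exp_pos _).le (by norm_num)
      _ = _ := by ring
  have g1 : |(hh ρ U - hh ρ W) / X| ≤ 22 / 4 * δ / j ^ 2 * exp (-(ρ * j / 4)) := by
    rw [abs_div, abs_of_pos hX0, div_le_iff₀ hX0]
    calc |hh ρ U - hh ρ W| ≤ δ * (2 * (ρ * exp (-(ρ * j))) + 10 * exp (-(j / 2))) := h1
      _ ≤ δ * (2 * (1 / j * exp (-(ρ * j / 4))) + 10 * (2 / j * exp (-(ρ * j / 4)))) := by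
          refine mul_le_mul_of_nonneg_left ?_ hδ0
          linarith
      _ = 22 / 4 * δ / j ^ 2 * exp (-(ρ * j / 4)) * (4 * j) := by
          field_simp
          ring
      _ ≤ _ := mul_le_mul_of_nonneg_left hX8 (by positivity)
  have g2 : |hh ρ W * (X - 2 * W) / (X * (2 * W))| ≤ 1 / 2 * δ / j ^ 2 * exp (-(ρ * j / 4)) := by
    rw [abs_div, abs_of_pos (by positivity : 0 < X * (2 * W)), div_le_iff₀ (by positivity), abs_mul,
      abs_of_nonneg h2]
    have a3 : exp (-(ρ * j)) ≤ exp (-(ρ * j / 4)) :=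
      Real.exp_le_exp.2 (by nlinarith [mul_nonneg hρ hj0.le])
    calc hh ρ W * |X - 2 * W| ≤ 4 * exp (-(ρ * j / 4)) * δ :=
          mul_le_mul (h3.trans (by linarith)) hX (abs_nonneg _) (by positivity)
      _ = 1 / 2 * δ / j ^ 2 * exp (-(ρ * j / 4)) * ((4 * j) * (2 * j)) := by
          field_simp
      _ ≤ _ := by
          refine mul_le_mul_of_nonneg_left ?_ (by positivity)
          exact mul_le_mul hX8 (by linarith) (by positivity) hX0.le
  rw [e1]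
  refine (abs_sub _ _).trans ((add_le_add g1 g2).trans ?_)
  have : 22 / 4 * δ / j ^ 2 * exp (-(ρ * j / 4)) + 1 / 2 * δ / j ^ 2 * exp (-(ρ * j / 4)) =
      6 * δ / j ^ 2 * exp (-(ρ * j / 4)) := by ring
  rw [this]
  refine mul_le_mul_of_nonneg_right ?_ E.le
  exact div_le_div_of_nonneg_right (by linarith) (by positivity)

end

end Vale.Agent.P159.H817
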