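import Vale.Agent.P159.H817.Ang8

/-!
P159 / module ANG (helper817), part 9: refinement of the torus,
`|G0_{MN}(M x) - G0_N(x)| ≤ C / |x|²`.
-/

set_option linter.unusedSectionVars false

namespace Vale.Agent.P159.H817

open Finset Real
open Vale.Agent.P159.TM.H764 (cN sN ch EE dt)
open Vale.Agent.P159.TM.Spec (V)
open Vale.Agent.P159.H474 (zz rs kz)

noncomputable section

/-- the continuum profile of the mode `j` -/
def HH (ρ : ℝ) (j : ℕ) : ℝ := hh ρ (2 * π * j) / (2 * (2 * π * j))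

section

variable {R : ℕ} [NeZero R]

lemma cN_abs (k : ZMod R) : cN k = Real.cos (2 * π * (k.valMinAbs.natAbs : ℝ) / R) := by
  have h0 : ((k.valMinAbs : ℤ) : ZMod R) = k := ZMod.coe_valMinAbs k
  conv_lhs => rw [← h0]
  rw [TM.H764.cN_int]
  rcases Int.natAbs_eq k.valMinAbs with h | h
  · have h2 : (k.valMinAbs : ℝ) = (k.valMinAbs.natAbs : ℝ) := by
      conv_lhs => rw [h]
      simp
    rw [h2]
  · have h2 : (k.valMinAbs : ℝ) = -(k.valMinAbs.natAbs : ℝ) := by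
      conv_lhs => rw [h]
      simp
    rw [h2, show 2 * π * -(k.valMinAbs.natAbs : ℝ) / R =
      -(2 * π * (k.valMinAbs.natAbs : ℝ) / R) by ring, Real.cos_neg]

lemma sk_sin (k : ZMod R) : sk k = 4 * Real.sin (π * (k.valMinAbs.natAbs : ℝ) / R) ^ 2 := by
  unfold sk
  rw [cN_abs, show 2 * π * (k.valMinAbs.natAbs : ℝ) / R =
    2 * (π * (k.valMinAbs.natAbs : ℝ) / R) by ring, Real.cos_two_mul, Real.cos_sq']
  ring

lemma natAbs_pos_of_ne {k : ZMod R} (hk : k ≠ 0) : 1 ≤ k.valMinAbs.natAbs := by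
  rw [Nat.one_le_iff_ne_zero, Ne, Int.natAbs_eq_zero]
  intro h
  exact hk ((ZMod.valMinAbs_eq_zero k).1 h)

/-- one mode -/
theorem kz_core {k : ZMod R} (hk : k ≠ 0) {r : ℕ} (hr : 2 * r ≤ R) :
    |kz R r (sk k) / R - HH ((r : ℝ) / R) k.valMinAbs.natAbs| ≤
      1300 * k.valMinAbs.natAbs / (R : ℝ) ^ 2 *
        exp (-((r : ℝ) / R * k.valMinAbs.natAbs / 4)) := by
  have hpi := Real.pi_pos
  have hR : (0 : ℝ) < R := Nat.cast_pos.2 (NeZero.pos R)
  have hj1 := natAbs_pos_of_ne hk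
  have hj2 := half_ge k
  set j : ℕ := k.valMinAbs.natAbs with hj
  have hj1' : (1 : ℝ) ≤ j := by exact_mod_cast hj1
  have hj2' : 2 * (j : ℝ) ≤ R := by exact_mod_cast hj2
  have hr' : 2 * (r : ℝ) ≤ R := by exact_mod_cast hr
  set a : ℝ := π * j / R with ha
  have ha0 : 0 < a := by positivity
  have ha1 : a ≤ π / 2 := by
    rw [ha, div_le_iff₀ hR]
    nlinarith
  set b : ℝ := Real.sin a with hb
  have hb0 : 0 ≤ b := Real.sin_nonneg_of_nonneg_of_le_pi ha0.le (by linarith)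
  have hb1 : b ≤ 1 := Real.sin_le_one a
  have hba : b ≤ a := (Real.sin_lt ha0).le
  have hbl : 2 / π * a ≤ b := Real.mul_le_sin ha0.le ha1
  have hb3 : a - a ^ 3 / 6 ≤ b := (Real.sin_gt_sub_cube ha0).le
  have hRa : R * a = π * j := by rw [ha]; field_simp
  have hRb : 2 * (j : ℝ) ≤ R * b := by
    have h1 : R * (2 / π * a) = 2 * j := by
      calc R * (2 / π * a) = 2 / π * (R * a) := by ring
        _ = 2 * j := by rw [hRa]; field_simp
    rw [← h1]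
    exact mul_le_mul_of_nonneg_left hbl hR.le
  have has := arsinh_le' hb0
  have has3 := arsinh_ge_cube hb0 hb1
  have has2 := arsinh_ge_half hb0 hb1
  set U : ℝ := R * (2 * Real.arsinh b) with hU
  set W : ℝ := 2 * π * j with hW
  have hWa : W = 2 * (R * a) := by rw [hRa, hW]; ring
  have hU1 : (j : ℝ) ≤ U := by
    have : R * b ≤ U := by
      rw [hU]
      exact mul_le_mul_of_nonneg_left (by linarith) hR.le
    linarith
  have hUW : U ≤ W := by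
    rw [hU, hWa]
    nlinarith
  have hb33 : b ^ 3 ≤ a ^ 3 := pow_le_pow_left₀ hb0 hba 3
  have hδ : W - U ≤ 4 * R * a ^ 3 := by
    rw [hU, hWa]
    have h1 : a - Real.arsinh b ≤ 2 * a ^ 3 := by
      have : 0 ≤ a ^ 3 := by positivity
      linarith
    have h2 := mul_le_mul_of_nonneg_left h1 hR.le
    linarith
  have hrs := rs_sin hb0
  have hsq1 : 1 ≤ √(1 + b ^ 2) := by
    rw [Real.one_le_sqrt]
    nlinarith [sq_nonneg b]
  have hsq2 : √(1 + b ^ 2) ≤ 1 + b ^ 2 / 2 := by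
    rw [Real.sqrt_le_left (by positivity)]
    nlinarith [sq_nonneg (b ^ 2)]
  set X : ℝ := R * rs (sk k) with hX
  have hXe : X = R * (4 * b * √(1 + b ^ 2)) := by rw [hX, sk_sin, ← hrs]
  have hX1 : 4 * (R * b) ≤ X := by
    rw [hXe]
    have h1 : b * 1 ≤ b * √(1 + b ^ 2) := mul_le_mul_of_nonneg_left hsq1 hb0
    nlinarith
  have hX2 : X ≤ 4 * (R * (a + a ^ 3 / 2)) := by
    rw [hXe]
    have h1 : b * √(1 + b ^ 2) ≤ b * (1 + b ^ 2 / 2) := mul_le_mul_of_nonneg_left hsq2 hb0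
    have h2 : b * (1 + b ^ 2 / 2) ≤ a + a ^ 3 / 2 := by
      have e : b * (1 + b ^ 2 / 2) = b + b ^ 3 / 2 := by ring
      rw [e]
      linarith
    have h3 := mul_le_mul_of_nonneg_left (h1.trans h2) hR.le
    linarith
  have hXW : |X - 2 * W| ≤ 4 * R * a ^ 3 := by
    have h0 : 0 ≤ R * a ^ 3 := by positivity
    rw [abs_le, hWa]
    have h1 := mul_le_mul_of_nonneg_left hb3 hR.le
    constructor <;> nlinarith
  have hX8 : 4 * (j : ℝ) ≤ X := by linarith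
  have hρ0 : (0 : ℝ) ≤ (r : ℝ) / R := by positivity
  have hρ1 : (r : ℝ) / R ≤ 1 / 2 := by
    rw [div_le_iff₀ hR]
    linarith
  have hcore := core hρ0 hρ1 hj1' hU1 hUW hδ hXW hX8
  -- identification
  have hzz : zz (sk k) = exp (-(2 * Real.arsinh b)) := by rw [sk_sin, ← zz_sin hb0]
  have hkz : kz R r (sk k) / R = hh ((r : ℝ) / R) U / X := by
    unfold kz hh
    have z1 : zz (sk k) ^ r = exp (-((r : ℝ) / R * U)) := by
      rw [hzz, ← Real.exp_nat_mul, hU]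
      congr 1
      field_simp
    have z2 : zz (sk k) ^ (R - r) = exp (-((1 - (r : ℝ) / R) * U)) := by
      rw [hzz, ← Real.exp_nat_mul, hU, Nat.cast_sub (by omega)]
      congr 1
      field_simp
    have z3 : zz (sk k) ^ R = exp (-U) := by
      rw [hzz, ← Real.exp_nat_mul, hU]
      congr 1
      ring
    rw [z1, z2, z3, div_div, div_div, hX]
    ring
  have hHH : HH ((r : ℝ) / R) j = hh ((r : ℝ) / R) W / (2 * W) := rfl
  rw [hkz, hHH]
  refine hcore.trans ?_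
  refine mul_le_mul_of_nonneg_right ?_ (Real.exp_pos _).le
  have h1 : 10 * (4 * R * a ^ 3) / (j : ℝ) ^ 2 = 40 * π ^ 3 * j / (R : ℝ) ^ 2 := by
    rw [ha]
    field_simp
    norm_num
  rw [h1]
  refine div_le_div_of_nonneg_right ?_ (by positivity)
  refine mul_le_mul_of_nonneg_right ?_ (by positivity)
  have hp : π ≤ 3.15 := Real.pi_lt_d2.le
  have h2 : π ^ 3 ≤ 3.15 ^ 3 := pow_le_pow_left₀ hpi.le hp 3
  norm_num at h2 ⊢
  linarith

/-- the sum of the errors -/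
lemma sum_err {ρ : ℝ} (h0 : 0 < ρ) (h1 : ρ ≤ 1) :
    ∑ k ∈ (univ : Finset (ZMod R)).erase 0,
      (k.valMinAbs.natAbs : ℝ) * exp (-(ρ * k.valMinAbs.natAbs / 4)) ≤ 200 / ρ ^ 2 := by
  classical
  set g : ℕ → ℝ := fun n => (n : ℝ) * exp (-(ρ * n / 4)) with hg
  have hg0 : ∀ n, 0 ≤ g n := fun n => by simp only [hg]; positivity
  have h2 : ∑ k ∈ (univ : Finset (ZMod R)).erase 0,
      (k.valMinAbs.natAbs : ℝ) * exp (-(ρ * k.valMinAbs.natAbs / 4)) ≤
      ∑ k : ZMod R, g k.valMinAbs.natAbs :=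
    Finset.sum_le_sum_of_subset_of_nonneg (Finset.erase_subset _ _) fun _ _ _ => hg0 _
  refine h2.trans ((H340.sum_vma_le hg0).trans ?_)
  have h3 : ∀ n ∈ range (R + 1), g n ≤ 4 / ρ * exp (-(ρ / 8 * n)) := by
    intro n _
    have a1 := x_exp_le (ρ * n / 4)
    have a2 : exp (-(ρ * n / 4)) = exp (-(ρ * n / 4 / 2)) * exp (-(ρ / 8 * n)) := by
      rw [← Real.exp_add]; ring_nf
    have a3 := Real.exp_pos (-(ρ / 8 * n))
    calc g n = 4 / ρ * (ρ * n / 4 * exp (-(ρ * n / 4 / 2))) * exp (-(ρ / 8 * n)) := by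
          simp only [hg]
          rw [a2]
          field_simp
      _ ≤ 4 / ρ * 1 * exp (-(ρ / 8 * n)) := by
          refine mul_le_mul_of_nonneg_right ?_ a3.le
          exact mul_le_mul_of_nonneg_left a1 (by positivity)
      _ = _ := by ring
  have h4 := Finset.sum_le_sum h3
  rw [← Finset.mul_sum] at h4
  have h5 : ∑ n ∈ range (R + 1), exp (-(ρ / 8 * (n : ℝ))) ≤ 1 + 8 / ρ := by
    rw [Finset.sum_range_succ']
    have a1 := geo_exp (r := ρ / 8) (by positivity) R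
    have a2 : exp (-(ρ / 8 * ((0 : ℕ) : ℝ))) = 1 := by simp
    have a3 : 1 / (ρ / 8) = 8 / ρ := by field_simp
    rw [a3] at a1
    rw [a2]
    push_cast
    linarith
  have h6 : 1 + 8 / ρ ≤ 9 / ρ := by
    have : 1 ≤ 1 / ρ := by rw [le_div_iff₀ h0]; linarith
    have e : 9 / ρ = 1 / ρ + 8 / ρ := by ring
    linarith
  have h7 : 4 / ρ * ∑ n ∈ range (R + 1), exp (-(ρ / 8 * (n : ℝ))) ≤ 4 / ρ * (9 / ρ) :=
    mul_le_mul_of_nonneg_left (h5.trans h6) (by positivity)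
  have h8 : 4 / ρ * (9 / ρ) = 36 / ρ ^ 2 := by field_simp; norm_num
  have h9 : 2 * (36 / ρ ^ 2) ≤ 200 / ρ ^ 2 := by
    rw [mul_div_assoc']
    exact div_le_div_of_nonneg_right (by norm_num) (by positivity)
  linarith

/-! ### sums over the integers -/

/-- representatives of the nonzero classes -/
def JJ (R : ℕ) : Finset ℤ :=
  (Finset.Icc (-(R : ℤ)) R).filter fun v => -(R : ℤ) < v * 2 ∧ v * 2 ≤ R ∧ v ≠ 0

lemma sum_JJ (F : ℤ → ℝ) :
    ∑ k ∈ (univ : Finset (ZMod R)).erase 0, F k.valMinAbs = ∑ v ∈ JJ R, F v := by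
  classical
  refine Finset.sum_nbij' (fun k => k.valMinAbs) (fun v => (v : ZMod R)) ?_ ?_ ?_ ?_ ?_
  · intro k hk
    have h := ZMod.valMinAbs_mem_Ioc k
    rw [Set.mem_Ioc] at h
    unfold JJ
    rw [Finset.mem_filter, Finset.mem_Icc]
    have h0 : k.valMinAbs ≠ 0 := fun h0 => (Finset.mem_erase.1 hk).1 ((ZMod.valMinAbs_eq_zero k).1 h0)
    omega
  · intro v hv
    unfold JJ at hv
    rw [Finset.mem_filter] at hv
    have h1 : ((v : ZMod R)).valMinAbs = v :=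
      (ZMod.valMinAbs_spec _ _).2 ⟨rfl, hv.2.1, hv.2.2.1⟩
    rw [Finset.mem_erase]
    refine ⟨fun h => hv.2.2.2 ?_, Finset.mem_univ _⟩
    rw [← h1, h]
    simp
  · intro k _
    exact ZMod.coe_valMinAbs k
  · intro v hv
    unfold JJ at hv
    rw [Finset.mem_filter] at hv
    exact (ZMod.valMinAbs_spec _ _).2 ⟨rfl, hv.2.1, hv.2.2.1⟩
  · intro k _
    rfl

/-- the sum over the modes of the torus `R` of the continuum profile -/
def Sf (R : ℕ) [NeZero R] (μ ρ : ℝ) : ℝ :=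
  ∑ k ∈ (univ : Finset (ZMod R)).erase 0,
    Real.cos (2 * π * k.valMinAbs * μ) * HH ρ k.valMinAbs.natAbs

lemma cN_mul_int (k : ZMod R) (m : ℤ) :
    cN (k * (m : ZMod R)) = Real.cos (2 * π * k.valMinAbs * ((m : ℝ) / R)) := by
  have h0 : ((k.valMinAbs : ℤ) : ZMod R) = k := ZMod.coe_valMinAbs k
  have h1 : k * (m : ZMod R) = ((k.valMinAbs * m : ℤ) : ZMod R) := by
    rw [Int.cast_mul, h0]
  rw [h1, TM.H764.cN_int]
  congr 1
  push_cast
  ring

theorem An_sub (m : ℤ) {r : ℕ} (hr1 : 1 ≤ r) (hr : 2 * r ≤ R) :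
    |An (m : ZMod R) r - Sf R ((m : ℝ) / R) ((r : ℝ) / R)| ≤ 260000 / (r : ℝ) ^ 2 := by
  have hR : (0 : ℝ) < R := Nat.cast_pos.2 (NeZero.pos R)
  have hr0 : (0 : ℝ) < r := by exact_mod_cast hr1
  have hr' : 2 * (r : ℝ) ≤ R := by exact_mod_cast hr
  unfold An Sf
  rw [Finset.sum_div, ← Finset.sum_sub_distrib]
  refine (Finset.abs_sum_le_sum_abs _ _).trans ?_
  have h1 : ∀ k ∈ (univ : Finset (ZMod R)).erase 0,
      |cN (k * (m : ZMod R)) * kz R r (sk k) / R -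
        Real.cos (2 * π * k.valMinAbs * ((m : ℝ) / R)) * HH ((r : ℝ) / R) k.valMinAbs.natAbs| ≤
      1300 / (R : ℝ) ^ 2 * ((k.valMinAbs.natAbs : ℝ) *
        exp (-((r : ℝ) / R * k.valMinAbs.natAbs / 4))) := by
    intro k hk
    rw [cN_mul_int, mul_div_assoc, ← mul_sub, abs_mul]
    have h2 := kz_core (Finset.mem_erase.1 hk).1 hr
    have h3 : |Real.cos (2 * π * k.valMinAbs * ((m : ℝ) / R))| ≤ 1 := Real.abs_cos_le_one _
    calc _ ≤ 1 * (1300 * k.valMinAbs.natAbs / (R : ℝ) ^ 2 *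
          exp (-((r : ℝ) / R * k.valMinAbs.natAbs / 4))) :=
          mul_le_mul h3 h2 (abs_nonneg _) zero_le_one
      _ = _ := by ring
  refine (Finset.sum_le_sum h1).trans ?_
  rw [← Finset.mul_sum]
  have hρ0 : 0 < (r : ℝ) / R := by positivity
  have hρ1 : (r : ℝ) / R ≤ 1 := by
    rw [div_le_one hR]; linarith
  refine (mul_le_mul_of_nonneg_left (sum_err hρ0 hρ1) (by positivity)).trans (le_of_eq ?_)
  field_simp
  norm_num

lemma HH_le {ρ : ℝ} (h0 : 0 ≤ ρ) (h1 : ρ ≤ 1 / 2) {j : ℕ} (hj : 1 ≤ j) :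
    0 ≤ HH ρ j ∧ HH ρ j ≤ exp (-(ρ * j / 4)) / j := by
  have hpi := Real.pi_gt_three
  have hj1 : (1 : ℝ) ≤ j := by exact_mod_cast hj
  have hjW : (j : ℝ) ≤ 2 * π * j := by nlinarith
  obtain ⟨a1, a2⟩ := hh_le h0 h1 hj1 hjW
  refine ⟨div_nonneg a1 (by positivity), ?_⟩
  unfold HH
  have a3 : exp (-(ρ * j)) ≤ exp (-(ρ * j / 4)) :=
    Real.exp_le_exp.2 (by nlinarith [mul_nonneg h0 (by linarith : (0 : ℝ) ≤ j)])
  have a4 := Real.exp_pos (-(ρ * (j : ℝ) / 4))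
  rw [div_le_div_iff₀ (by positivity) (by positivity)]
  have a5 : hh ρ (2 * π * j) ≤ 4 * exp (-(ρ * j / 4)) := by linarith
  calc hh ρ (2 * π * j) * j ≤ 4 * exp (-(ρ * j / 4)) * j :=
        mul_le_mul_of_nonneg_right a5 (by linarith)
    _ = exp (-(ρ * j / 4)) * (4 * j) := by ring
    _ ≤ exp (-(ρ * j / 4)) * (2 * (2 * π * j)) := by
        refine mul_le_mul_of_nonneg_left ?_ a4.le
        nlinarith

end

section

variable {N : ℕ} [NeZero N] {M : ℕ} [NeZero M]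

lemma JJ_sub : JJ N ⊆ JJ (M * N) := by
  intro v hv
  unfold JJ at *
  rw [Finset.mem_filter, Finset.mem_Icc] at *
  have h1 : (N : ℤ) ≤ ((M * N : ℕ) : ℤ) := by
    exact_mod_cast Nat.le_mul_of_pos_left N (NeZero.pos M)
  omega

theorem Sf_sub (μ : ℝ) {ρ : ℝ} (h0 : 0 < ρ) (h1 : ρ ≤ 1 / 2) :
    |Sf (M * N) μ ρ - Sf N μ ρ| ≤ 800 / (N * ρ) ^ 2 := by
  classical
  have hN : (0 : ℝ) < N := Nat.cast_pos.2 (NeZero.pos N)
  set F : ℤ → ℝ := fun v => Real.cos (2 * π * v * μ) * HH ρ v.natAbs with hF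
  set g : ℤ → ℝ := fun v => (v.natAbs : ℝ) * exp (-(ρ * v.natAbs / 4)) with hg
  have e1 : Sf (M * N) μ ρ = ∑ v ∈ JJ (M * N), F v := sum_JJ F
  have e2 : Sf N μ ρ = ∑ v ∈ JJ N, F v := sum_JJ F
  rw [e1, e2, ← Finset.sum_sdiff (JJ_sub (N := N) (M := M)), add_sub_cancel_right]
  refine (Finset.abs_sum_le_sum_abs _ _).trans ?_
  have h2 : ∀ v ∈ JJ (M * N) \ JJ N, |F v| ≤ 4 / (N : ℝ) ^ 2 * g v := by
    intro v hv
    rw [Finset.mem_sdiff] at hv
    unfold JJ at hv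
    rw [Finset.mem_filter, Finset.mem_filter, Finset.mem_Icc, Finset.mem_Icc] at hv
    have hv0 : v ≠ 0 := hv.1.2.2.2
    have hv1 : (N : ℤ) ≤ 2 * v.natAbs := by omega
    have hv2 : 1 ≤ v.natAbs := by omega
    have hv3 : (N : ℝ) ≤ 2 * (v.natAbs : ℝ) := by exact_mod_cast hv1
    have hv4 : (1 : ℝ) ≤ v.natAbs := by exact_mod_cast hv2
    obtain ⟨a1, a2⟩ := HH_le h0.le h1 hv2
    have a3 := Real.exp_pos (-(ρ * (v.natAbs : ℝ) / 4))
    simp only [hF, hg]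
    rw [abs_mul, abs_of_nonneg a1]
    calc _ ≤ 1 * (exp (-(ρ * v.natAbs / 4)) / v.natAbs) :=
          mul_le_mul (Real.abs_cos_le_one _) a2 a1 zero_le_one
      _ ≤ _ := by
          rw [one_mul, div_mul_eq_mul_div, div_le_div_iff₀ (by positivity) (by positivity)]
          have h5 : (N : ℝ) ^ 2 ≤ 4 * ((v.natAbs : ℝ) * v.natAbs) := by nlinarith
          calc exp (-(ρ * v.natAbs / 4)) * (N : ℝ) ^ 2
              ≤ exp (-(ρ * v.natAbs / 4)) * (4 * ((v.natAbs : ℝ) * v.natAbs)) :=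
                mul_le_mul_of_nonneg_left h5 a3.le
            _ = _ := by ring
  refine (Finset.sum_le_sum h2).trans ?_
  rw [← Finset.mul_sum]
  have h3 : ∑ v ∈ JJ (M * N) \ JJ N, g v ≤ ∑ v ∈ JJ (M * N), g v :=
    Finset.sum_le_sum_of_subset_of_nonneg Finset.sdiff_subset fun v _ _ => by
      simp only [hg]; positivity
  have h4 : ∑ v ∈ JJ (M * N), g v ≤ 200 / ρ ^ 2 := by
    rw [← sum_JJ g]
    exact sum_err h0 (by linarith)
  refine (mul_le_mul_of_nonneg_left (h3.trans h4) (by positivity)).trans (le_of_eq ?_)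
  field_simp
  norm_num

/-! ### the line -/

lemma sum_qn : ∑ n ∈ range N, qn N n = 0 := by
  unfold qn
  rw [Finset.sum_comm]
  refine Finset.sum_eq_zero fun l hl => ?_
  rw [← Finset.sum_div]
  have h1 : ∑ n ∈ range N, cN (l * (n : ZMod N)) = 0 := by
    have h2 := H474.sum_zmod (N := N) (fun n : ℕ => cN (l * (n : ZMod N)))
    rw [← h2]
    have h3 : ∀ j : ZMod N, cN (l * ((j.val : ℕ) : ZMod N)) = cN (j * l) := by
      intro j
      rw [ZMod.natCast_zmod_val, mul_comm]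
    simp_rw [h3]
    rw [H474.sum_cN, if_neg (Finset.mem_erase.1 hl).1]
  rw [h1, zero_div]

lemma qn_eq0 {n : ℕ} (hn : n ≤ N) : qn N n = qn N 0 - n * ((N : ℝ) - n) / 2 := by
  induction n with
  | zero => simp
  | succ n ih =>
    have h1 := qn_diff' (N := N) n hn
    have h2 := ih (by omega)
    push_cast
    linarith

lemma sum_quad (M : ℕ) (N : ℝ) :
    ∑ n ∈ range M, (n : ℝ) * (N - n) / 2 =
      N * ((M : ℝ) * (M - 1)) / 4 - (M : ℝ) * (M - 1) * (2 * M - 1) / 12 := by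
  induction M with
  | zero => simp
  | succ M ih =>
    rw [Finset.sum_range_succ, ih]
    push_cast
    ring

lemma qn_zero : qn N 0 = ((N : ℝ) ^ 2 - 1) / 12 := by
  have hN : (0 : ℝ) < N := Nat.cast_pos.2 (NeZero.pos N)
  have h1 := sum_qn (N := N)
  have h2 : ∑ n ∈ range N, qn N n = ∑ n ∈ range N, (qn N 0 - n * ((N : ℝ) - n) / 2) :=
    Finset.sum_congr rfl fun n hn => qn_eq0 (Finset.mem_range.1 hn).le
  rw [h2, Finset.sum_sub_distrib, Finset.sum_const, Finset.card_range, nsmul_eq_mul,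
    sum_quad] at h1
  have h3 : (N : ℝ) * qn N 0 = N * (((N : ℝ) ^ 2 - 1) / 12) := by linarith
  exact mul_left_cancel₀ hN.ne' h3

lemma qn_eq {n : ℕ} (hn : n ≤ N) :
    qn N n = ((N : ℝ) ^ 2 - 1) / 12 - n * ((N : ℝ) - n) / 2 := by
  rw [qn_eq0 hn, qn_zero]

lemma qn_scale {n : ℕ} (hn : n ≤ N) :
    |qn (M * N) (M * n) / ((M * N : ℕ) : ℝ) ^ 2 - qn N n / (N : ℝ) ^ 2| ≤ 1 / (N : ℝ) ^ 2 := by
  have hN : (0 : ℝ) < N := Nat.cast_pos.2 (NeZero.pos N)
  have hM : (0 : ℝ) < M := Nat.cast_pos.2 (NeZero.pos M)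
  have hM1 : (1 : ℝ) ≤ M := by exact_mod_cast (NeZero.one_le (n := M))
  rw [qn_eq hn, qn_eq (Nat.mul_le_mul_left M hn)]
  push_cast
  have e : (((M : ℝ) * N) ^ 2 - 1) / 12 - M * n * ((M : ℝ) * N - M * n) / 2 =
      (M : ℝ) ^ 2 * (((N : ℝ) ^ 2 - 1) / 12 - n * ((N : ℝ) - n) / 2) + ((M : ℝ) ^ 2 - 1) / 12 := by
    ring
  rw [e, mul_pow]
  set Q : ℝ := ((N : ℝ) ^ 2 - 1) / 12 - n * ((N : ℝ) - n) / 2
  have e2 : ((M : ℝ) ^ 2 * Q + ((M : ℝ) ^ 2 - 1) / 12) / ((M : ℝ) ^ 2 * (N : ℝ) ^ 2) -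
      Q / (N : ℝ) ^ 2 = (1 - 1 / (M : ℝ) ^ 2) / 12 / (N : ℝ) ^ 2 := by
    field_simp
    ring
  rw [e2, abs_div, abs_of_pos (by positivity : (0 : ℝ) < (N : ℝ) ^ 2)]
  refine div_le_div_of_nonneg_right ?_ (by positivity)
  have h1 : 1 / (M : ℝ) ^ 2 ≤ 1 := by
    rw [div_le_one (by positivity)]
    nlinarith
  have h2 : 0 < 1 / (M : ℝ) ^ 2 := by positivity
  rw [abs_le]
  constructor <;> linarith

/-- refinement, in coordinates -/
theorem G0_refine (m : ℤ) {n : ℕ} (hn1 : 1 ≤ n) (hn : 2 * n ≤ N) :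
    |G0 (((M * m : ℤ) : ZMod (M * N)), ((M * n : ℕ) : ZMod (M * N))) -
      G0 ((m : ZMod N), (n : ZMod N))| ≤ 600000 / (n : ℝ) ^ 2 := by
  have hN : (0 : ℝ) < N := Nat.cast_pos.2 (NeZero.pos N)
  have hM : (0 : ℝ) < M := Nat.cast_pos.2 (NeZero.pos M)
  have hM1 : (1 : ℝ) ≤ M := by exact_mod_cast (NeZero.one_le (n := M))
  have hn0 : (0 : ℝ) < n := by exact_mod_cast hn1
  have hn' : 2 * (n : ℝ) ≤ N := by exact_mod_cast hn
  have hMn1 : 1 ≤ M * n := Nat.mul_pos (NeZero.pos M) hn1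
  have hMn : 2 * (M * n) ≤ M * N := by
    calc 2 * (M * n) = M * (2 * n) := by ring
      _ ≤ M * N := Nat.mul_le_mul_left M hn
  rw [G0_eq _ (by omega : n ≤ N), G0_eq _ (by omega : M * n ≤ M * N)]
  have a1 := An_sub (R := N) m hn1 hn
  have a2 := An_sub (R := M * N) (M * m) hMn1 hMn
  have e1 : (((M : ℤ) * m : ℤ) : ℝ) / ((M * N : ℕ) : ℝ) = (m : ℝ) / N := by
    push_cast
    field_simp
  have e2 : ((M * n : ℕ) : ℝ) / ((M * N : ℕ) : ℝ) = (n : ℝ) / N := by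
    push_cast
    field_simp
  rw [e1, e2] at a2
  have a3 := Sf_sub (M := M) (N := N) ((m : ℝ) / N) (ρ := (n : ℝ) / N) (by positivity)
    (by rw [div_le_iff₀ hN]; linarith)
  have a4 := qn_scale (M := M) (by omega : n ≤ N)
  have e3 : (N : ℝ) * ((n : ℝ) / N) = n := by field_simp
  rw [e3] at a3
  have b2 : 260000 / ((M * n : ℕ) : ℝ) ^ 2 ≤ 260000 / (n : ℝ) ^ 2 := by
    refine div_le_div_of_nonneg_left (by norm_num) (by positivity) ?_
    refine pow_le_pow_left₀ hn0.le ?_ 2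
    push_cast
    nlinarith
  have b4 : 1 / (N : ℝ) ^ 2 ≤ 1 / (n : ℝ) ^ 2 := by
    refine div_le_div_of_nonneg_left (by norm_num) (by positivity) ?_
    exact pow_le_pow_left₀ hn0.le (by linarith) 2
  have e4 : ∀ A B A' B' S S' : ℝ, A' + B' - (A + B) = (A' - S') + (S' - S) + (B' - B) - (A - S) :=
    fun A B A' B' S S' => by ring
  rw [e4 _ _ _ _ (Sf N ((m : ℝ) / N) ((n : ℝ) / N)) (Sf (M * N) ((m : ℝ) / N) ((n : ℝ) / N))]
  refine (abs_sub _ _).trans ((add_le_add ((abs_add_three _ _ _).trans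
    (add_le_add (add_le_add a2 a3) a4)) a1).trans ?_)
  have e5 : 600000 / (n : ℝ) ^ 2 = 260000 / (n : ℝ) ^ 2 + 800 / (n : ℝ) ^ 2 + 1 / (n : ℝ) ^ 2 +
      260000 / (n : ℝ) ^ 2 + 79199 / (n : ℝ) ^ 2 := by ring
  have e6 : 0 < 79199 / (n : ℝ) ^ 2 := by positivity
  linarith

end

end

end Vale.Agent.P159.H817
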