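import Vale.Agent.P159.H789.StG

/-!
P159 (helper817), domination of the transported cell source, split class, part 1: the matrices.

The class `LM k C` of helper789 asks for the same constant in `l²` and in the energy.  A map with one
far mean, `f ↦ a (f - m_p f)`, has a good energy constant but a bad constant in `l²`.  The split
class `LS` is enough for the domination when the prior mass is small:

* `LS k q kI C C₁ C₂` : `C = C₁ + C₂` kills the constants, `|C₁ f|² ≤ k |f|²`,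
  `E (C₂ f) ≤ q |f|²`, `E (C f) ≤ k E f`, `|C f|², |C₂ f|² ≤ kI |f|²`;
* `cs_res`  : the Cauchy Schwarz inequality of the resolvent;
* `LS.far_T`, `LS.res` : the two bounds of the transpose;
* `LS.dom` : `<Cᵀ v, Sgn Cᵀ v> ≤ K <v, Sgn v>` for small prior masses;
* `dom_site2` : the same on the sites, eventually in the prior mass.
-/

set_option linter.unusedSectionVars false

namespace Vale.Agent.P159.H817.Dm

open Finset Matrix MeasureTheory Filter Topology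
open Vale.Agent.P159.TM.H764 (EE)
open Vale.Agent.P159.H37
open Vale.Agent.P159.TM.Spec (V)
open Vale.Agent.P159.H864 (TI sym lapM ti_lapM cobV l_pos)
open Vale.Agent.P159.H963 (Neu pin Pn nwt nMC obsN Gnc PinC)
open Vale.Agent.P159.H859 (Sgn Rk sq qd As)
open Vale.Agent.P159.H447
open Vale.Agent.P159.H789 (Gam up1 Sgn_low2 neu_CN CN_CNt)

noncomputable section

section mat

variable {M : ℕ} [NeZero M]

/-- the split class -/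
structure LS (k q kI : ℝ) (C C₁ C₂ : Matrix (V M) (V M) ℝ) : Prop where
  sum : C = C₁ + C₂
  one : C *ᵥ (fun _ => (1 : ℝ)) = 0
  op : ∀ f : V M → ℝ, ∑ x, (C₁ *ᵥ f) x ^ 2 ≤ k * ∑ x, f x ^ 2
  far : ∀ f : V M → ℝ, qf lapM (C₂ *ᵥ f) ≤ q * ∑ x, f x ^ 2
  en : ∀ f : V M → ℝ, qf lapM (C *ᵥ f) ≤ k * qf lapM f
  cr : ∀ f : V M → ℝ, ∑ x, (C *ᵥ f) x ^ 2 ≤ kI * ∑ x, f x ^ 2
  cr2 : ∀ f : V M → ℝ, ∑ x, (C₂ *ᵥ f) x ^ 2 ≤ kI * ∑ x, f x ^ 2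

lemma lap_nonneg (g : V M → ℝ) : 0 ≤ qf lapM g := by
  rw [H864.qf_lapM]
  unfold TM.H764.grd
  exact add_nonneg (TM.H764.Q_nonneg _ _) (TM.H764.Q_nonneg _ _)

lemma dot_self (u : V M → ℝ) : u ⬝ᵥ u = ∑ i, u i ^ 2 := by
  unfold dotProduct
  exact Finset.sum_congr rfl fun i _ => by ring

lemma op_dot (s κ : ℝ) (g : V M → ℝ) :
    g ⬝ᵥ ((s • (1 : Matrix (V M) (V M) ℝ) + κ • lapM) *ᵥ g) =
      s * ∑ i, g i ^ 2 + κ * qf lapM g := by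
  rw [add_mulVec, smul_mulVec, smul_mulVec, one_mulVec, dotProduct_add, dotProduct_smul,
    dotProduct_smul, smul_eq_mul, smul_eq_mul, qf_eq, dot_self]

lemma qf_Rk_nonneg {s κ : ℝ} (hs : 0 < s) (hκ : 0 ≤ κ) (v : V M → ℝ) : 0 ≤ qf (Rk s κ) v := by
  have h := op_dot s κ (Rk s κ *ᵥ v)
  rw [mulVec_mulVec, H859.op_mul_Rk hs hκ, one_mulVec, dotProduct_comm, ← qf_eq] at h
  rw [h]
  exact add_nonneg (mul_nonneg hs.le (Finset.sum_nonneg fun i _ => sq_nonneg _))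
    (mul_nonneg hκ (lap_nonneg _))

/-- **Cauchy Schwarz** of the resolvent -/
lemma cs_res {s κ : ℝ} (hs : 0 < s) (hκ : 0 ≤ κ) (v g : V M → ℝ) :
    (v ⬝ᵥ g) ^ 2 ≤ qf (Rk s κ) v * (s * ∑ i, g i ^ 2 + κ * qf lapM g) := by
  obtain ⟨w, hw⟩ : ∃ w, w = Rk s κ *ᵥ v := ⟨_, rfl⟩
  obtain ⟨A, hA⟩ : ∃ A : Matrix (V M) (V M) ℝ,
    A = s • (1 : Matrix (V M) (V M) ℝ) + κ • lapM := ⟨_, rfl⟩
  have hw1 : A *ᵥ w = v := by
    rw [hA, hw, mulVec_mulVec, H859.op_mul_Rk hs hκ, one_mulVec]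
  have ey : qf (Rk s κ) v = w ⬝ᵥ v := by
    rw [qf_eq, ← hw, dotProduct_comm]
  have hsymm : Aᵀ = A := by
    rw [hA]
    exact (H859.ti_op s κ).transpose
  have hpsd : ∀ h : V M → ℝ, 0 ≤ h ⬝ᵥ (A *ᵥ h) := fun h => by
    rw [hA, op_dot]
    exact add_nonneg (mul_nonneg hs.le (Finset.sum_nonneg fun i _ => sq_nonneg _))
      (mul_nonneg hκ (lap_nonneg h))
  rw [ey, ← op_dot s κ g, ← hA]
  have h1 : ∀ r : ℝ, 0 ≤ (w ⬝ᵥ v) * (r * r) + (-2 * (v ⬝ᵥ g)) * r + g ⬝ᵥ (A *ᵥ g) := by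
    intro r
    have h2 := hpsd (g - r • w)
    have e : (g - r • w) ⬝ᵥ (A *ᵥ (g - r • w)) =
        (w ⬝ᵥ v) * (r * r) + (-2 * (v ⬝ᵥ g)) * r + g ⬝ᵥ (A *ᵥ g) := by
      rw [mulVec_sub, mulVec_smul, hw1, sub_dotProduct, dotProduct_sub, dotProduct_sub,
        smul_dotProduct, smul_dotProduct, dotProduct_smul, dotProduct_smul]
      have e4 : w ⬝ᵥ (A *ᵥ g) = v ⬝ᵥ g := by
        rw [dotProduct_mulVec, ← Matrix.mulVec_transpose, hsymm, hw1]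
      rw [e4, dotProduct_comm g v]
      simp only [smul_eq_mul]
      ring
    rwa [e] at h2
  have h3 := discrim_le_zero h1
  unfold discrim at h3
  nlinarith

/-- a Poincaré constant -/
lemma poin_ex : ∃ cP : ℝ, 0 ≤ cP ∧ ∀ f : V M → ℝ,
    ∑ x, ((Pn : Matrix (V M) (V M) ℝ) *ᵥ f) x ^ 2 ≤ cP * qf lapM f := by
  refine ⟨∑ k : V M, (EE k)⁻¹, Finset.sum_nonneg fun k _ => inv_nonneg.2 (H462.EE_nonneg k),
    fun f => ?_⟩
  have hPt : (Pn : Matrix (V M) (V M) ℝ)ᵀ = Pn := H963.ti_Pn.transpose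
  have e1 : ∑ x, ((Pn : Matrix (V M) (V M) ℝ) *ᵥ f) x ^ 2 = qf (Pn : Matrix (V M) (V M) ℝ) f := by
    rw [← dot_self, qf_eq, dotProduct_mulVec, ← Matrix.mulVec_transpose, hPt, mulVec_mulVec,
      H963.Pn_mul_Pn, dotProduct_comm]
  rw [e1, ← H864.qf_smul_mat]
  refine (H864.qf_le_iff H963.ti_Pn (ti_lapM.smul _)).2 (fun k => ?_) f
  rw [H963.sym_Pn, H864.sym_smul, H864.sym_lapM]
  split_ifs with hk
  · exact mul_nonneg (Finset.sum_nonneg fun k _ => inv_nonneg.2 (H462.EE_nonneg k))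
      (H462.EE_nonneg k)
  · have h1 : (EE k)⁻¹ ≤ ∑ k : V M, (EE k)⁻¹ :=
      Finset.single_le_sum (f := fun k : V M => (EE k)⁻¹)
        (fun k _ => inv_nonneg.2 (H462.EE_nonneg k)) (Finset.mem_univ k)
    have h2 := H462.EE_pos hk
    calc (1 : ℝ) = (EE k)⁻¹ * EE k := by rw [inv_mul_cancel₀ h2.ne']
      _ ≤ _ := mul_le_mul_of_nonneg_right h1 h2.le

variable {k q kI : ℝ} {C C₁ C₂ : Matrix (V M) (V M) ℝ}

lemma LS.mul_Pn (h : LS k q kI C C₁ C₂) (f : V M → ℝ) : C *ᵥ ((Pn : Matrix (V M) (V M) ℝ) *ᵥ f) =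
    C *ᵥ f := by
  rw [H963.Pn_mulVec]
  have e : (fun x => f x - (∑ y, f y) / Fintype.card (V M)) =
      f - ((∑ y, f y) / Fintype.card (V M)) • (fun _ : V M => (1 : ℝ)) := by
    funext x
    simp
  rw [e, mulVec_sub, mulVec_smul, h.one, smul_zero, sub_zero]

lemma LS.tr_neu (h : LS k q kI C C₁ C₂) (v : V M → ℝ) :
    (Pn : Matrix (V M) (V M) ℝ) *ᵥ (Cᵀ *ᵥ v) = Cᵀ *ᵥ v := by
  refine H963.Pn_of_neu ?_
  unfold H963.Neu
  have h1 : (fun _ : V M => (1 : ℝ)) ⬝ᵥ (Cᵀ *ᵥ v) = 0 := by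
    rw [dotProduct_mulVec, Matrix.vecMul_transpose, h.one, zero_dotProduct]
  unfold dotProduct at h1
  simpa using h1

lemma tr_bound {A : Matrix (V M) (V M) ℝ} {a : ℝ} (ha : 0 ≤ a)
    (h : ∀ f : V M → ℝ, ∑ x, (A *ᵥ f) x ^ 2 ≤ a * ∑ x, f x ^ 2) (v : V M → ℝ) :
    ∑ x, (Aᵀ *ᵥ v) x ^ 2 ≤ a * ∑ x, v x ^ 2 := by
  obtain ⟨u, hu⟩ : ∃ u, u = Aᵀ *ᵥ v := ⟨_, rfl⟩
  rw [← hu]
  have e1 : u ⬝ᵥ u = v ⬝ᵥ (A *ᵥ u) := by
    nth_rw 1 [hu]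
    rw [Matrix.mulVec_transpose, ← Matrix.dotProduct_mulVec]
  have h1 := h u
  have h2 : (v ⬝ᵥ (A *ᵥ u)) ^ 2 ≤ (∑ x, v x ^ 2) * ∑ x, (A *ᵥ u) x ^ 2 := by
    unfold dotProduct
    exact Finset.sum_mul_sq_le_sq_mul_sq _ _ _
  rw [← e1, dot_self] at h2
  have h3 : 0 ≤ ∑ x, v x ^ 2 := Finset.sum_nonneg fun _ _ => sq_nonneg _
  have h4 : 0 ≤ ∑ x, u x ^ 2 := Finset.sum_nonneg fun _ _ => sq_nonneg _
  rcases h4.eq_or_lt with h5 | h5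
  · rw [← h5]
    exact mul_nonneg ha h3
  · have h6 : (∑ x, u x ^ 2) * (∑ x, u x ^ 2) ≤ (a * ∑ x, v x ^ 2) * ∑ x, u x ^ 2 := by
      calc (∑ x, u x ^ 2) * (∑ x, u x ^ 2) = (∑ x, u x ^ 2) ^ 2 := by ring
        _ ≤ _ := h2
        _ ≤ (∑ x, v x ^ 2) * (a * ∑ x, u x ^ 2) := mul_le_mul_of_nonneg_left h1 h3
        _ = _ := by ring
    exact le_of_mul_le_mul_right h6 h5

/-- the far part against the resolvent -/
lemma LS.far_T (h : LS k q kI C C₁ C₂) (hq : 0 ≤ q) (hkI : 0 ≤ kI) {s κ : ℝ} (hs : 0 < s)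
    (hκ : 0 ≤ κ) (v : V M → ℝ) :
    ∑ x, (C₂ᵀ *ᵥ v) x ^ 2 ≤ (s * kI + κ * q) * qf (Rk s κ) v := by
  obtain ⟨u, hu⟩ : ∃ u, u = C₂ᵀ *ᵥ v := ⟨_, rfl⟩
  rw [← hu]
  have e1 : u ⬝ᵥ u = v ⬝ᵥ (C₂ *ᵥ u) := by
    nth_rw 1 [hu]
    rw [Matrix.mulVec_transpose, ← Matrix.dotProduct_mulVec]
  have h1 := cs_res hs hκ v (C₂ *ᵥ u)
  rw [← e1, dot_self] at h1
  have h2 := h.far u
  have h3 := h.cr2 u
  have hy := qf_Rk_nonneg hs hκ v
  have h4 : 0 ≤ ∑ x, u x ^ 2 := Finset.sum_nonneg fun _ _ => sq_nonneg _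
  rcases h4.eq_or_lt with h5 | h5
  · rw [← h5]
    have := add_nonneg (mul_nonneg hs.le hkI) (mul_nonneg hκ hq)
    exact mul_nonneg this hy
  · have h6 : s * ∑ i, (C₂ *ᵥ u) i ^ 2 + κ * qf lapM (C₂ *ᵥ u) ≤
        (s * kI + κ * q) * ∑ x, u x ^ 2 := by
      have a1 := mul_le_mul_of_nonneg_left h3 hs.le
      have a2 := mul_le_mul_of_nonneg_left h2 hκ
      linarith
    have h7 : (∑ x, u x ^ 2) * (∑ x, u x ^ 2) ≤
        ((s * kI + κ * q) * qf (Rk s κ) v) * ∑ x, u x ^ 2 := by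
      calc (∑ x, u x ^ 2) * (∑ x, u x ^ 2) = (∑ x, u x ^ 2) ^ 2 := by ring
        _ ≤ _ := h1
        _ ≤ qf (Rk s κ) v * ((s * kI + κ * q) * ∑ x, u x ^ 2) :=
          mul_le_mul_of_nonneg_left h6 hy
        _ = _ := by ring
    exact le_of_mul_le_mul_right h7 h5

/-- **duality of the resolvents**, small prior mass -/
lemma LS.res (h : LS k q kI C C₁ C₂) (hk : 0 ≤ k) (hkI : 0 ≤ kI) {cP : ℝ}
    (hP : ∀ f : V M → ℝ, ∑ x, ((Pn : Matrix (V M) (V M) ℝ) *ᵥ f) x ^ 2 ≤ cP * qf lapM f)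
    {s κ₁ κ₂ m : ℝ} (hs : 0 < s) (h1 : 0 < κ₁) (h2 : 0 ≤ κ₂) (hm : κ₂ ≤ m * κ₁)
    (hsm : s * kI * cP ≤ κ₁) (v : V M → ℝ) :
    qf (Rk s κ₁) (Cᵀ *ᵥ v) ≤ (1 + k * m) * qf (Rk s κ₂) v := by
  obtain ⟨u, hu⟩ : ∃ u, u = Cᵀ *ᵥ v := ⟨_, rfl⟩
  rw [← hu]
  obtain ⟨f, hf⟩ : ∃ f, f = Rk s κ₁ *ᵥ u := ⟨_, rfl⟩
  have hf1 : (s • (1 : Matrix (V M) (V M) ℝ) + κ₁ • lapM) *ᵥ f = u := by
    rw [hf, mulVec_mulVec, H859.op_mul_Rk hs h1.le, one_mulVec]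
  have ex : qf (Rk s κ₁) u = f ⬝ᵥ u := by
    rw [qf_eq, ← hf, dotProduct_comm]
  have e1 : f ⬝ᵥ u = v ⬝ᵥ (C *ᵥ f) := by
    rw [dotProduct_comm, hu, Matrix.mulVec_transpose, ← Matrix.dotProduct_mulVec]
  have e2 : f ⬝ᵥ u = s * ∑ i, f i ^ 2 + κ₁ * qf lapM f := by
    rw [← op_dot s κ₁ f, hf1]
  have hlap := lap_nonneg f
  have hE : κ₁ * qf lapM f ≤ f ⬝ᵥ u := by
    rw [e2]
    have : 0 ≤ s * ∑ i, f i ^ 2 :=
      mul_nonneg hs.le (Finset.sum_nonneg fun i _ => sq_nonneg _)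
    linarith
  have h3 := cs_res hs h2 v (C *ᵥ f)
  rw [← e1] at h3
  have h4 : s * ∑ i, (C *ᵥ f) i ^ 2 ≤ κ₁ * qf lapM f := by
    have a1 := h.cr ((Pn : Matrix (V M) (V M) ℝ) *ᵥ f)
    rw [h.mul_Pn] at a1
    have a2 := hP f
    calc s * ∑ i, (C *ᵥ f) i ^ 2 ≤ s * (kI * ∑ x, ((Pn : Matrix (V M) (V M) ℝ) *ᵥ f) x ^ 2) :=
          mul_le_mul_of_nonneg_left a1 hs.le
      _ ≤ s * (kI * (cP * qf lapM f)) :=
          mul_le_mul_of_nonneg_left (mul_le_mul_of_nonneg_left a2 hkI) hs.le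
      _ = (s * kI * cP) * qf lapM f := by ring
      _ ≤ κ₁ * qf lapM f := mul_le_mul_of_nonneg_right hsm hlap
  have h5 : κ₂ * qf lapM (C *ᵥ f) ≤ (k * m) * (κ₁ * qf lapM f) := by
    have a1 := h.en f
    have a3 : 0 ≤ k * qf lapM f := mul_nonneg hk hlap
    calc κ₂ * qf lapM (C *ᵥ f) ≤ κ₂ * (k * qf lapM f) := mul_le_mul_of_nonneg_left a1 h2
      _ ≤ m * κ₁ * (k * qf lapM f) := mul_le_mul_of_nonneg_right hm a3
      _ = _ := by ring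
  have hy := qf_Rk_nonneg hs h2 v
  have hz : 0 ≤ f ⬝ᵥ u := (mul_nonneg h1.le hlap).trans hE
  have hm0 : 0 ≤ m := by
    by_contra hc
    push Not at hc
    have := mul_neg_of_neg_of_pos hc h1
    linarith
  have h6 : s * ∑ i, (C *ᵥ f) i ^ 2 + κ₂ * qf lapM (C *ᵥ f) ≤ (1 + k * m) * (f ⬝ᵥ u) := by
    have a1 : (k * m) * (κ₁ * qf lapM f) ≤ (k * m) * (f ⬝ᵥ u) :=
      mul_le_mul_of_nonneg_left hE (mul_nonneg hk hm0)
    linarith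
  rw [ex]
  rcases hz.eq_or_lt with h7 | h7
  · rw [← h7]
    exact mul_nonneg (by positivity) hy
  · have h8 : (f ⬝ᵥ u) * (f ⬝ᵥ u) ≤ ((1 + k * m) * qf (Rk s κ₂) v) * (f ⬝ᵥ u) := by
      calc (f ⬝ᵥ u) * (f ⬝ᵥ u) = (f ⬝ᵥ u) ^ 2 := by ring
        _ ≤ _ := h3
        _ ≤ qf (Rk s κ₂) v * ((1 + k * m) * (f ⬝ᵥ u)) := mul_le_mul_of_nonneg_left h6 hy
        _ = _ := by ring
    exact le_of_mul_le_mul_right h8 h7

end mat

variable {N l : ℕ} [NeZero N] [NeZero (N / l)] {b T : ℝ}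

/-- the numbers of the domination -/
lemma dom_alg {κ k m y V0 X X1 X2 W A B T s : ℝ} (hk : 0 ≤ k) (hκ : 0 ≤ κ) (hm : 1 ≤ m)
    (hy : 0 ≤ y) (hv0 : 0 ≤ V0) (hTs : 0 < T - s) (hsT : 2 * s ≤ T)
    (h1 : A ≤ (T - s) * X + (T - s) ^ 2 * W) (h3 : W ≤ (1 + k * m) * y)
    (h4 : (T - s) * V0 + (T - s) ^ 2 * y ≤ 2 * B) (h5 : X1 ≤ k * V0)
    (h7 : X2 ≤ (1 + κ * k) * T * y) (h8 : X ≤ 2 * X1 + 2 * X2) :
    A ≤ 2 * (5 + k * (2 + 4 * κ + m)) * B := by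
  have h8' : X ≤ 2 * (k * V0) + 2 * ((1 + κ * k) * T * y) := by linarith
  have p1 : 0 ≤ (T - s) * V0 := mul_nonneg hTs.le hv0
  have p2 : 0 ≤ (T - s) ^ 2 * y := mul_nonneg (sq_nonneg _) hy
  have h9 : (T - s) * X ≤ 2 * k * ((T - s) * V0) + 4 * (1 + κ * k) * ((T - s) ^ 2 * y) := by
    have a1 := mul_le_mul_of_nonneg_left h8' hTs.le
    have a2 : T * ((1 + κ * k) * (T - s) * y) ≤ 2 * (T - s) * ((1 + κ * k) * (T - s) * y) :=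
      mul_le_mul_of_nonneg_right (by linarith) (by positivity)
    have e1 : (T - s) * (2 * (k * V0) + 2 * ((1 + κ * k) * T * y)) =
        2 * k * ((T - s) * V0) + 2 * (T * ((1 + κ * k) * (T - s) * y)) := by ring
    have e2 : 2 * (T - s) * ((1 + κ * k) * (T - s) * y) =
        2 * (1 + κ * k) * ((T - s) ^ 2 * y) := by ring
    rw [e1] at a1
    rw [e2] at a2
    linarith
  have h10 : (T - s) ^ 2 * W ≤ (1 + k * m) * ((T - s) ^ 2 * y) := by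
    calc (T - s) ^ 2 * W ≤ (T - s) ^ 2 * ((1 + k * m) * y) :=
          mul_le_mul_of_nonneg_left h3 (sq_nonneg _)
      _ = _ := by ring
  have hKn : 0 ≤ 5 + k * (2 + 4 * κ + m) := by positivity
  have c1 : 2 * k * ((T - s) * V0) ≤ (5 + k * (2 + 4 * κ + m)) * ((T - s) * V0) := by
    refine mul_le_mul_of_nonneg_right ?_ p1
    have : 0 ≤ k * (4 * κ + m) := by positivity
    linarith
  have c2 : 4 * (1 + κ * k) * ((T - s) ^ 2 * y) + (1 + k * m) * ((T - s) ^ 2 * y) ≤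
      (5 + k * (2 + 4 * κ + m)) * ((T - s) ^ 2 * y) := by
    rw [← add_mul]
    refine mul_le_mul_of_nonneg_right ?_ p2
    have e : 5 + k * (2 + 4 * κ + m) = 4 * (1 + κ * k) + (1 + k * m) + 2 * k := by ring
    rw [e]
    linarith
  have c3 := mul_le_mul_of_nonneg_left h4 hKn
  have e3 : (5 + k * (2 + 4 * κ + m)) * ((T - s) * V0 + (T - s) ^ 2 * y) =
      (5 + k * (2 + 4 * κ + m)) * ((T - s) * V0) +
        (5 + k * (2 + 4 * κ + m)) * ((T - s) ^ 2 * y) := by ring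
  have e4 : (5 + k * (2 + 4 * κ + m)) * (2 * B) = 2 * (5 + k * (2 + 4 * κ + m)) * B := by ring
  rw [e3, e4] at c3
  linarith

/-- **domination of the transported cell source**, split class -/
theorem LS.dom (hb : 0 < b) (hl : l ∣ N) {s : ℝ} (hs : 0 < s) (hsT : 2 * s ≤ T) {κ k q kI cP : ℝ}
    (hκ : 1 ≤ κ) (hP : ∀ q : V (N / l), q ≠ 0 → EE q ≤ T * (l : ℝ) ^ 2 →
      (l : ℝ) ^ 2 * PinC N l b T T q ≤ κ * EE q) {C C₁ C₂ : Matrix (V (N / l)) (V (N / l)) ℝ}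
    (h : LS k q kI C C₁ C₂) (hk : 0 ≤ k) (hq : 0 ≤ q) (hqT : q ≤ k * (T * (l : ℝ) ^ 2))
    (hkI : 0 ≤ kI) (hcP : ∀ f : V (N / l) → ℝ,
      ∑ x, ((Pn : Matrix (V (N / l)) (V (N / l)) ℝ) *ᵥ f) x ^ 2 ≤ cP * qf lapM f)
    (hs1 : s * kI ≤ T) (hs2 : s * kI * cP ≤ 1 / b / (l : ℝ) ^ 2)
    {v : V (N / l) → ℝ} (hv : Neu v) :
    qf (Sgn N l b T s) (Cᵀ *ᵥ v) ≤
      2 * (5 + k * (2 + 4 * κ + max 1 (b * κ))) * qf (Sgn N l b T s) v := by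
  have hsT' : s < T := by linarith
  have hT : 0 < T := hs.trans hsT'
  have hTs : 0 < T - s := sub_pos.2 hsT'
  have hl0 : (0 : ℝ) < l := by exact_mod_cast l_pos hl
  have hd := H859.dat_neu' (N := N) (l := l) hb hl hT
  have hκ0 : 0 < κ := by linarith
  have h1 := hd.up hs hsT' (Cᵀ *ᵥ v)
  have hsq : H859.sq (Cᵀ *ᵥ v) = ∑ x, (Cᵀ *ᵥ v) x ^ 2 := by
    unfold H859.sq dotProduct
    exact Finset.sum_congr rfl fun x _ => by ring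
  rw [hsq] at h1
  have e1 : qd (s • (1 : Matrix (V (N / l)) (V (N / l)) ℝ) +
      (1 / b / (l : ℝ) ^ 2) • lapM)⁻¹ (Cᵀ *ᵥ v) =
      qf (Rk s (1 / b / (l : ℝ) ^ 2)) (Cᵀ *ᵥ v) := by
    rw [H859.qf_qd]
    rfl
  rw [e1] at h1
  have h3 := h.res hk hkI hcP (κ₁ := 1 / b / (l : ℝ) ^ 2) (κ₂ := κ / (l : ℝ) ^ 2)
    (m := max 1 (b * κ)) hs (by positivity) (by positivity) (by
      have h4 : b * κ ≤ max 1 (b * κ) := le_max_right _ _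
      calc κ / (l : ℝ) ^ 2 = (b * κ) * (1 / b / (l : ℝ) ^ 2) := by field_simp
        _ ≤ max 1 (b * κ) * (1 / b / (l : ℝ) ^ 2) :=
          mul_le_mul_of_nonneg_right h4 (by positivity)) hs2 v
  have h4 := Sgn_low2 hb hl hs hsT' hκ hP hv
  have h5 := tr_bound hk h.op v
  have h6 := h.far_T hq hkI hs (κ := κ / (l : ℝ) ^ 2) (by positivity) v
  have hm : (1 : ℝ) ≤ max 1 (b * κ) := le_max_left _ _
  have hy : 0 ≤ qf (Rk s (κ / (l : ℝ) ^ 2)) v := qf_Rk_nonneg hs (by positivity) v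
  have hv0 : 0 ≤ ∑ x, v x ^ 2 := Finset.sum_nonneg fun _ _ => sq_nonneg _
  -- the noise part
  have h7 : ∑ x, (C₂ᵀ *ᵥ v) x ^ 2 ≤ (1 + κ * k) * T * qf (Rk s (κ / (l : ℝ) ^ 2)) v := by
    refine h6.trans (mul_le_mul_of_nonneg_right ?_ hy)
    have a1 : κ / (l : ℝ) ^ 2 * q ≤ κ / (l : ℝ) ^ 2 * (k * (T * (l : ℝ) ^ 2)) :=
      mul_le_mul_of_nonneg_left hqT (by positivity)
    have a2 : κ / (l : ℝ) ^ 2 * (k * (T * (l : ℝ) ^ 2)) = κ * k * T := by field_simp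
    rw [a2] at a1
    linarith
  have h8 : ∑ x, (Cᵀ *ᵥ v) x ^ 2 ≤ 2 * ∑ x, (C₁ᵀ *ᵥ v) x ^ 2 + 2 * ∑ x, (C₂ᵀ *ᵥ v) x ^ 2 := by
    have a1 : Cᵀ *ᵥ v = C₁ᵀ *ᵥ v + C₂ᵀ *ᵥ v := by
      rw [h.sum, transpose_add, add_mulVec]
    rw [Finset.mul_sum, Finset.mul_sum, ← Finset.sum_add_distrib]
    refine Finset.sum_le_sum fun x _ => ?_
    rw [a1, Pi.add_apply]
    nlinarith [sq_nonneg ((C₁ᵀ *ᵥ v) x - (C₂ᵀ *ᵥ v) x)]
  have e2 : qf (Sgn N l b T s) (Cᵀ *ᵥ v) = qd (As (Gnc N l b T T) T s) (Cᵀ *ᵥ v) := by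
    unfold Sgn
    rw [H859.qf_qd]
  exact dom_alg hk hκ0.le hm hy hv0 hTs hsT (e2.trans_le h1) h3 h4 h5 h7 h8

/-- **domination on the sites**, one prior mass -/
theorem LS.dom_s (hb : 0 < b) (hl : l ∣ N) {s : ℝ} (hs : 0 < s) (hsT : 2 * s ≤ T)
    {κ k q kI cP : ℝ}
    (hκ : 1 ≤ κ) (hP : ∀ q : V (N / l), q ≠ 0 → EE q ≤ T * (l : ℝ) ^ 2 →
      (l : ℝ) ^ 2 * PinC N l b T T q ≤ κ * EE q) {C C₁ C₂ : Matrix (V (N / l)) (V (N / l)) ℝ}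
    (h : LS k q kI C C₁ C₂) (hk : 0 ≤ k) (hq : 0 ≤ q) (hqT : q ≤ k * (T * (l : ℝ) ^ 2))
    (hkI : 0 ≤ kI) (hcP : ∀ f : V (N / l) → ℝ,
      ∑ x, ((Pn : Matrix (V (N / l)) (V (N / l)) ℝ) *ᵥ f) x ^ 2 ≤ cP * qf lapM f)
    (hs1 : s * kI ≤ T) (hs2 : s * kI * cP ≤ 1 / b / (l : ℝ) ^ 2) :
    ((2 * (5 + k * (2 + 4 * κ + max 1 (b * κ)))) • Gam N l b T s -
      up1 N l C * Gam N l b T s * (up1 N l C)ᵀ).PosSemidef := by
  have hsT' : s < T := by linarith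
  have hSt : (Sgn N l b T s)ᵀ = Sgn N l b T s :=
    (((TI.one.smul _).sub (H963.ti_Gnc hb.le hl (hs.trans hsT') le_rfl)).inv).transpose
  have hGt : (Gam N l b T s)ᵀ = Gam N l b T s := by
    unfold Gam
    rw [transpose_mul, transpose_mul, transpose_transpose, hSt, Matrix.mul_assoc]
  have qG : ∀ w : V N → ℝ, qf (Gam N l b T s) w = qf (Sgn N l b T s) (CN N l *ᵥ w) := fun w => by
    unfold Gam
    rw [qf_eq, qf_eq, ← mulVec_mulVec, ← mulVec_mulVec, dotProduct_mulVec, Matrix.vecMul_transpose]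
  refine H859.psd_of ?_ fun v => ?_
  · rw [transpose_sub, transpose_smul, hGt, transpose_mul, transpose_mul, transpose_transpose,
      hGt, Matrix.mul_assoc]
  · have e1 : qf (up1 N l C * Gam N l b T s * (up1 N l C)ᵀ) v =
        qf (Gam N l b T s) ((up1 N l C)ᵀ *ᵥ v) := by
      rw [qf_eq, qf_eq, ← mulVec_mulVec, ← mulVec_mulVec, dotProduct_mulVec,
        ← Matrix.mulVec_transpose]
    have hn : Neu (CN N l *ᵥ v) := neu_CN v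
    have e2 : CN N l *ᵥ ((up1 N l C)ᵀ *ᵥ v) = Cᵀ *ᵥ (CN N l *ᵥ v) := by
      unfold up1
      rw [transpose_mul, transpose_mul, transpose_transpose, mulVec_mulVec, ← Matrix.mul_assoc,
        CN_CNt hl, ← mulVec_mulVec, ← mulVec_mulVec, h.tr_neu]
    have h1 := LS.dom hb hl hs hsT hκ hP h hk hq hqT hkI hcP hs1 hs2 hn
    rw [H864.qf_sub_mat, H864.qf_smul_mat, e1, qG, qG, e2]
    linarith

/-- **domination on the sites, eventually in the prior mass** -/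
theorem dom_site2 (hb : 0 < b) (hl : l ∣ N) (hT : 0 < T) {κ k q kI : ℝ}
    (hκ : 1 ≤ κ) (hP : ∀ q : V (N / l), q ≠ 0 → EE q ≤ T * (l : ℝ) ^ 2 →
      (l : ℝ) ^ 2 * PinC N l b T T q ≤ κ * EE q) {C C₁ C₂ : Matrix (V (N / l)) (V (N / l)) ℝ}
    (h : LS k q kI C C₁ C₂) (hk : 0 ≤ k) (hq : 0 ≤ q) (hqT : q ≤ k * (T * (l : ℝ) ^ 2))
    (hkI : 0 ≤ kI) :
    ∀ᶠ s in 𝓝[>] (0 : ℝ), ((2 * (5 + k * (2 + 4 * κ + max 1 (b * κ)))) • Gam N l b T s -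
      up1 N l C * Gam N l b T s * (up1 N l C)ᵀ).PosSemidef := by
  obtain ⟨cP, hcP0, hcP⟩ := poin_ex (M := N / l)
  have hl0 : (0 : ℝ) < l := by exact_mod_cast l_pos hl
  have t1 : Tendsto (fun s : ℝ => 2 * s) (𝓝[>] (0 : ℝ)) (𝓝 (2 * 0)) :=
    (continuous_const.mul continuous_id).continuousWithinAt
  have t2 : Tendsto (fun s : ℝ => s * kI) (𝓝[>] (0 : ℝ)) (𝓝 (0 * kI)) :=
    (continuous_id.mul continuous_const).continuousWithinAt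
  have t3 : Tendsto (fun s : ℝ => s * kI * cP) (𝓝[>] (0 : ℝ)) (𝓝 (0 * kI * cP)) :=
    ((continuous_id.mul continuous_const).mul continuous_const).continuousWithinAt
  rw [mul_zero] at t1
  rw [zero_mul] at t2
  rw [zero_mul, zero_mul] at t3
  have p3 : (0 : ℝ) < 1 / b / (l : ℝ) ^ 2 := by positivity
  filter_upwards [t1.eventually (ge_mem_nhds hT), t2.eventually (ge_mem_nhds hT),
    t3.eventually (ge_mem_nhds p3), self_mem_nhdsWithin] with s a1 a2 a3 a4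
  exact LS.dom_s hb hl a4 a1 hκ hP h hk hq hqT hkI hcP a2 a3

end

end Vale.Agent.P159.H817.Dm
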