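import Vale.Agent.P159.H817.Id9

/-!
P159 / S (helper817): **global smooth real fields.** In the system `SysI` the functional `ρ` is small
at every smooth real field of any support (telescoping over the boxes, corners real); in particular
the nonlinear part `RF` of a global smooth field is small.
-/

set_option linter.unusedSectionVars false

namespace Vale.Agent.P159.H817

open Finset
open Vale.Agent.P159.TM.Spec (V)
open Vale.Agent.P159.TM.H764 (EE)
open Vale.Agent.P159.H963 (Pin)
open Vale.Agent.P159.H37 (qf Rs)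
open Vale.Agent.P159.H963 (Pin Anm nwt)
open Vale.Agent.P159.H963.Core (RF)

noncomputable section

section

variable {N : ℕ} [NeZero N] {l r : ℕ} {Λ ε₂ ε₃ : ℝ} {D0 D1 : Dec} {ρ : (V N × Bool → ℝ) → ℝ}

/-- **simple bumps at a real base** -/
theorem SysI.bumpR (H : SysI N l r Λ ε₂ ε₃ D0 D1 ρ) {g h : V N → ℝ} {s t : ℝ} (hs : 0 ≤ s)
    (ht : 0 ≤ t) (hg : GB (s / l) g) (hh : GB (t / l) h) {w : V N}
    (hw : ∀ x, l ≤ sz (x - w) → h x = 0) (hΛ : 41 * s + t ≤ Λ) :
    |ρ (gr fun x => g x + h x) - ρ (gr g)| ≤ 2 * ε₂ + ε₃ := by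
  have hl4 := H.hl
  have hl0 : 0 < l := by omega
  have hlr := H.hlr
  have hrN := H.hrN
  have hl' : (0 : ℝ) < l := by exact_mod_cast hl0
  set β := gr g with hβ
  have hβb : ∀ x b, sz (x - w) ≤ 5 * l → |β (x, b)| ≤ s / l := fun x b _ => hg (x, b)
  obtain ⟨f, -, hfg, hfb⟩ := box_pot β w (m := 5 * l) (by omega) hβb
    (fun x _ => by rw [hβ, cu_gr])
  have hfb' : ∀ x, sz (x - w) ≤ 5 * l → |f x| ≤ 40 * s := by
    intro x hx
    refine (hfb x hx).trans (le_of_eq ?_)
    push_cast
    field_simp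
    ring
  have hχ : GB (41 * s / l) (fun x => U (3 * l) l (x - w) * f x) := by
    have h2 := GB.cut (w := w) (m := 5 * l) (k := 3 * l) (l := l) (s := s / l) (B := 40 * s)
      (f := f) hl0 (by omega) (by positivity)
      (fun x b hx => by rw [hfg x b hx]; exact hβb x b hx) hfb'
    refine h2.mono (le_of_eq ?_)
    ring
  set F : V N → ℝ := fun x => U (3 * l) l (x - w) * f x with hF
  set W : V N × Bool → ℝ := fun e => β e - gr F e with hW
  have k1 : KK l r Λ D0 D1 (gr F) := KK.real' hχ (by linarith)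
  have k2 : KK l r Λ D0 D1 (fun e => gr F e + gr h e) := by
    have h3 : (fun e => gr F e + gr h e) = gr (fun x => F x + h x) := by
      funext e; rw [gr_add]
    rw [h3]
    refine KK.real' (s := 41 * s + t) ?_ hΛ
    refine (hχ.add hh).mono (le_of_eq ?_)
    ring
  have k3 : KK l r Λ D0 D1 (fun e => gr F e + W e) := by
    have h3 : (fun e => gr F e + W e) = β := by
      funext e; rw [hW]; ring
    rw [h3]
    exact KK.real' hg (by linarith)
  have e4 : (fun e => gr F e + gr h e + W e) = gr (fun x => g x + h x) := by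
    funext e
    rw [gr_add, hW]
    ring
  have k4 : KK l r Λ D0 D1 (fun e => gr F e + gr h e + W e) := by
    rw [e4]
    refine KK.real' (s := s + t) ?_ (by linarith)
    refine (hg.add hh).mono (le_of_eq ?_)
    ring
  have hP : ∀ e : V N × Bool, gr h e ≠ 0 → sz (e.1 - w) ≤ l := by
    rintro ⟨x, b⟩ hx
    by_contra h4
    refine hx ?_
    simp only at h4
    have h5 := (sz_step (x - w) b).1
    rw [gr_eq, hw x (by omega), hw (x + eb b) (by rw [add_sub_right_comm]; omega), sub_self]
  have hWs : ∀ e : V N × Bool, W e ≠ 0 → l + l ≤ sz (e.1 - w) := by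
    rintro ⟨y, c⟩ hy
    by_contra h4
    refine hy ?_
    simp only at h4
    have h5 := (sz_step (y - w) c).2
    have h8 : sz (y + eb c - w) ≤ 3 * l := by rw [add_sub_right_comm]; omega
    have e5 : gr F (y, c) = β (y, c) := by
      rw [← hfg y c (by omega), gr_eq, gr_eq]
      simp only [hF]
      rw [U_one hl0 h8, U_one hl0 (show sz (y - w) ≤ 3 * l by omega)]
      ring
    simp only [hW]
    rw [e5, sub_self]
  have hloc := H.loc w l (gr F) (gr h) W (by omega) k1 k2 k3 k4 hP hWs
  have r1 := H.real F w (hχ.mono (div_le_div_of_nonneg_right (by linarith) hl'.le)) (fun x hx => by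
    simp only [hF]
    rw [U_zero (by omega), zero_mul])
  have r2 := H.real (fun x => F x + h x) w ((hχ.add hh).mono (by
    rw [← add_div]
    exact div_le_div_of_nonneg_right (by linarith) hl'.le)) (fun x hx => by
    simp only [hF]
    rw [U_zero (by omega), zero_mul, hw x (by omega), add_zero])
  have h3 : (fun e => gr F e + gr h e) = gr (fun x => F x + h x) := by
    funext e; rw [gr_add]
  have h5 : (fun e => gr F e + W e) = β := by
    funext e; rw [hW]; ring
  rw [e4, h3, h5] at hloc
  rw [abs_le] at hloc r1 r2 ⊢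
  constructor <;> linarith

/-- **sums of bumps at a real base** -/
theorem SysI.bumpsR (H : SysI N l r Λ ε₂ ε₃ D0 D1 ρ) {g h : V N → ℝ} {s t B : ℝ} (hs : 0 ≤ s)
    (ht : 0 ≤ t) (hB : 0 ≤ B) (hg : GB (s / l) g) (hh : GB (t / l) h) (hb : ∀ x, |h x| ≤ B)
    (hΛ : 42 * (s + t + 72 * B) ≤ Λ) :
    |ρ (gr fun x => g x + h x) - ρ (gr g)| ≤ eB N l ε₂ ε₃ := by
  classical
  have hl4 := H.hl
  have hl0 : 0 < l := by omega
  have hlr := H.hlr
  have hrN := H.hrN
  have hlN : l < N := by omega
  have hl' : (0 : ℝ) < l := by exact_mod_cast hl0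
  have hN := N_pos_real (N := N)
  have hZ := ZT_ge (N := N) hl0 hlN
  have hl4' : (4 : ℝ) ≤ l := by exact_mod_cast hl4
  have hZ1 : 1 ≤ ZT N l := by nlinarith
  have hZ0 : 0 < ZT N l := by linarith
  set ε := 2 * ε₂ + ε₃ with hε
  have hΛ0 : 0 ≤ Λ := by
    have h3 : 0 ≤ 42 * (s + t + 72 * B) := by positivity
    linarith
  have heps := H.eps hΛ0
  -- the partial sums
  have hGB : ∀ S : Finset (V N), GB ((s + t + 72 * B) / l) (fun x => g x + cS l S x * h x) := by
    intro S
    have a1 := GB.mul (cS_GB (N := N) hl4 hlN S) hh (cS_abs hl0 hlN S) hb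
    refine (hg.add a1).mono (le_of_eq ?_)
    ring
  have hbump : ∀ w : V N, GB ((t + B) / l) (fun x => T l (x - w) * h x) := by
    intro w
    have a1 := GB.mul (U_shift_GB (N := N) 0 hl0 w) hh (fun x => abs_U _ _ _) hb
    refine a1.mono (le_of_eq ?_)
    ring
  have key : ∀ (S : Finset (V N)) (w : V N), ∀ σ : ℝ, |σ| ≤ 1 →
      |ρ (gr fun x => (g x + cS l S x * h x) + σ * (T l (x - w) * h x)) -
        ρ (gr fun x => g x + cS l S x * h x)| ≤ ε := by
    intro S w σ hσ
    have hbσ : GB ((t + B) / l) (fun x => σ * (T l (x - w) * h x)) := by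
      refine ((hbump w).smul σ).mono ?_
      have : 0 ≤ (t + B) / l := by positivity
      nlinarith [abs_nonneg σ]
    refine H.bumpR (s := s + t + 72 * B) (t := t + B) (by positivity) (by positivity)
      (hGB S) hbσ (w := w) (fun x hx => ?_) ?_
    · rw [T_zero hx]
      ring
    · linarith
  have step : ∀ (S : Finset (V N)) (w : V N), w ∉ S →
      |ρ (gr fun x => g x + cS l (insert w S) x * h x) -
        ρ (gr fun x => g x + cS l S x * h x)| ≤ 1 / ZT N l * (ε + ε₂) := by
    intro S w hw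
    have kS : KK l r Λ D0 D1 (gr fun x => g x + cS l S x * h x) :=
      KK.real' (hGB S) (by nlinarith)
    have hcv := H.conc _ (fun x => T l (x - w) * h x) w kS
      ((hbump w).mono (div_le_div_of_nonneg_right (by nlinarith) hl'.le))
      (fun x hx => by rw [T_zero (by omega), zero_mul])
    set φ : ℝ → ℝ := fun σ => ρ (fun e => gr (fun x => g x + cS l S x * h x) e +
      σ * gr (fun x => T l (x - w) * h x) e) with hφ
    have hφe : ∀ σ, φ σ = ρ (gr fun x =>
        (g x + cS l S x * h x) + σ * (T l (x - w) * h x)) := by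
      intro σ
      simp only [hφ]
      congr 1
      funext e
      rw [gr_add (fun x => g x + cS l S x * h x) (fun x => σ * (T l (x - w) * h x)), gr_smul]
    have hφ0 : φ 0 = ρ (gr fun x => g x + cS l S x * h x) := by
      rw [hφe]
      congr 2
      funext x
      ring
    have b1 : |φ 1 - φ 0| ≤ ε := by
      rw [hφ0, hφe]
      exact key S w 1 (by simp)
    have b2 : |φ (-1) - φ 0| ≤ ε := by
      rw [hφ0, hφe]
      exact key S w (-1) (by simp)
    have h3 := concave4 (φ := φ) hcv heps.1 b1 b2 (δ := 1 / ZT N l) (by positivity) (by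
      rw [div_le_one hZ0]; exact hZ1)
    rw [hφ0, hφe] at h3
    have e : (fun x => (g x + cS l S x * h x) + 1 / ZT N l * (T l (x - w) * h x)) =
        fun x => g x + cS l (insert w S) x * h x := by
      funext x
      have : cS l (insert w S) x = T l (x - w) / ZT N l + cS l S x := by
        unfold cS
        rw [Finset.sum_insert hw, add_div]
      rw [this]
      ring
    rw [e] at h3
    exact h3
  have main : ∀ S : Finset (V N),
      |ρ (gr fun x => g x + cS l S x * h x) - ρ (gr g)| ≤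
        S.card * (1 / ZT N l * (ε + ε₂)) := by
    intro S
    induction S using Finset.induction_on with
    | empty =>
      have : (fun x : V N => g x + cS l ∅ x * h x) = g := by
        funext x
        unfold cS
        simp
      rw [this]
      simp
    | insert w S hw ih =>
      rw [Finset.card_insert_of_notMem hw]
      have h3 := step S w hw
      push_cast
      have e : ρ (gr fun x => g x + cS l (insert w S) x * h x) - ρ (gr g) =
          (ρ (gr fun x => g x + cS l (insert w S) x * h x) -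
            ρ (gr fun x => g x + cS l S x * h x)) +
          (ρ (gr fun x => g x + cS l S x * h x) - ρ (gr g)) := by ring
      rw [e]
      refine (abs_add_le _ _).trans ?_
      linarith
  have h3 := main univ
  have e : (fun x : V N => g x + cS l univ x * h x) = fun x => g x + h x := by
    funext x
    rw [cS_univ hl0 hlN, one_mul]
  rw [e, Finset.card_univ, card_VN] at h3
  refine h3.trans ?_
  unfold eB
  have hε0 : 0 ≤ ε + ε₂ := by
    rw [hε]
    linarith [heps.1, heps.2]
  have hε3 : 3 * ε₂ + ε₃ = ε + ε₂ := by rw [hε]; ring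
  rw [← mul_assoc, hε3]
  refine mul_le_mul_of_nonneg_right ?_ hε0
  rw [mul_one_div, div_pow, div_le_iff₀ hZ0, mul_comm (8 * ((N : ℝ) ^ 2 / (l : ℝ) ^ 2))]
  calc (N : ℝ) ^ 2 = (l : ℝ) ^ 2 / 8 * (8 * ((N : ℝ) ^ 2 / (l : ℝ) ^ 2)) := by field_simp
    _ ≤ _ := mul_le_mul_of_nonneg_right hZ (by positivity)

/-- **a global smooth real field** (bounded up to a constant `c`) -/
theorem SysI.glob (H : SysI N l r Λ ε₂ ε₃ D0 D1 ρ) {F : V N → ℝ} {s B c : ℝ} (hs : 0 ≤ s)
    (hF : GB (s / l) F) (hb : ∀ x, |F x - c| ≤ B) (hΛ : 42 * (s + 72 * B) ≤ Λ) :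
    |ρ (gr F)| ≤ eB N l ε₂ ε₃ + ε₂ := by
  have hB : 0 ≤ B := (abs_nonneg _).trans (hb 0)
  have hl4 := H.hl
  have hl' : (0 : ℝ) < l := by exact_mod_cast (by omega : 0 < l)
  have hΛ0 : 0 ≤ Λ := by
    have h3 : 0 ≤ 42 * (s + 72 * B) := by positivity
    linarith
  have hF' : GB (s / l) (fun x => F x - c) := by
    intro e
    have h1 := hF e
    obtain ⟨x, d⟩ := e
    rw [gr_eq] at h1 ⊢
    have e1 : F (x + eb d) - c - (F x - c) = F (x + eb d) - F x := by ring
    rw [e1]
    exact h1
  have h1 := H.bumpsR (g := fun _ => 0) (h := fun x => F x - c) (s := 0) (t := s) (B := B) le_rfl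
    hs hB (by rw [zero_div]; exact GB.zero le_rfl) hF' hb (by linarith)
  have h2 := H.real (fun _ => 0) 0 (GB.zero (by positivity)) (fun _ _ => rfl)
  have e : gr (fun x => 0 + (F x - c)) = gr F := by
    funext ⟨x, d⟩
    rw [gr_eq, gr_eq]
    ring
  rw [e] at h1
  rw [abs_le] at h1 h2 ⊢
  constructor <;> linarith [h1.1, h1.2, h2.1, h2.2]

end

section

variable {N : ℕ} [NeZero N] {b t a η : ℝ} {n l r : ℕ} {Λ ε₂ ε₃ : ℝ} {D0 D1 : Dec}

/-- **the nonlinear part of a global smooth real field** -/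
theorem RF_glob (hb : 0 < b) (ht : 0 < t) (ha : 0 < a) (hη : 0 ≤ η) (hn : 1 ≤ n)
    (H : SysI N l r Λ ε₂ ε₃ D0 D1 (rh N b t a n))
    (hP : ∀ k : V N, k ≠ 0 → |Pin N b t k - a * EE k| ≤ η * EE k * (1 + EE k / t))
    {F : V N → ℝ} {s B c : ℝ} (hs : 0 ≤ s) (hF : GB (s / l) F) (hF' : ∀ x, |F x - c| ≤ B)
    (hΛ : 42 * (s + 72 * B) ≤ Λ) :
    RF N b t F ≤ eB N l ε₂ ε₃ + ε₂ + kap0 a t η n * nrm (gr F) / 2 := by
  have h1 := (abs_le.1 (H.glob hs hF hF' hΛ)).1
  have h2 := (abs_le.1 (flat_qf hb ht ha hη hn hP F)).2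
  have h3 := EZ_gr (N := N) hb ht F
  unfold rh at h1
  unfold Vale.Agent.P159.H963.Core.RF
  rw [h3] at h1
  linarith

end

end

end Vale.Agent.P159.H817
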