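import Vale.Agent.P159.H817.Id1

/-!
P159 / module STATG-IDEAL (helper817), part 2: PLATEAU. Smooth changes which are constant near the
cores of an ideal pair cost nothing.
-/

set_option linter.unusedSectionVars false

namespace Vale.Agent.P159.H817

open Finset
open Vale.Agent.P159.TM.Spec (V)

noncomputable section

section

variable {N : ℕ} [NeZero N] {b0 : ℤ → ℤ → Bool → ℝ}

/-! ### the near field -/

lemma Idl.mono {m m' : ℕ} {p q : V N} {g : V N → ℝ} (h : Idl b0 m p q g) (hm : m' ≤ m) :
    Idl b0 m' p q g :=
  ⟨fun e he => h.at0 e (he.trans hm), fun e he => h.at1 e (he.trans hm)⟩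

lemma nf_shift (p a x : V N) (b : Bool) : nf b0 (p + a) (x + a, b) = nf b0 p (x, b) := by
  unfold nf
  simp only [add_sub_add_right_eq_sub]

lemma Idl.neg {m : ℕ} {p q : V N} (hpq : 2 * sz (q - p) < N) {g : V N → ℝ}
    (h : Idl b0 m p q g) : Idl b0 m q p (fun x => -g x) := by
  constructor
  · intro e he
    have h1 := h.at1 e he
    rw [bD_neg hpq, gr_neg]
    linarith
  · intro e he
    have h1 := h.at0 e he
    rw [bD_neg hpq, gr_neg]
    linarith

lemma Idl.shift {m : ℕ} {p q : V N} {g : V N → ℝ} (h : Idl b0 m p q g) (a : V N) :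
    Idl b0 m (p + a) (q + a) (fun x => g (x - a)) := by
  have key : ∀ (x : V N) (b : Bool), bD (p + a) (q + a) (x, b) + gr (fun x => g (x - a)) (x, b) =
      bD p q (x - a, b) + gr g (x - a, b) := by
    intro x b
    have e : x = x - a + a := by abel
    conv_lhs => rw [e]
    rw [bD_shift, gr_shift]
  constructor
  · rintro ⟨x, b⟩ he
    rw [key]
    have h1 := h.at0 (x - a, b) (by
      show sz (x - a - p) ≤ m
      have : x - a - p = x - (p + a) := by abel
      rw [this]
      exact he)
    rw [h1]
    have e : x = x - a + a := by abel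
    conv_rhs => rw [e]
    rw [nf_shift]
  · rintro ⟨x, b⟩ he
    rw [key]
    have h1 := h.at1 (x - a, b) (by
      show sz (x - a - q) ≤ m
      have : x - a - q = x - (q + a) := by abel
      rw [this]
      exact he)
    rw [h1]
    have e : x = x - a + a := by abel
    conv_rhs => rw [e]
    rw [nf_shift]

/-- the near field under the reflection -/
lemma nf_Rf {m : ℕ} (hR : RefB b0 m) (hm : 2 * m + 4 < N) {p : V N} (e : V N × Bool)
    (he : sz (e.1 - sF p) ≤ m) : Rf (nf b0 p) e = -nf b0 (sF p) e := by
  obtain ⟨x, b⟩ := e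
  simp only at he
  set z := x - sF p with hz
  have e1 : sR x - p = sR z + e2 := by
    rw [hz]
    unfold sF
    rw [sR_sub, sR_sub, sR_sR, sR_e2]
    abel
  have c1 : (sR x - p).1 = z.1 := by
    rw [e1]
    show z.1 + 0 = z.1
    ring
  have c2 : (sR x - p).2 = 1 - z.2 := by
    rw [e1]
    show -z.2 + 1 = 1 - z.2
    ring
  have hzz := natAbs_le_sz z
  have b1 : z.1.valMinAbs.natAbs ≤ m := hzz.1.trans he
  have b2 : z.2.valMinAbs.natAbs ≤ m := hzz.2.trans he
  have hr := hR z.1.valMinAbs z.2.valMinAbs b1 b2
  cases b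
  · rw [Rf_false]
    unfold nf
    simp only
    rw [c1, c2, ← hz]
    have hv : (1 - z.2).valMinAbs = 1 - z.2.valMinAbs := by
      refine (ZMod.valMinAbs_spec _ _).2 ⟨by push_cast; rfl, ?_⟩
      rw [Set.mem_Ioc]
      omega
    rw [hv]
    linarith [hr.1]
  · rw [Rf_true]
    unfold nf
    simp only
    have d1 : (sR x - e2 - p).1 = z.1 := by
      have : sR x - e2 - p = sR z := by
        have h2 : sR x - e2 - p = (sR x - p) - e2 := by abel
        rw [h2, e1]
        abel
      rw [this]
      rfl
    have d2 : (sR x - e2 - p).2 = -z.2 := by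
      have : sR x - e2 - p = sR z := by
        have h2 : sR x - e2 - p = (sR x - p) - e2 := by abel
        rw [h2, e1]
        abel
      rw [this]
      rfl
    rw [d1, d2, ← hz]
    have hv : (-z.2).valMinAbs = -z.2.valMinAbs := vma_neg (by omega)
    rw [hv, hr.2]

lemma Idl.refl {m : ℕ} (hR : RefB b0 m) (hm : 2 * m + 4 < N) {p q : V N}
    (hpq : 2 * sz (q - p) < N) {g : V N → ℝ} (h : Idl b0 (m + 1) p q g) :
    Idl b0 m (sF p) (sF q) (fun x => -g (sR x)) := by
  have hadd : ∀ (β γ : V N × Bool → ℝ) (e : V N × Bool),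
      Rf (fun e => β e + γ e) e = Rf β e + Rf γ e := by
    rintro β γ ⟨x, b⟩
    cases b
    · rfl
    · simp only [Rf_true]
      ring
  have key : ∀ e : V N × Bool, bD (sF p) (sF q) e + gr (fun x => -g (sR x)) e =
      -Rf (fun e => bD p q e + gr g e) e := by
    intro e
    rw [hadd, Rf_bD hpq, Rf_gr]
    have : gr (fun x => -g (sR x)) e = -gr (fun x => g (sR x)) e := gr_neg _ e
    rw [this]
    ring
  -- the value of the pull back at a point near a core
  have loc : ∀ (c : V N) (σ : ℝ), (∀ e : V N × Bool, sz (e.1 - c) ≤ m + 1 →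
      bD p q e + gr g e = σ * nf b0 c e) → ∀ e : V N × Bool, sz (e.1 - sF c) ≤ m →
      Rf (fun e => bD p q e + gr g e) e = σ * Rf (nf b0 c) e := by
    intro c σ hc e he
    obtain ⟨x, b⟩ := e
    simp only at he
    have e1 : sR x - c = sR (x - sF c) + e2 := by
      unfold sF
      rw [sR_sub, sR_sub, sR_sR, sR_e2]
      abel
    have e2' : sR x - e2 - c = sR (x - sF c) := by
      have h2 : sR x - e2 - c = (sR x - c) - e2 := by abel
      rw [h2, e1]
      abel
    cases b
    · rw [Rf_false, Rf_false]
      refine hc _ ?_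
      show sz (sR x - c) ≤ m + 1
      have h3 := (sz_step (sR (x - sF c)) true).2
      rw [sz_sR] at h3
      rw [e1]
      exact h3.trans (by omega)
    · rw [Rf_true, Rf_true]
      have := hc (sR x - e2, true) (by
        show sz (sR x - e2 - c) ≤ m + 1
        rw [e2', sz_sR]
        omega)
      rw [this]
      ring
  constructor
  · intro e he
    rw [key, loc p 1 (fun e he => by rw [h.at0 e he]; ring) e he, nf_Rf hR hm e he]
    ring
  · intro e he
    rw [key, loc q (-1) (fun e he => by rw [h.at1 e he]; ring) e he, nf_Rf hR hm e he]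
    ring

lemma zs1 (k : ℤ) : (k • (eb false : V N) : V N) = ((k : ZMod N), 0) := by
  show k • (e1 : V N) = _
  ext <;> simp [e1]

lemma zs2 (k : ℤ) : (k • (eb true : V N) : V N) = (0, (k : ZMod N)) := by
  show k • (e2 : V N) = _
  ext <;> simp [e2]

/-- a function with vanishing gradient on a box is constant there -/
lemma const_box {f : V N → ℝ} {w : V N} {m : ℕ} (h : ∀ x b, sz (x - w) ≤ m → gr f (x, b) = 0)
    {x : V N} (hx : sz (x - w) ≤ m) : f x = f w := by
  -- a straight line in the box
  have line : ∀ (b : Bool) (y : V N) (n : ℕ),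
      (∀ i : ℕ, i ≤ n → sz (y + i • (eb b : V N) - w) ≤ m) →
      f (y + n • (eb b : V N)) = f y := by
    intro b y n
    induction n with
    | zero => intro _; simp
    | succ n ih =>
      intro hn
      have h1 := ih fun i hi => hn i (by omega)
      have h2 := h (y + n • eb b) b (hn n (by omega))
      rw [gr_eq] at h2
      rw [succ_nsmul, ← add_assoc]
      linarith
  have hco : (x - w).1.valMinAbs.natAbs ≤ m ∧ (x - w).2.valMinAbs.natAbs ≤ m := by
    have := natAbs_le_sz (x - w)
    omega
  -- the corner
  have szp : ∀ z : V N, sz z = max z.1.valMinAbs.natAbs z.2.valMinAbs.natAbs := fun z => rfl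
  -- one coordinate at a time
  have step : ∀ (b : Bool) (y : V N) (v : ℤ), sz (y - w) ≤ m →
      (∀ k : ℤ, 0 ≤ k * v.sign → (k.natAbs ≤ v.natAbs) →
        sz (y + k • (eb b : V N) - w) ≤ m) → f (y + v • (eb b : V N)) = f y := by
    intro b y v _ hv
    rcases le_total 0 v with h0 | h0
    · obtain ⟨n, rfl⟩ := Int.eq_ofNat_of_zero_le h0
      rw [natCast_zsmul]
      refine line b y n fun i hi => ?_
      have := hv i (by
        rcases Nat.eq_zero_or_pos n with h5 | h5
        · subst h5; simp
        · rw [Int.sign_eq_one_of_pos (by exact_mod_cast h5)]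
          omega) (by simpa using hi)
      rwa [natCast_zsmul] at this
    · obtain ⟨n, hn⟩ := Int.eq_ofNat_of_zero_le (show 0 ≤ -v by omega)
      have hv2 : v = -(n : ℤ) := by omega
      subst hv2
      have h3 := line b (y + (-(n : ℤ)) • (eb b : V N)) n (fun i hi => by
        have h4 := hv (-((n : ℤ) - i)) (by
          rcases Nat.eq_zero_or_pos n with h5 | h5
          · subst h5; simp
          · have : (-(n : ℤ)).sign = -1 := by
              rw [Int.sign_neg, Int.sign_eq_one_of_pos (by exact_mod_cast h5)]
            rw [this]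
            omega) (by omega)
        have e : y + -(n : ℤ) • (eb b : V N) + i • (eb b : V N) =
            y + (-((n : ℤ) - i)) • (eb b : V N) := by
          rw [← natCast_zsmul (eb b : V N) i, add_assoc, ← add_smul]
          congr 2
          ring
        rw [e]
        exact h4)
      have e : y + -(n : ℤ) • (eb b : V N) + n • (eb b : V N) = y := by
        rw [← natCast_zsmul (eb b : V N) n, add_assoc, ← add_smul]
        simp
      rw [e] at h3
      exact h3.symm
  set v := (x - w).1.valMinAbs with hv
  set u := (x - w).2.valMinAbs with hu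
  have hN2 : ∀ k : ℤ, ∀ a : ZMod N, 0 ≤ k * a.valMinAbs.sign → k.natAbs ≤ a.valMinAbs.natAbs →
      ((k : ZMod N)).valMinAbs.natAbs ≤ a.valMinAbs.natAbs := by
    intro k a h1 h2
    have h3 := ZMod.valMinAbs_mem_Ioc a
    rw [Set.mem_Ioc] at h3
    have h4 : ((k : ZMod N)).valMinAbs = k := by
      refine (ZMod.valMinAbs_spec _ _).2 ⟨rfl, ?_⟩
      rw [Set.mem_Ioc]
      rcases lt_trichotomy a.valMinAbs 0 with h5 | h5 | h5
      · rw [Int.sign_eq_neg_one_of_neg h5] at h1
        omega
      · rw [h5] at h2 h3
        have : k = 0 := by simpa using h2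
        rw [this]
        exact h3
      · rw [Int.sign_eq_one_of_pos h5] at h1
        omega
    rw [h4]
    exact h2
  have m1 : f (w + v • (eb false : V N)) = f w := by
    refine step false w v (by rw [sub_self, sz_zero]; omega) fun k hk1 hk2 => ?_
    have e : w + k • (eb false : V N) - w = ((k : ZMod N), 0) := by
      rw [add_sub_cancel_left, zs1]
    rw [e, szp]
    have := hN2 k (x - w).1 hk1 hk2
    simp only [ZMod.valMinAbs_zero, Int.natAbs_zero]
    omega
  have e3 : w + v • (eb false : V N) + u • (eb true : V N) = x := by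
    have : v • (eb false : V N) + u • (eb true : V N) = x - w := by
      rw [zs1, zs2, Prod.mk_add_mk, add_zero, zero_add, hv, hu, ZMod.coe_valMinAbs,
        ZMod.coe_valMinAbs]
    rw [add_assoc, this]
    abel
  have m2 : f (w + v • (eb false : V N) + u • (eb true : V N)) = f (w + v • (eb false : V N)) := by
    have base : ∀ k : ℤ, w + v • (eb false : V N) + k • (eb true : V N) - w =
        ((x - w).1, (k : ZMod N)) := by
      intro k
      rw [zs1, zs2, add_assoc, add_sub_cancel_left, Prod.mk_add_mk, add_zero, zero_add, hv,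
        ZMod.coe_valMinAbs]
    refine step true (w + v • (eb false : V N)) u ?_ fun k hk1 hk2 => ?_
    · have := base 0
      rw [zero_smul, add_zero] at this
      rw [this, szp]
      simp only [Int.cast_zero, ZMod.valMinAbs_zero, Int.natAbs_zero]
      omega
    · rw [base, szp]
      have := hN2 k (x - w).2 hk1 hk2
      simp only
      omega
  rw [← e3, m2, m1]

end

end

end Vale.Agent.P159.H817
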