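import Vale.Agent.P159.H817.Id2

/-!
P159 / module STATG-IDEAL (helper817), part 3: the response of an ideal core to a constant vanishes;
PLATEAU.
-/

set_option linter.unusedSectionVars false

namespace Vale.Agent.P159.H817

open Finset
open Vale.Agent.P159.TM.Spec (V)

noncomputable section

section

variable {N : ℕ} [NeZero N] {l r : ℕ} {Λ ε₂ ε₃ : ℝ} {D0 D1 : Dec} {ρ : (V N × Bool → ℝ) → ℝ}
  {b0 : ℤ → ℤ → Bool → ℝ}

/-- **locality of the response** of an ideal core -/
theorem SysI.rsp_loc (H : SysI N l r Λ ε₂ ε₃ D0 D1 ρ) {F0 F0' F1 : ℤ → ℤ → ℝ} (h0 : F0 ∈ D0)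
    (h0' : F0' ∈ D0) (h1 : F1 ∈ D1) {p p' q : V N} (hf : Far r p q) (hf' : Far r p' q)
    {g g' : V N → ℝ} {L C c : ℝ} (hL : 0 ≤ L) (hg : GB (L / l) g) (hg' : GB (L / l) g')
    (hI : Idl b0 (13 * l) p q g) (hI' : Idl b0 (13 * l) p' q g')
    (hc : |c| ≤ C) (hΛ : 100000 * (1 + CG + L + C) ≤ Λ) :
    |rsp ρ l F0 F1 p q g c - rsp ρ l F0' F1 p' q g' c| ≤ ε₃ := by
  have hC := CG_pos
  have hl4 := H.hl
  have hl0 : 0 < l := by omega
  have hlr := H.hlr
  have hrN := H.hrN
  have hl' : (0 : ℝ) < l := by exact_mod_cast hl0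
  have hC0 : 0 ≤ C := (abs_nonneg c).trans hc
  have hdp : ∀ x, sz (x - q) ≤ 15 * l → r ≤ 4 * sz (x - p) := by
    intro x hx
    have h3 := sz_add_le (p - x) (x - q)
    rw [sub_add_sub_cancel, sz_sub_comm p x, sz_sub_comm p q] at h3
    have := hf.1
    omega
  have hdp' : ∀ x, sz (x - q) ≤ 15 * l → r ≤ 4 * sz (x - p') := by
    intro x hx
    have h3 := sz_add_le (p' - x) (x - q)
    rw [sub_add_sub_cancel, sz_sub_comm p' x, sz_sub_comm p' q] at h3
    have := hf'.1
    omega
  set u : V N → ℝ := fun x => c * U (10 * l) l (x - q) with hu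
  have huGB : GB (C / l) u := U_cGB (10 * l) hl0 q hc
  set B : V N × Bool → ℝ := cfg F0 F1 p q g with hB
  set W : V N × Bool → ℝ := fun e => cfg F0' F1 p' q g' e - B e with hW
  have kB : KK l r Λ D0 D1 B := KK.core' h0 h1 hf (s := L) hg (by nlinarith)
  have eP : (fun e => B e + gr u e) = cfg F0 F1 p q (fun x => g x + u x) := by
    funext e
    rw [hB, ← cfg_add]
  have kP : KK l r Λ D0 D1 (fun e => B e + gr u e) := by
    rw [eP]
    refine KK.core' h0 h1 hf (s := L + C) ?_ (by nlinarith)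
    rw [add_div]
    exact hg.add huGB
  have eW : (fun e => B e + W e) = cfg F0' F1 p' q g' := by
    funext e
    rw [hW]
    ring
  have kW : KK l r Λ D0 D1 (fun e => B e + W e) := by
    rw [eW]
    exact KK.core' h0' h1 hf' hg' (by nlinarith)
  have ePW : (fun e => B e + gr u e + W e) = cfg F0' F1 p' q (fun x => g' x + u x) := by
    funext e
    rw [cfg_add, hW]
    ring
  have kPW : KK l r Λ D0 D1 (fun e => B e + gr u e + W e) := by
    rw [ePW]
    refine KK.core' h0' h1 hf' (s := L + C) ?_ (by nlinarith)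
    rw [add_div]
    exact hg'.add huGB
  have hPs : ∀ e : V N × Bool, gr u e ≠ 0 → sz (e.1 - q) ≤ 11 * l := by
    rintro ⟨x, b⟩ hx
    by_contra h4
    refine hx ?_
    simp only at h4
    have h5 := (sz_step (x - q) b).1
    have h8 : 10 * l + l ≤ sz (x + eb b - q) := by rw [add_sub_right_comm]; omega
    rw [gr_eq]
    simp only [hu]
    rw [U_zero h8, U_zero (show 10 * l + l ≤ sz (x - q) by omega)]
    ring
  have hWs : ∀ e : V N × Bool, W e ≠ 0 → 11 * l + l ≤ sz (e.1 - q) := by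
    rintro ⟨y, b'⟩ hy
    by_contra h4
    refine hy ?_
    simp only at h4
    have d1 := hdp y (by omega)
    have d2 := hdp' y (by omega)
    have a1 := hI.at1 (y, b') (by show sz (y - q) ≤ 13 * l; omega)
    have a2 := hI'.at1 (y, b') (by show sz (y - q) ≤ 13 * l; omega)
    simp only [hW, hB]
    unfold cfg
    rw [gr_dec_zero (H.supp0 F0 h0) b' (by omega), gr_dec_zero (H.supp0 F0' h0') b' (by omega)]
    linarith
  have hloc := H.loc q (11 * l) B (gr u) W (by omega) kB kP kW kPW hPs hWs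
  rw [ePW, eW, eP] at hloc
  unfold rsp
  rw [abs_le] at hloc ⊢
  constructor <;> linarith

/-- **neutrality**: shifting `q` by `c` is shifting `p` by `-c` -/
theorem SysI.rsp_swap (H : SysI N l r Λ ε₂ ε₃ D0 D1 ρ) {F0 F1 : ℤ → ℤ → ℝ} (h0 : F0 ∈ D0)
    (h1 : F1 ∈ D1) {p q : V N} (hf : Far r p q) {g : V N → ℝ} {L C c : ℝ} (hL : 0 ≤ L)
    (hg : GB (L / l) g) (hc : |c| ≤ C) (hΛ : 100000 * (1 + CG + L + C) ≤ Λ) :
    |rsp ρ l F0 F1 p q g c -
      rsp ρ l (fun i j => -F1 i j) (fun i j => -F0 i j) q p (fun x => -g x) c| ≤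
      eB N l ε₂ ε₃ := by
  have hC := CG_pos
  have hl4 := H.hl
  have hl0 : 0 < l := by omega
  have hlr := H.hlr
  have hl' : (0 : ℝ) < l := by exact_mod_cast hl0
  have hC0 : 0 ≤ C := (abs_nonneg c).trans hc
  have hg1 : GB (L / l) g := hg
  have e1 : ρ (cfg (fun i j => -F1 i j) (fun i j => -F0 i j) q p (fun x => -g x)) =
      ρ (cfg F0 F1 p q g) :=
    H.ev h0 h1 hf (hg1.mono (div_le_div_of_nonneg_right (by nlinarith) hl'.le))
  set g1 : V N → ℝ := fun x => g x + (-c) * U (10 * l) l (x - p) with hg1d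
  have hg1GB : GB ((L + C) / l) g1 := by
    rw [add_div]
    exact hg1.add (U_cGB (10 * l) hl0 p (by rwa [abs_neg]))
  have e2 : ρ (cfg (fun i j => -F1 i j) (fun i j => -F0 i j) q p
      (fun x => -g x + c * U (10 * l) l (x - p))) = ρ (cfg F0 F1 p q g1) := by
    rw [← H.ev h0 h1 hf (hg1GB.mono (div_le_div_of_nonneg_right (by nlinarith) hl'.le))]
    congr 2
    funext x
    rw [hg1d]
    ring
  set h : V N → ℝ := fun x => c * U (10 * l) l (x - p) + c * U (10 * l) l (x - q) + (-c) with hh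
  have hGB : GB (2 * C / l) h := by
    have h2 := ((U_cGB (10 * l) hl0 p hc).add (U_cGB (10 * l) hl0 q hc)).add
      (GB.const (N := N) (s := 0) le_rfl (-c))
    refine h2.mono (le_of_eq ?_)
    ring
  have hb : ∀ x, |h x| ≤ 3 * C := by
    intro x
    rw [hh]
    have a1 := abs_U (10 * l) l (x - p)
    have a2 := abs_U (10 * l) l (x - q)
    have b1 : |c * U (10 * l) l (x - p)| ≤ C := by
      rw [abs_mul]
      calc _ ≤ C * 1 := mul_le_mul hc a1 (abs_nonneg _) hC0
        _ = C := mul_one C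
    have b2 : |c * U (10 * l) l (x - q)| ≤ C := by
      rw [abs_mul]
      calc _ ≤ C * 1 := mul_le_mul hc a2 (abs_nonneg _) hC0
        _ = C := mul_one C
    refine (abs_add_le _ _).trans ?_
    rw [abs_neg]
    have := abs_add_le (c * U (10 * l) l (x - p)) (c * U (10 * l) l (x - q))
    linarith
  have hbump := H.bumps h0 h1 hf (g := g1) (h := h) (s := L + C) (t := 2 * C) (B := 3 * C)
    (by positivity) (by positivity) (by positivity) hg1GB hGB hb
    (fun x hx => by
      have h3 := H.sep hf (x := x) (by omega)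
      rw [hh]
      simp only
      rw [U_one hl0 (show sz (x - p) ≤ 10 * l by omega), U_zero (by omega)]
      ring)
    (fun x hx => by
      have h3 := H.sep hf.symm (x := x) (by omega)
      rw [hh]
      simp only
      rw [U_one hl0 (show sz (x - q) ≤ 10 * l by omega), U_zero (by omega)]
      ring)
    (by nlinarith)
  have e3 : (fun x => g1 x + h x) = fun x => (g x + c * U (10 * l) l (x - q)) + (-c) := by
    funext x
    rw [hg1d, hh]
    ring
  rw [e3, cfg_const] at hbump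
  unfold rsp
  rw [e1, e2]
  unfold eB
  have e4 : ∀ a b d : ℝ, (a - b) - (d - b) = a - d := by intros; ring
  rw [e4]
  exact hbump

/-- **oddness of the response** -/
theorem SysI.rsp_odd (H : SysI N l r Λ ε₂ ε₃ D0 D1 ρ) {F0 F1 : ℤ → ℤ → ℝ} (h0 : F0 ∈ D0)
    (h1 : F1 ∈ D1) {p q : V N} (hf : Far r p q) {g : V N → ℝ} {L C c : ℝ} (hL : 0 ≤ L)
    (hg : GB (L / l) g) (hc : |c| ≤ C) (hΛ : 100000 * (1 + CG + L + C) ≤ Λ) :
    |rsp ρ l F0 F1 p q g c + rsp ρ l F0 F1 p q g (-c)| ≤ 2 * eB N l ε₂ ε₃ + ε₃ := by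
  have hC := CG_pos
  have hl4 := H.hl
  have hl0 : 0 < l := by omega
  have hlr := H.hlr
  have hl' : (0 : ℝ) < l := by exact_mod_cast hl0
  have hC0 : 0 ≤ C := (abs_nonneg c).trans hc
  have hc' : |-c| ≤ C := by rwa [abs_neg]
  have hg1 : GB (L / l) g := hg
  set u : V N → ℝ := fun x => c * U (10 * l) l (x - q) with hu
  set u' : V N → ℝ := fun x => (-c) * U (13 * l) l (x - q) with hu'
  set v : V N → ℝ := fun x => (-c) * U (10 * l) l (x - q) with hv
  have huGB : GB (C / l) u := U_cGB (10 * l) hl0 q hc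
  have huGB' : GB (C / l) u' := U_cGB (13 * l) hl0 q hc'
  have hvGB : GB (C / l) v := U_cGB (10 * l) hl0 q hc'
  set h : V N → ℝ := fun x => u x + u' x with hh
  have hGB : GB (2 * C / l) h := (huGB.add huGB').mono (le_of_eq (by ring))
  have hb : ∀ x, |h x| ≤ 2 * C := by
    intro x
    have a1 := abs_U (10 * l) l (x - q)
    have a2 := abs_U (13 * l) l (x - q)
    have b1 : |u x| ≤ C := by
      rw [hu]
      simp only
      rw [abs_mul]
      calc _ ≤ C * 1 := mul_le_mul hc a1 (abs_nonneg _) hC0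
        _ = C := mul_one C
    have b2 : |u' x| ≤ C := by
      rw [hu']
      simp only
      rw [abs_mul]
      calc _ ≤ C * 1 := mul_le_mul hc' a2 (abs_nonneg _) hC0
        _ = C := mul_one C
    rw [hh]
    refine (abs_add_le _ _).trans ?_
    linarith
  have hz1 : ∀ x, sz (x - p) ≤ 9 * l → h x = 0 := by
    intro x hx
    have h3 := H.sep hf (x := x) (by omega)
    rw [hh, hu, hu']
    simp only
    rw [U_zero (by omega), U_zero (by omega)]
    ring
  have hz2 : ∀ x, sz (x - q) ≤ 9 * l → h x = 0 := by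
    intro x hx
    rw [hh, hu, hu']
    simp only
    rw [U_one hl0 (by omega), U_one hl0 (by omega)]
    ring
  have b1 := H.bumps h0 h1 hf (g := g) (h := h) (s := L) (t := 2 * C) (B := 2 * C)
    hL (by positivity) (by positivity) hg1 hGB hb hz1 hz2 (by nlinarith)
  -- locality
  set B : V N × Bool → ℝ := cfg F0 F1 p q g with hB
  have kB : KK l r Λ D0 D1 B := KK.core' h0 h1 hf hg1 (by nlinarith)
  have eP : (fun e => B e + gr u e) = cfg F0 F1 p q (fun x => g x + u x) := by
    funext e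
    rw [hB, ← cfg_add]
  have kP : KK l r Λ D0 D1 (fun e => B e + gr u e) := by
    rw [eP]
    refine KK.core' h0 h1 hf (s := L + C) ?_ (by nlinarith)
    rw [add_div]
    exact hg1.add huGB
  have eW : (fun e => B e + gr u' e) = cfg F0 F1 p q (fun x => g x + u' x) := by
    funext e
    rw [hB, ← cfg_add]
  have kW : KK l r Λ D0 D1 (fun e => B e + gr u' e) := by
    rw [eW]
    refine KK.core' h0 h1 hf (s := L + C) ?_ (by nlinarith)
    rw [add_div]
    exact hg1.add huGB'
  have ePW : (fun e => B e + gr u e + gr u' e) = cfg F0 F1 p q (fun x => g x + h x) := by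
    funext e
    rw [cfg_add, hh, gr_add, hB]
    ring
  have kPW : KK l r Λ D0 D1 (fun e => B e + gr u e + gr u' e) := by
    rw [ePW]
    refine KK.core' h0 h1 hf (s := L + 2 * C) ?_ (by nlinarith)
    rw [add_div]
    exact hg1.add hGB
  have hPs : ∀ e : V N × Bool, gr u e ≠ 0 → sz (e.1 - q) ≤ 11 * l := by
    rintro ⟨x, b⟩ hx
    by_contra h4
    refine hx ?_
    simp only at h4
    have h5 := (sz_step (x - q) b).1
    have h8 : 10 * l + l ≤ sz (x + eb b - q) := by rw [add_sub_right_comm]; omega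
    rw [gr_eq]
    simp only [hu]
    rw [U_zero h8, U_zero (show 10 * l + l ≤ sz (x - q) by omega)]
    ring
  have hWs : ∀ e : V N × Bool, gr u' e ≠ 0 → 11 * l + l ≤ sz (e.1 - q) := by
    rintro ⟨y, b'⟩ hy
    by_contra h4
    refine hy ?_
    simp only at h4
    have h5 := (sz_step (y - q) b').2
    have h8 : sz (y + eb b' - q) ≤ 13 * l := by rw [add_sub_right_comm]; omega
    rw [gr_eq]
    simp only [hu']
    rw [U_one hl0 h8, U_one hl0 (show sz (y - q) ≤ 13 * l by omega)]
    ring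
  have hloc := H.loc q (11 * l) B (gr u) (gr u') (by omega) kB kP kW kPW hPs hWs
  rw [ePW, eW, eP] at hloc
  unfold rsp
  unfold eB
  -- the bump from `u'` to `v`
  have b4 := H.bumps h0 h1 hf (g := fun x => g x + v x) (h := fun x => h x) (s := L + C)
    (t := 2 * C) (B := 2 * C) (by positivity) (by positivity) (by positivity)
    (by rw [add_div]; exact hg1.add hvGB) hGB hb hz1 hz2 (by nlinarith)
  have e6 : (fun x => (g x + v x) + h x) = fun x => g x + u' x := by
    funext x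
    rw [hh, hu, hv]
    ring
  rw [e6] at b4
  rw [abs_le] at hloc b1 b4 ⊢
  constructor <;> linarith


/-- **reflection of the response** -/
theorem SysI.rsp_refl (H : SysI N l r Λ ε₂ ε₃ D0 D1 ρ) {F0 F1 : ℤ → ℤ → ℝ} (h0 : F0 ∈ D0)
    (h1 : F1 ∈ D1) {p q : V N} (hf : Far r p q) {g : V N → ℝ} {L C c : ℝ} (hL : 0 ≤ L)
    (hg : GB (L / l) g) (hc : |c| ≤ C) (hΛ : 100000 * (1 + CG + L + C) ≤ Λ) :
    |rsp ρ l F0 F1 p q g c -
      rsp ρ l (fun i j => -rfl2 F0 i j) (fun i j => -rfl2 F1 i j) (sF p) (sF q)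
        (fun x => -g (sR x)) (-c)| ≤ eB N l ε₂ ε₃ := by
  have hC := CG_pos
  have hl4 := H.hl
  have hl0 : 0 < l := by omega
  have hlr := H.hlr
  have hl' : (0 : ℝ) < l := by exact_mod_cast hl0
  have hC0 : 0 ≤ C := (abs_nonneg c).trans hc
  have hc' : |-c| ≤ C := by rwa [abs_neg]
  have hg1 : GB (L / l) g := hg
  have ha1 := H.rf h0 h1 hf (hg1.mono (div_le_div_of_nonneg_right (by nlinarith) hl'.le))
  have ha2 := H.rf h0 h1 hf (g := fun x => g x + c * U (10 * l) l (x - q))
    ((hg1.add (U_cGB (10 * l) hl0 q hc)).mono (by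
      rw [← add_div]
      exact div_le_div_of_nonneg_right (by nlinarith) hl'.le))
  unfold rsp
  rw [ha1, ← ha2]
  have e3 : ∀ x : V N, U (10 * l) l (sR x - q) = U (10 * l) l (x - sR q) := by
    intro x
    have : sR x - q = sR (x - sR q) := by rw [sR_sub, sR_sR]
    rw [this]
    unfold U
    rw [sz_sR]
  set g1 : V N → ℝ := fun x => -g (sR x) + (-c) * U (10 * l) l (x - sF q) with hg1d
  have hg1GB : GB ((L + C) / l) g1 := by
    rw [add_div]
    exact hg1.sR.neg.add (U_cGB (10 * l) hl0 (sF q) hc')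
  set h : V N → ℝ := fun x => (-c) * U (10 * l) l (x - sR q) - (-c) * U (10 * l) l (x - sF q)
    with hh
  have hGB : GB (2 * C / l) h := by
    refine ((U_cGB (10 * l) hl0 (sR q) hc').sub (U_cGB (10 * l) hl0 (sF q) hc')).mono (le_of_eq ?_)
    ring
  have hb : ∀ x, |h x| ≤ 2 * C := by
    intro x
    have a1 := abs_U (10 * l) l (x - sR q)
    have a2 := abs_U (10 * l) l (x - sF q)
    have b1 : |(-c) * U (10 * l) l (x - sR q)| ≤ C := by
      rw [abs_mul]
      calc _ ≤ C * 1 := mul_le_mul hc' a1 (abs_nonneg _) hC0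
        _ = C := mul_one C
    have b2 : |(-c) * U (10 * l) l (x - sF q)| ≤ C := by
      rw [abs_mul]
      calc _ ≤ C * 1 := mul_le_mul hc' a2 (abs_nonneg _) hC0
        _ = C := mul_one C
    rw [hh]
    refine (abs_sub _ _).trans ?_
    linarith
  have hse : ∀ x, sz (x - sR q) ≤ sz (x - sF q) + 1 ∧ sz (x - sF q) ≤ sz (x - sR q) + 1 := by
    intro x
    have := sz_step (x - sR q) true
    have e : x - sR q + eb true = x - sF q := by
      show x - sR q + e2 = x - sF q
      unfold sF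
      abel
    rw [e] at this
    exact ⟨this.1, this.2⟩
  have hbump := H.bumps (H.rfl0 h0) (H.rfl1 _ h1) hf.sF (g := g1) (h := h) (s := L + C)
    (t := 2 * C) (B := 2 * C) (by positivity) (by positivity) (by positivity) hg1GB hGB hb
    (fun x hx => by
      have h3 := H.sep hf.sF (x := x) (by omega)
      have h4 := hse x
      rw [hh]
      simp only
      rw [U_zero (by omega), U_zero (by omega)]
      ring)
    (fun x hx => by
      have h4 := hse x
      rw [hh]
      simp only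
      rw [U_one hl0 (by omega), U_one hl0 (by omega)]
      ring)
    (by nlinarith)
  have e4 : (fun x => g1 x + h x) =
      fun x => -(g (sR x) + c * U (10 * l) l (sR x - q)) := by
    funext x
    rw [e3, hg1d, hh]
    ring
  rw [e4] at hbump
  unfold eB
  have e5 : ∀ a b d : ℝ, (a - b) - (d - b) = a - d := by intros; ring
  rw [e5]
  exact hbump

lemma SysI.rsp_tr (H : SysI N l r Λ ε₂ ε₃ D0 D1 ρ) {F0 F1 : ℤ → ℤ → ℝ} (h0 : F0 ∈ D0)
    (h1 : F1 ∈ D1) {p q : V N} (hf : Far r p q) {g : V N → ℝ} {L C c : ℝ} (hL : 0 ≤ L)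
    (hg : GB (L / l) g) (hc : |c| ≤ C) (hΛ : 100000 * (1 + CG + L + C) ≤ Λ) (a : V N) :
    rsp ρ l F0 F1 (p + a) (q + a) (fun y => g (y - a)) c = rsp ρ l F0 F1 p q g c := by
  have hC := CG_pos
  have hl4 := H.hl
  have hl0 : 0 < l := by omega
  have hlr := H.hlr
  have hl' : (0 : ℝ) < l := by exact_mod_cast hl0
  have hC0 : 0 ≤ C := (abs_nonneg c).trans hc
  have hg1 : GB (L / l) g := hg
  have e1 := H.tr h0 h1 hf (hg1.mono (div_le_div_of_nonneg_right (by nlinarith) hl'.le)) a
  have e2 := H.tr h0 h1 hf (g := fun x => g x + c * U (10 * l) l (x - q))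
    ((hg1.add (U_cGB (10 * l) hl0 q hc)).mono (by
      rw [← add_div]
      exact div_le_div_of_nonneg_right (by nlinarith) hl'.le)) a
  unfold rsp
  rw [e1, ← e2]
  congr 4
  funext y
  congr 3
  abel

/-- **the charge of an ideal core vanishes** -/
theorem SysI.rsp_small (H : SysI N l r Λ ε₂ ε₃ D0 D1 ρ) (hR : RefB b0 (20 * l))
    {F0 F1 : ℤ → ℤ → ℝ} (h0 : F0 ∈ D0)
    (h1 : F1 ∈ D1) {p q : V N} (hf : Far r p q) {g : V N → ℝ} {L C c : ℝ} (hL : 0 ≤ L)
    (hg : GB (L / l) g) (hI : Idl b0 (20 * l) p q g) (hc : |c| ≤ C)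
    (hΛ : 100000 * (1 + CG + L + C) ≤ Λ) :
    |rsp ρ l F0 F1 p q g c| ≤ 4 * eB N l ε₂ ε₃ := by
  have hC := CG_pos
  have hC0 : 0 ≤ C := (abs_nonneg c).trans hc
  have hc' : |-c| ≤ C := by rwa [abs_neg]
  have hΛ0 : 0 ≤ Λ := by nlinarith
  have he3 := (H.eB_ge hΛ0).1
  have hl4 := H.hl
  have hlr := H.hlr
  have hrN := H.hrN
  -- reflection
  have s1 := H.rsp_refl h0 h1 hf hL hg hc hΛ
  set R0 : ℤ → ℤ → ℝ := fun i j => -rfl2 F0 i j with hR0
  set R1 : ℤ → ℤ → ℝ := fun i j => -rfl2 F1 i j with hR1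
  have m0 : R0 ∈ D0 := H.rfl0 h0
  have m1 : R1 ∈ D1 := H.rfl1 _ h1
  -- translation
  set a : V N := q - sF q with ha
  set g1 : V N → ℝ := fun x => -g (sR x) with hg1
  have hg1GB : GB (L / l) g1 := hg.sR.neg
  have hI1 : Idl b0 (13 * l) (sF p) (sF q) g1 := by
    have hR' : RefB b0 (13 * l) := fun i j hi hj => hR i j (by omega) (by omega)
    exact (hI.mono (m' := 13 * l + 1) (by omega)).refl hR' (by omega) (H.far_lt hf)
  have s2 := H.rsp_tr m0 m1 hf.sF hL hg1GB hc' hΛ a
  have ea : sF q + a = q := by rw [ha]; abel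
  rw [ea] at s2
  set p2 : V N := sF p + a with hp2
  set g2 : V N → ℝ := fun y => g1 (y - a) with hg2
  have hg2GB : GB (L / l) g2 := hg1GB.shift a
  have hI2 : Idl b0 (13 * l) p2 q g2 := by
    have := hI1.shift a
    rw [ea] at this
    exact this
  have hf2 : Far r p2 q := by
    rw [← ea, hp2]
    have := hf.sF
    unfold Far at this ⊢
    rw [add_sub_add_right_eq_sub]
    exact this
  -- swap, change the decoration, swap back
  have s3 := H.rsp_swap m0 m1 hf2 hL hg2GB hc' hΛ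
  have s4 := H.rsp_loc (H.neg10 _ m1) (H.neg10 _ h1) (H.neg01 _ m0) hf2.symm hf2.symm hL
    hg2GB.neg hg2GB.neg (hI2.neg (H.far_lt hf2)) (hI2.neg (H.far_lt hf2)) hc' hΛ
  have s5 := H.rsp_swap m0 h1 hf2 hL hg2GB hc' hΛ
  -- back to the first configuration
  have s6 := H.rsp_loc m0 h0 h1 hf2 hf hL hg2GB hg hI2 (hI.mono (by omega)) hc' hΛ
  have s7 := H.rsp_odd h0 h1 hf hL hg hc hΛ
  rw [← s2] at s1
  rw [abs_le] at s1 s3 s4 s5 s6 s7 ⊢
  constructor <;> linarith

/-- **PLATEAU**: two smooth fields which make the same pair ideal are equivalent -/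
theorem SysI.plat (H : SysI N l r Λ ε₂ ε₃ D0 D1 ρ) (hR : RefB b0 (20 * l))
    {F0 F1 : ℤ → ℤ → ℝ} (h0 : F0 ∈ D0)
    (h1 : F1 ∈ D1) {p q : V N} (hf : Far r p q) {g g' : V N → ℝ} {L B : ℝ} (hL : 0 ≤ L)
    (hg : GB (L / l) g) (hg' : GB (L / l) g') (hI : Idl b0 (20 * l) p q g)
    (hI' : Idl b0 (20 * l) p q g') (hB : ∀ x, |g x| ≤ B) (hB' : ∀ x, |g' x| ≤ B)
    (hΛ : 1000000 * (1 + CG + L + B) ≤ Λ) :
    |ρ (cfg F0 F1 p q g') - ρ (cfg F0 F1 p q g)| ≤ 5 * eB N l ε₂ ε₃ := by
  have hC := CG_pos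
  have hl4 := H.hl
  have hl0 : 0 < l := by omega
  have hl' : (0 : ℝ) < l := by exact_mod_cast hl0
  have hB0 : 0 ≤ B := (abs_nonneg _).trans (hB 0)
  have hgr0 : ∀ x b, sz (x - p) ≤ 20 * l → gr (fun x => g' x - g x) (x, b) = 0 := by
    intro x b hx
    have a1 := hI.at0 (x, b) hx
    have a2 := hI'.at0 (x, b) hx
    rw [gr_sub]
    linarith
  have hgr1 : ∀ x b, sz (x - q) ≤ 20 * l → gr (fun x => g' x - g x) (x, b) = 0 := by
    intro x b hx
    have a1 := hI.at1 (x, b) hx
    have a2 := hI'.at1 (x, b) hx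
    rw [gr_sub]
    linarith
  have hk0 : ∀ x, sz (x - p) ≤ 20 * l → g' x - g x = g' p - g p :=
    fun x hx => const_box hgr0 hx
  have hk1 : ∀ x, sz (x - q) ≤ 20 * l → g' x - g x = g' q - g q :=
    fun x hx => const_box hgr1 hx
  set d : ℝ := g' p - g p with hd
  set c : ℝ := (g' q - g q) - d with hc
  have hdb : |d| ≤ 2 * B := by
    refine (abs_sub _ _).trans ?_
    have := hB' p
    have := hB p
    linarith
  have hcb : |c| ≤ 4 * B := by
    refine (abs_sub _ _).trans ?_
    have a1 : |g' q - g q| ≤ 2 * B := by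
      refine (abs_sub _ _).trans ?_
      have := hB' q
      have := hB q
      linarith
    linarith
  have t3 := H.rsp_small hR h0 h1 hf (C := 4 * B) hL hg hI hcb (by nlinarith)
  unfold rsp at t3
  set u : V N → ℝ := fun x => c * U (10 * l) l (x - q) with hu
  have huGB : GB (4 * B / l) u := U_cGB (10 * l) hl0 q hcb
  set h : V N → ℝ := fun x => ((g' x - g x) - u x) + (-d) with hh
  have hGB : GB ((2 * L + 4 * B) / l) h := by
    have h2 := ((hg'.sub hg).sub huGB).add (GB.const (N := N) (s := 0) le_rfl (-d))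
    refine h2.mono (le_of_eq ?_)
    ring
  have hhb : ∀ x, |h x| ≤ 8 * B := by
    intro x
    have a1 := hB x
    have a2 := hB' x
    have a5 : |u x| ≤ 4 * B := by
      rw [hu]
      simp only
      rw [abs_mul]
      calc _ ≤ 4 * B * 1 := mul_le_mul hcb (abs_U _ _ _) (abs_nonneg _) (by positivity)
        _ = _ := mul_one _
    simp only [hh]
    rw [abs_le] at a1 a2 hdb a5 ⊢
    constructor <;> linarith
  have t4 := H.bumps h0 h1 hf (g := fun x => g x + u x) (h := h) (s := L + 4 * B)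
    (t := 2 * L + 4 * B) (B := 8 * B) (by positivity) (by positivity) (by positivity)
    (by rw [add_div]; exact hg.add huGB) hGB hhb
    (fun x hx => by
      have h3 := H.sep hf (x := x) (by omega)
      simp only [hh, hu]
      rw [hk0 x (by omega), U_zero (by omega)]
      ring)
    (fun x hx => by
      simp only [hh, hu]
      rw [hk1 x (by omega), U_one hl0 (show sz (x - q) ≤ 10 * l by omega), hc]
      ring)
    (by nlinarith)
  have e4 : (fun x => (g x + u x) + h x) = fun x => g' x + (-d) := by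
    funext x
    simp only [hh]
    ring
  rw [e4, cfg_const] at t4
  have e5 : 8 * ((N : ℝ) / l) ^ 2 * (3 * ε₂ + ε₃) = eB N l ε₂ ε₃ := rfl
  rw [e5] at t4
  rw [abs_le] at t3 t4 ⊢
  constructor <;> linarith

end

end

end Vale.Agent.P159.H817
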