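import Vale.Agent.P159.H817.Id3

/-!
P159 / module STATG-IDEAL (helper817), part 4: moving ideal cores; `ρ` is almost constant on ideal
decorated pairs.
-/

set_option linter.unusedSectionVars false

namespace Vale.Agent.P159.H817

open Finset
open Vale.Agent.P159.TM.Spec (V)

noncomputable section

section

variable {N : ℕ} [NeZero N] {l r : ℕ} {Λ ε₂ ε₃ : ℝ} {D0 D1 : Dec} {ρ : (V N × Bool → ℝ) → ℝ}
  {b0 : ℤ → ℤ → Bool → ℝ} {L : ℝ}

open Classical in
/-- a smooth field making the pair ideal -/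
def gI (N : ℕ) [NeZero N] (b0 : ℤ → ℤ → Bool → ℝ) (l r : ℕ) (L : ℝ) (p q : V N) : V N → ℝ :=
  if h : ∃ g : V N → ℝ, Idl b0 (20 * l) p q g ∧ GB (L / r) g ∧ ∀ x, |g x| ≤ 1 then h.choose
  else fun _ => 0

lemma gI_spec (hId : HasId N b0 l r L) {p q : V N} (hf : Far r p q) :
    Idl b0 (20 * l) p q (gI N b0 l r L p q) ∧ GB (L / r) (gI N b0 l r L p q) ∧
      ∀ x, |gI N b0 l r L p q x| ≤ 1 := by
  have h := hId p q hf
  unfold gI
  rw [dif_pos h]
  exact h.choose_spec

/-- the functional on an ideal decorated pair -/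
def sgI (ρ : (V N × Bool → ℝ) → ℝ) (b0 : ℤ → ℤ → Bool → ℝ) (l r : ℕ) (L : ℝ)
    (F0 F1 : ℤ → ℤ → ℝ) (p q : V N) : ℝ :=
  ρ (cfg F0 F1 p q (gI N b0 l r L p q))

/-- every ideal field gives the same value -/
theorem SysI.sgI_eq (H : SysI N l r Λ ε₂ ε₃ D0 D1 ρ) (hR : RefB b0 (20 * l))
    (hId : HasId N b0 l r L) (hL : 0 ≤ L) {F0 F1 : ℤ → ℤ → ℝ} (h0 : F0 ∈ D0)
    (h1 : F1 ∈ D1) {p q : V N} (hf : Far r p q) {g : V N → ℝ} {s B : ℝ} (hs : L ≤ s)
    (hg : GB (s / l) g) (hI : Idl b0 (20 * l) p q g) (hB : ∀ x, |g x| ≤ B) (hB1 : 1 ≤ B)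
    (hΛ : 1000000 * (1 + CG + s + B) ≤ Λ) :
    |ρ (cfg F0 F1 p q g) - sgI ρ b0 l r L F0 F1 p q| ≤ 5 * eB N l ε₂ ε₃ := by
  obtain ⟨i1, i2, i3⟩ := gI_spec hId hf
  have hl4 := H.hl
  have hlr := H.hlr
  refine H.plat hR h0 h1 hf (L := s) (B := B) (hL.trans hs) ?_ hg i1 hI
    (fun x => (i3 x).trans hB1) hB hΛ
  exact (i2.rl hL (by omega) (by omega)).mono (div_le_div_of_nonneg_right hs (Nat.cast_nonneg _))

/-- the change of the smooth field when a core moves from `p` to `p'` -/
lemma mv {l s : ℕ} (hl : 4 ≤ l) (hls : 64 * l ≤ s) (hsN : 64 * s ≤ N) {p p' : V N}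
    (hu : l1 (p' - p) ≤ s) {f : V N → ℝ} {t : ℝ} (hf : GB (t / l) f) (hb : ∀ x, |f x| ≤ 2) :
    ∃ δ : V N → ℝ, GB ((18 + 160 * CG + t) / l) δ ∧ (∀ x, |δ x| ≤ 2 * CG + 2) ∧
      (∀ e : V N × Bool, sz (e.1 - p') ≤ 20 * l → gr δ e = gr f e) ∧
      ∀ e : V N × Bool, 8 * s + 1 ≤ sz (e.1 - p) → gr δ e = bD p p' e := by
  have hC := CG_pos
  have hl0 : 0 < l := by omega
  have hl' : (0 : ℝ) < l := by exact_mod_cast hl0
  have hs' : (0 : ℝ) < s := by exact_mod_cast (by omega : 0 < s)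
  obtain ⟨gu, gu0, guGB, gub, gue⟩ := cut p p' (R := 4 * s) (by omega) (by omega)
  have su : sz (p' - p) ≤ s := (sz_le_l1 _).trans hu
  have np : ∀ x : V N, sz (x - p) ≤ sz (x - p') + s ∧ sz (x - p') ≤ sz (x - p) + s := by
    intro x
    have h3 := sz_add_le (x - p') (p' - p)
    have h4 := sz_add_le (x - p) (p - p')
    rw [sub_add_sub_cancel] at h3 h4
    rw [sz_sub_comm p p'] at h4
    omega
  set κ : V N → ℝ := fun x => U (21 * l) l (x - p') * f x with hκ
  have κGB : GB ((t + 2) / l) κ := by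
    have h2 := GB.mul (U_shift_GB (21 * l) hl0 p') hf (fun x => abs_U _ _ _) hb
    refine h2.mono (le_of_eq ?_)
    ring
  have κb : ∀ x, |κ x| ≤ 2 := by
    intro x
    rw [hκ]
    simp only
    rw [abs_mul]
    calc _ ≤ 1 * |f x| := mul_le_mul_of_nonneg_right (abs_U _ _ _) (abs_nonneg _)
      _ ≤ 2 := by rw [one_mul]; exact hb x
  have κ0 : ∀ x, 22 * l ≤ sz (x - p') → κ x = 0 := by
    intro x hx
    rw [hκ]
    simp only
    rw [U_zero (by omega), zero_mul]
  refine ⟨fun x => gu x + κ x, ?_, ?_, ?_, ?_⟩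
  · refine (guGB.add κGB).mono ?_
    have e : (18 + 160 * CG + t) / (l : ℝ) = 16 * (1 + 10 * CG) / l + (t + 2) / l := by ring
    rw [e]
    refine add_le_add ?_ le_rfl
    have : (l : ℝ) ≤ 64 * s := by exact_mod_cast (by omega : l ≤ 64 * s)
    rw [div_le_div_iff₀ (by push_cast; positivity) hl']
    push_cast
    nlinarith
  · intro x
    refine (abs_add_le _ _).trans ?_
    have := gub x
    have := κb x
    linarith
  · rintro ⟨x, b⟩ hx
    simp only at hx
    have h1 := np x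
    have h5 := (sz_step (x - p) b).2
    have h6 := (sz_step (x - p') b).2
    rw [gr_add, gr_eq gu, gu0 x (by omega), gu0 (x + eb b) (by rw [add_sub_right_comm]; omega),
      gr_eq, gr_eq, hκ]
    simp only
    rw [U_one hl0 (show sz (x - p') ≤ 21 * l by omega),
      U_one hl0 (show sz (x + eb b - p') ≤ 21 * l by rw [add_sub_right_comm]; omega)]
    ring
  · rintro ⟨x, b⟩ hx
    simp only at hx
    have h1 := np x
    have h5 := (sz_step (x - p') b).1
    rw [gr_add, gue x b (by omega), gr_eq κ, κ0 x (by omega),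
      κ0 (x + eb b) (by rw [add_sub_right_comm]; omega)]
    ring

/-- **the mixed difference** -/
theorem SysI.mixed (H : SysI N l r Λ ε₂ ε₃ D0 D1 ρ) (hR : RefB b0 (20 * l))
    (hId : HasId N b0 l r L) (hL : 0 ≤ L) {s : ℕ} (hs : r = 64 * s)
    {F0 F0' F1 F1' : ℤ → ℤ → ℝ} (h0 : F0 ∈ D0) (h0' : F0' ∈ D0) (h1 : F1 ∈ D1) (h1' : F1' ∈ D1)
    {p p' q q' : V N} (hu : l1 (p' - p) ≤ s) (hv : l1 (q' - q) ≤ s) (f1 : Far r p q)
    (f2 : Far r p' q) (f3 : Far r p q') (f4 : Far r p' q')
    (hΛ : 10000000000 * (1 + CG + L) ≤ Λ) (hr : 4096 * l ≤ r) :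
    |sgI ρ b0 l r L F0' F1' p' q' - sgI ρ b0 l r L F0' F1 p' q - sgI ρ b0 l r L F0 F1' p q' +
      sgI ρ b0 l r L F0 F1 p q| ≤ 16 * eB N l ε₂ ε₃ := by
  have hC := CG_pos
  have hl4 := H.hl
  have hl0 : 0 < l := by omega
  have hlr := H.hlr
  have hrN := H.hrN
  have hl' : (0 : ℝ) < l := by exact_mod_cast hl0
  have hΛ0 : 0 ≤ Λ := by nlinarith
  have he3 := H.eB_ge hΛ0
  have su : sz (p' - p) ≤ s := (sz_le_l1 _).trans hu
  have sv : sz (q' - q) ≤ s := (sz_le_l1 _).trans hv
  obtain ⟨a1, a2, a3⟩ := gI_spec hId f1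
  obtain ⟨b1, b2, b3⟩ := gI_spec hId f2
  obtain ⟨c1, c2, c3⟩ := gI_spec hId f3
  have e00 : sgI ρ b0 l r L F0 F1 p q = ρ (cfg F0 F1 p q (gI N b0 l r L p q)) := rfl
  rw [e00]
  generalize gI N b0 l r L p q = g00 at a1 a2 a3
  generalize gI N b0 l r L p' q = gp at b1 b2 b3
  generalize gI N b0 l r L p q' = gq at c1 c2 c3
  have ll : ∀ {g : V N → ℝ}, GB (L / r) g → GB (L / l) g := fun hg => hg.rl hL hl0 (by omega)
  obtain ⟨δp, dp1, dp2, dp3, dp4⟩ := mv (N := N) (l := l) (s := s) hl4 (by omega) (by omega) hu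
    (f := fun x => gp x - g00 x) (t := 2 * L)
    (((ll b2).sub (ll a2)).mono (le_of_eq (by ring))) (fun x => by
      refine (abs_sub _ _).trans ?_
      have := b3 x
      have := a3 x
      linarith)
  obtain ⟨δq, dq1, dq2, dq3, dq4⟩ := mv (N := N) (l := l) (s := s) hl4 (by omega) (by omega) hv
    (f := fun x => g00 x - gq x) (t := 2 * L)
    (((ll a2).sub (ll c2)).mono (le_of_eq (by ring))) (fun x => by
      refine (abs_sub _ _).trans ?_
      have := c3 x
      have := a3 x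
      linarith)
  -- bD identities
  have hq2 : ∀ e, bD p q e = bD p p' e + bD p' q e := by
    intro e
    refine bD_add ?_ e
    have := f2.2
    omega
  have hq3 : ∀ e, bD p q' e = bD p q e + bD q q' e := by
    intro e
    refine bD_add ?_ e
    have := f1.2
    omega
  have hq4 : ∀ e, bD p' q' e = bD p' q e + bD q q' e := by
    intro e
    refine bD_add ?_ e
    have := f2.2
    omega
  -- distances
  have dpq : ∀ x : V N, sz (x - q) ≤ 9 * s → 9 * s ≤ sz (x - p) := by
    intro x hx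
    have h3 := sz_add_le (q - x) (x - p)
    rw [sub_add_sub_cancel, sz_sub_comm q x] at h3
    have := f1.1
    omega
  have dqp : ∀ x : V N, sz (x - p) ≤ 9 * s → 9 * s ≤ sz (x - q) := by
    intro x hx
    have h3 := sz_add_le (q - x) (x - p)
    rw [sub_add_sub_cancel, sz_sub_comm q x] at h3
    have := f1.1
    omega
  have np : ∀ x : V N, sz (x - p) ≤ sz (x - p') + s := by
    intro x
    have h3 := sz_add_le (x - p') (p' - p)
    rw [sub_add_sub_cancel] at h3
    omega
  have nq : ∀ x : V N, sz (x - q) ≤ sz (x - q') + s := by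
    intro x
    have h3 := sz_add_le (x - q') (q' - q)
    rw [sub_add_sub_cancel] at h3
    omega
  have e10 : ∀ e, gr (fun x => g00 x + δp x) e = gr g00 e + gr δp e := fun e => gr_add _ _ e
  have e01 : ∀ e, gr (fun x => g00 x - δq x) e = gr g00 e - gr δq e := fun e => gr_sub _ _ e
  have e11 : ∀ e, gr (fun x => (g00 x + δp x) - δq x) e = gr g00 e + gr δp e - gr δq e := by
    intro e
    rw [gr_sub, gr_add]
  -- ideality
  have I10 : Idl b0 (20 * l) p' q (fun x => g00 x + δp x) := by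
    constructor
    · intro e he
      rw [e10, dp3 e he, gr_sub, ← b1.at0 e he]
      ring
    · intro e he
      have h5 := dpq e.1 (by omega)
      rw [e10, dp4 e (by omega), ← a1.at1 e he, hq2]
      ring
  have I01 : Idl b0 (20 * l) p q' (fun x => g00 x - δq x) := by
    constructor
    · intro e he
      have h5 := dqp e.1 (by omega)
      rw [e01, dq4 e (by omega), ← a1.at0 e he, hq3]
      ring
    · intro e he
      rw [e01, dq3 e he, gr_sub, ← c1.at1 e he]
      ring
  have I11 : Idl b0 (20 * l) p' q' (fun x => (g00 x + δp x) - δq x) := by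
    constructor
    · intro e he
      have h6 := np e.1
      have h5 := dqp e.1 (by omega)
      rw [e11, dq4 e (by omega), dp3 e he, gr_sub, ← b1.at0 e he, hq4]
      ring
    · intro e he
      have h6 := nq e.1
      have h5 := dpq e.1 (by omega)
      have h7 : bD p' q' e = bD p q' e - bD p p' e := by
        rw [hq3, hq4, hq2]
        ring
      rw [e11, dp4 e (by omega), dq3 e he, gr_sub, ← c1.at1 e he, h7]
      ring
  -- sizes
  obtain ⟨S, hS⟩ : ∃ S : ℝ, S = 1000 * (1 + CG + L) := ⟨_, rfl⟩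
  have hS0 : 0 ≤ S := by rw [hS]; positivity
  have hLS : L ≤ S := by rw [hS]; nlinarith
  have hS1 : 1 ≤ S := by rw [hS]; nlinarith
  have hSL : 18 + 160 * CG + 2 * L ≤ S / 4 := by rw [hS]; nlinarith
  have hSC : 2 * CG + 2 ≤ S / 4 := by rw [hS]; nlinarith
  have hSΛ : 1000000 * (1 + CG + S + S) ≤ Λ := by
    rw [hS]
    nlinarith
  have S10 : GB (S / l) (fun x => g00 x + δp x) := by
    refine ((ll a2).add dp1).mono ?_
    rw [← add_div]
    refine div_le_div_of_nonneg_right ?_ hl'.le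
    rw [hS] at hSL ⊢
    nlinarith
  have S01 : GB (S / l) (fun x => g00 x - δq x) := by
    refine ((ll a2).sub dq1).mono ?_
    rw [← add_div]
    refine div_le_div_of_nonneg_right ?_ hl'.le
    rw [hS] at hSL ⊢
    nlinarith
  have S11 : GB (S / l) (fun x => (g00 x + δp x) - δq x) := by
    refine (((ll a2).add dp1).sub dq1).mono ?_
    rw [← add_div, ← add_div]
    refine div_le_div_of_nonneg_right ?_ hl'.le
    rw [hS] at hSL ⊢
    nlinarith
  have B10 : ∀ x, |g00 x + δp x| ≤ S := by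
    intro x
    refine (abs_add_le _ _).trans ?_
    have := a3 x
    have := dp2 x
    rw [hS]
    nlinarith
  have B01 : ∀ x, |g00 x - δq x| ≤ S := by
    intro x
    refine (abs_sub _ _).trans ?_
    have := a3 x
    have := dq2 x
    rw [hS]
    nlinarith
  have B11 : ∀ x, |(g00 x + δp x) - δq x| ≤ S := by
    intro x
    refine (abs_sub _ _).trans ?_
    have := abs_add_le (g00 x) (δp x)
    have := a3 x
    have := dp2 x
    have := dq2 x
    rw [hS]
    nlinarith
  -- the four fields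
  have t1 := H.sgI_eq hR hId hL h0' h1 f2 hLS S10 I10 B10 hS1 hSΛ
  have t2 := H.sgI_eq hR hId hL h0 h1' f3 hLS S01 I01 B01 hS1 hSΛ
  have t3 := H.sgI_eq hR hId hL h0' h1' f4 hLS S11 I11 B11 hS1 hSΛ
  have kk : ∀ {F0 F1 : ℤ → ℤ → ℝ}, F0 ∈ D0 → F1 ∈ D1 → ∀ {p q : V N}, Far r p q →
      ∀ {g : V N → ℝ}, GB (S / l) g → KK l r Λ D0 D1 (cfg F0 F1 p q g) :=
    fun h0 h1 _ _ hf _ hg => KK.core' h0 h1 hf hg (by nlinarith)
  have hloc := H.loc p (8 * s) (cfg F0 F1 p q g00)
    (fun e => cfg F0' F1 p' q (fun x => g00 x + δp x) e - cfg F0 F1 p q g00 e)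
    (fun e => cfg F0 F1' p q' (fun x => g00 x - δq x) e - cfg F0 F1 p q g00 e) (by omega)
    (KK.core' h0 h1 f1 (ll a2) (by nlinarith))
    (by
      have e : (fun e => cfg F0 F1 p q g00 e +
          (cfg F0' F1 p' q (fun x => g00 x + δp x) e - cfg F0 F1 p q g00 e)) =
          cfg F0' F1 p' q (fun x => g00 x + δp x) := by
        funext e
        ring
      rw [e]
      exact kk h0' h1 f2 S10)
    (by
      have e : (fun e => cfg F0 F1 p q g00 e +
          (cfg F0 F1' p q' (fun x => g00 x - δq x) e - cfg F0 F1 p q g00 e)) =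
          cfg F0 F1' p q' (fun x => g00 x - δq x) := by
        funext e
        ring
      rw [e]
      exact kk h0 h1' f3 S01)
    (by
      have e : (fun e => cfg F0 F1 p q g00 e +
          (cfg F0' F1 p' q (fun x => g00 x + δp x) e - cfg F0 F1 p q g00 e) +
          (cfg F0 F1' p q' (fun x => g00 x - δq x) e - cfg F0 F1 p q g00 e)) =
          cfg F0' F1' p' q' (fun x => (g00 x + δp x) - δq x) := by
        funext e
        unfold cfg
        rw [e10, e01, e11, hq4, hq3]
        ring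
      rw [e]
      exact kk h0' h1' f4 S11)
    (by
      rintro ⟨x, b⟩ hx
      by_contra h4
      simp only at h4
      refine hx ?_
      have h5 := np x
      unfold cfg
      rw [gr_dec_zero (H.supp0 F0 h0) b (by omega), gr_dec_zero (H.supp0 F0' h0') b (by omega),
        e10, dp4 (x, b) (by show 8 * s + 1 ≤ sz (x - p); omega), hq2]
      ring)
    (by
      rintro ⟨x, b⟩ hx
      by_contra h4
      simp only at h4
      refine hx ?_
      have h5 := nq x
      have a3 := f1.1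
      have a4 := sz_add_le (q - x) (x - p)
      rw [sub_add_sub_cancel, sz_sub_comm q x] at a4
      unfold cfg
      rw [gr_dec_zero (H.supp1 F1 h1) b (by omega), gr_dec_zero (H.supp1 F1' h1') b (by omega),
        e01, dq4 (x, b) (by show 8 * s + 1 ≤ sz (x - q); omega), hq3]
      ring)
  have e1 : (fun e => cfg F0 F1 p q g00 e +
      (cfg F0' F1 p' q (fun x => g00 x + δp x) e - cfg F0 F1 p q g00 e)) =
      cfg F0' F1 p' q (fun x => g00 x + δp x) := by
    funext e
    ring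
  have e2 : (fun e => cfg F0 F1 p q g00 e +
      (cfg F0 F1' p q' (fun x => g00 x - δq x) e - cfg F0 F1 p q g00 e)) =
      cfg F0 F1' p q' (fun x => g00 x - δq x) := by
    funext e
    ring
  have e3 : (fun e => cfg F0 F1 p q g00 e +
      (cfg F0' F1 p' q (fun x => g00 x + δp x) e - cfg F0 F1 p q g00 e) +
      (cfg F0 F1' p q' (fun x => g00 x - δq x) e - cfg F0 F1 p q g00 e)) =
      cfg F0' F1' p' q' (fun x => (g00 x + δp x) - δq x) := by
    funext e
    unfold cfg
    rw [e10, e01, e11, hq4, hq3]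
    ring
  rw [e1, e2, e3] at hloc
  rw [abs_le] at hloc t1 t2 t3 ⊢
  constructor <;> linarith

end

end

end Vale.Agent.P159.H817
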