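import Vale.Agent.P159.H817.Id4

/-!
P159 / module STATG-IDEAL (helper817), part 5: the lattice of moves.
-/

set_option linter.unusedSectionVars false

namespace Vale.Agent.P159.H817

open Finset
open Vale.Agent.P159.TM.Spec (V)

noncomputable section

section

variable {N : ℕ} [NeZero N] {l r : ℕ} {Λ ε₂ ε₃ : ℝ} {D0 D1 : Dec} {ρ : (V N × Bool → ℝ) → ℝ}
  {b0 : ℤ → ℤ → Bool → ℝ} {L : ℝ}

/-- translation -/
lemma SysI.sg_tr (H : SysI N l r Λ ε₂ ε₃ D0 D1 ρ) (hR : RefB b0 (20 * l))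
    (hId : HasId N b0 l r L) (hL : 0 ≤ L) (hΛ : 10000000000 * (1 + CG + L) ≤ Λ)
    {F0 F1 : ℤ → ℤ → ℝ} (h0 : F0 ∈ D0) (h1 : F1 ∈ D1) {p q : V N} (hf : Far r p q) (a : V N) :
    |sgI ρ b0 l r L F0 F1 (p + a) (q + a) - sgI ρ b0 l r L F0 F1 p q| ≤ 5 * eB N l ε₂ ε₃ := by
  have hC := CG_pos
  have hl4 := H.hl
  have hlr := H.hlr
  obtain ⟨a1, a2, a3⟩ := gI_spec hId hf
  have hf' : Far r (p + a) (q + a) := by
    unfold Far at hf ⊢
    rw [add_sub_add_right_eq_sub]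
    exact hf
  have hl' : (0 : ℝ) < l := by exact_mod_cast (by omega : 0 < l)
  have a4 : GB (L / l) (gI N b0 l r L p q) := a2.rl hL (by omega) (by omega)
  have h2 := H.tr h0 h1 hf (a4.mono (div_le_div_of_nonneg_right (by nlinarith) hl'.le)) a
  have h3 := H.sgI_eq hR hId hL h0 h1 hf' (s := L) le_rfl (a4.shift a) (a1.shift a) (B := 1)
    (fun x => a3 _) le_rfl (by nlinarith)
  rw [h2, abs_sub_comm] at h3
  exact h3

/-- evenness -/
lemma SysI.sg_ev (H : SysI N l r Λ ε₂ ε₃ D0 D1 ρ) (hR : RefB b0 (20 * l))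
    (hId : HasId N b0 l r L) (hL : 0 ≤ L) (hΛ : 10000000000 * (1 + CG + L) ≤ Λ)
    {F0 F1 : ℤ → ℤ → ℝ} (h0 : F0 ∈ D0) (h1 : F1 ∈ D1) {p q : V N} (hf : Far r p q) :
    |sgI ρ b0 l r L (fun i j => -F1 i j) (fun i j => -F0 i j) q p -
      sgI ρ b0 l r L F0 F1 p q| ≤ 5 * eB N l ε₂ ε₃ := by
  have hC := CG_pos
  have hl4 := H.hl
  have hlr := H.hlr
  obtain ⟨a1, a2, a3⟩ := gI_spec hId hf
  have hl' : (0 : ℝ) < l := by exact_mod_cast (by omega : 0 < l)
  have a4 : GB (L / l) (gI N b0 l r L p q) := a2.rl hL (by omega) (by omega)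
  have h2 := H.ev h0 h1 hf (a4.mono (div_le_div_of_nonneg_right (by nlinarith) hl'.le))
  have h3 := H.sgI_eq hR hId hL (H.neg10 _ h1) (H.neg01 _ h0) hf.symm (s := L) le_rfl a4.neg
    (a1.neg (H.far_lt hf)) (B := 1) (fun x => by rw [abs_neg]; exact a3 _) le_rfl (by nlinarith)
  rw [h2, abs_sub_comm] at h3
  exact h3

/-- the functional in the lattice of moves -/
def SI (N : ℕ) [NeZero N] (ρ : (V N × Bool → ℝ) → ℝ) (b0 : ℤ → ℤ → Bool → ℝ) (l r : ℕ) (L : ℝ)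
    (F0 F1 : ℤ → ℤ → ℝ) (a b : ℤ) : ℝ :=
  sgI ρ b0 l r L F0 F1 0 (XX N a b)

lemma SysI.far_XX (H : SysI N l r Λ ε₂ ε₃ D0 D1 ρ) {s : ℕ} (hs : r = 64 * s) {a b c d : ℤ}
    (h : gd s (a - c) (b - d)) : Far r (XX N c d) (XX N a b) := by
  have hl := H.hl
  have hlr := H.hlr
  have hrN := H.hrN
  unfold Far
  unfold gd at h
  rw [XX_sub, sz_XX (by omega) (by omega)]
  omega

/-- translation -/
lemma SysI.SS_tr (H : SysI N l r Λ ε₂ ε₃ D0 D1 ρ) (hR : RefB b0 (20 * l))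
    (hId : HasId N b0 l r L) (hL : 0 ≤ L) (hΛ : 10000000000 * (1 + CG + L) ≤ Λ) {s : ℕ}
    (hs : r = 64 * s) {F0 F1 : ℤ → ℤ → ℝ} (h0 : F0 ∈ D0) (h1 : F1 ∈ D1) {a b c d : ℤ}
    (h : gd s (a - c) (b - d)) :
    |sgI ρ b0 l r L F0 F1 (XX N c d) (XX N a b) - SI N ρ b0 l r L F0 F1 (a - c) (b - d)| ≤
      5 * eB N l ε₂ ε₃ := by
  have hf := H.far_XX hs h
  have h2 := H.sg_tr hR hId hL hΛ h0 h1 hf (-XX N c d)
  rw [add_neg_cancel, ← sub_eq_add_neg, XX_sub] at h2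
  unfold SI
  rw [abs_sub_comm]
  exact h2

/-- evenness -/
lemma SysI.SS_ev (H : SysI N l r Λ ε₂ ε₃ D0 D1 ρ) (hR : RefB b0 (20 * l))
    (hId : HasId N b0 l r L) (hL : 0 ≤ L) (hΛ : 10000000000 * (1 + CG + L) ≤ Λ) {s : ℕ}
    (hs : r = 64 * s) {F : ℤ → ℤ → ℝ} (h0 : F ∈ D0) {a b : ℤ} (h : gd s a b) :
    |SI N ρ b0 l r L F (fun i j => -F i j) (-a) (-b) -
      SI N ρ b0 l r L F (fun i j => -F i j) a b| ≤ 10 * eB N l ε₂ ε₃ := by
  have h1 := H.neg01 F h0
  have hf : Far r (XX N 0 0) (XX N a b) := H.far_XX hs (by simpa using h)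
  have h2 := H.sg_ev hR hId hL hΛ h0 h1 hf
  have h4 : gd s (0 - a) (0 - b) := by
    unfold gd at h ⊢
    omega
  have h3 := H.SS_tr hR hId hL hΛ hs h0 h1 h4
  rw [zero_sub, zero_sub] at h3
  simp only [neg_neg] at h2
  have e : sgI ρ b0 l r L F (fun i j => -F i j) (XX N 0 0) (XX N a b) =
      SI N ρ b0 l r L F (fun i j => -F i j) a b := by
    unfold SI
    rw [XX_zero]
  rw [e] at h2
  rw [abs_le] at h2 h3 ⊢
  constructor <;> linarith

/-- the mixed difference in the lattice of moves -/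
lemma SysI.SS_mixed (H : SysI N l r Λ ε₂ ε₃ D0 D1 ρ) (hR : RefB b0 (20 * l))
    (hId : HasId N b0 l r L) (hL : 0 ≤ L) (hΛ : 10000000000 * (1 + CG + L) ≤ Λ)
    (hr : 4096 * l ≤ r) {s : ℕ} (hs : r = 64 * s)
    {F0 F0' F1 F1' : ℤ → ℤ → ℝ} (h0 : F0 ∈ D0) (h0' : F0' ∈ D0) (h1 : F1 ∈ D1) (h1' : F1' ∈ D1)
    {a b c d c' d' : ℤ} (hu : c.natAbs + d.natAbs ≤ s) (hv : c'.natAbs + d'.natAbs ≤ s)
    (g1 : gd s a b) (g2 : gd s (a + c) (b + d)) (g3 : gd s (a + c') (b + d'))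
    (g4 : gd s (a + c + c') (b + d + d')) :
    |SI N ρ b0 l r L F0' F1' (a + c + c') (b + d + d') - SI N ρ b0 l r L F0' F1 (a + c) (b + d) -
        SI N ρ b0 l r L F0 F1' (a + c') (b + d') + SI N ρ b0 l r L F0 F1 a b| ≤
      36 * eB N l ε₂ ε₃ := by
  have hC := CG_pos
  have hl := H.hl
  have hlr := H.hlr
  have hrN := H.hrN
  have x1 : gd s (a - 0) (b - 0) := by simpa using g1
  have x2 : gd s (a - -c) (b - -d) := by simpa using g2
  have x3 : gd s (a + c' - 0) (b + d' - 0) := by simpa using g3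
  have x4 : gd s (a + c' - -c) (b + d' - -d) := by
    have e1 : a + c' - -c = a + c + c' := by ring
    have e2 : b + d' - -d = b + d + d' := by ring
    rw [e1, e2]
    exact g4
  have t1 := H.SS_tr hR hId hL hΛ hs h0 h1 x1
  have t2 := H.SS_tr hR hId hL hΛ hs h0' h1 x2
  have t3 := H.SS_tr hR hId hL hΛ hs h0 h1' x3
  have t4 := H.SS_tr hR hId hL hΛ hs h0' h1' x4
  have h := H.mixed hR hId hL hs h0 h0' h1 h1' (p := XX N 0 0) (p' := XX N (-c) (-d))
    (q := XX N a b) (q' := XX N (a + c') (b + d'))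
    (by
      rw [XX_sub, l1_XX (by omega) (by omega)]
      omega)
    (by
      rw [XX_sub, l1_XX (by omega) (by omega)]
      omega)
    (H.far_XX hs x1) (H.far_XX hs x2) (H.far_XX hs x3) (H.far_XX hs x4) hΛ hr
  have e1 : a + c' - -c = a + c + c' := by ring
  have e2 : b + d' - -d = b + d + d' := by ring
  rw [e1, e2] at t4
  rw [sub_zero, sub_zero] at t1 t3
  rw [sub_neg_eq_add, sub_neg_eq_add] at t2
  rw [abs_le] at h t1 t2 t3 t4 ⊢
  constructor <;> linarith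

/-- one step to the right costs little -/
theorem SysI.SS_step (H : SysI N l r Λ ε₂ ε₃ D0 D1 ρ) (hR : RefB b0 (20 * l))
    (hId : HasId N b0 l r L) (hL : 0 ≤ L) (hΛ : 10000000000 * (1 + CG + L) ≤ Λ)
    (hr : 4096 * l ≤ r) {s : ℕ} (hs : r = 64 * s)
    {F0 F1 : ℤ → ℤ → ℝ} (h0 : F0 ∈ D0) (h1 : F1 ∈ D1) {i t : ℕ} (hi : 64 * s ≤ i)
    (hi' : i ≤ 128 * s) (ht : t ≤ s) :
    |SI N ρ b0 l r L F0 F1 (i + t) 0 - SI N ρ b0 l r L F0 F1 i 0| ≤ 7500 * eB N l ε₂ ε₃ := by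
  have hC := CG_pos
  have hΛ0 : 0 ≤ Λ := by nlinarith
  have hl4 := H.hl
  have hlr := H.hlr
  have hs1 : 1 ≤ s := by omega
  have he := (H.eB_ge hΛ0).2
  set E := 36 * eB N l ε₂ ε₃ with hE
  set G1 : ℤ → ℤ → ℝ := fun i j => -F0 i j with hG1
  have m1 : G1 ∈ D1 := H.neg01 F0 h0
  -- independence of the decoration
  have k1 : |(SI N ρ b0 l r L F0 F1 (i + t) 0 - SI N ρ b0 l r L F0 F1 i 0) -
      (SI N ρ b0 l r L F0 G1 (i + t) 0 - SI N ρ b0 l r L F0 G1 i 0)| ≤ E := by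
    have h := H.SS_mixed hR hId hL hΛ hr hs h0 h0 m1 h1 (a := i) (b := 0) (c := t) (d := 0)
      (c' := 0) (d' := 0)
      (by omega) (by omega) (by unfold gd; omega) (by unfold gd; omega) (by unfold gd; omega)
      (by unfold gd; omega)
    simp only [add_zero] at h
    have e : (SI N ρ b0 l r L F0 F1 (i + t) 0 - SI N ρ b0 l r L F0 F1 i 0) -
      (SI N ρ b0 l r L F0 G1 (i + t) 0 - SI N ρ b0 l r L F0 G1 i 0) =
        SI N ρ b0 l r L F0 F1 (i + t) 0 -
        SI N ρ b0 l r L F0 G1 (i + t) 0 - SI N ρ b0 l r L F0 F1 i 0 +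
        SI N ρ b0 l r L F0 G1 i 0 := by ring
    rw [e]
    exact h
  -- the path
  set D : ℤ → ℤ → ℝ := fun a b => SI N ρ b0 l r L F0 G1 (a + t) b - SI N ρ b0 l r L F0 G1 a b
    with hD
  have dh : ∀ a b c : ℤ, c.natAbs ≤ s → gd s a b → gd s (a + c) b → gd s (a + t) b →
      gd s (a + c + t) b → |D (a + c) b - D a b| ≤ E := by
    intro a b c hc g1 g2 g3 g4
    have h := H.SS_mixed hR hId hL hΛ hr hs h0 h0 m1 m1 (a := a) (b := b) (c := c) (d := 0)
      (c' := t) (d' := 0)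
      (by simpa using hc) (by simpa using ht) g1 (by simpa using g2) (by simpa using g3)
      (by simpa using g4)
    simp only [add_zero] at h
    have e : D (a + c) b - D a b = SI N ρ b0 l r L F0 G1 (a + c + t) b -
        SI N ρ b0 l r L F0 G1 (a + c) b -
        SI N ρ b0 l r L F0 G1 (a + t) b + SI N ρ b0 l r L F0 G1 a b := by
      simp only [hD]
      ring
    rw [e]
    exact h
  have dv : ∀ a b : ℤ, gd s a b → gd s (a + t) b → gd s a (b + s) → gd s (a + t) (b + s) →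
      |D a (b + s) - D a b| ≤ E := by
    intro a b g1 g2 g3 g4
    have h := H.SS_mixed hR hId hL hΛ hr hs h0 h0 m1 m1 (a := a) (b := b) (c := t) (d := 0)
      (c' := 0) (d' := s)
      (by simpa using ht) (by simp) g1 (by simpa using g2) (by simpa using g3)
      (by simpa using g4)
    simp only [add_zero] at h
    have e : D a (b + s) - D a b = SI N ρ b0 l r L F0 G1 (a + t) (b + s) -
        SI N ρ b0 l r L F0 G1 (a + t) b -
        SI N ρ b0 l r L F0 G1 a (b + s) + SI N ρ b0 l r L F0 G1 a b := by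
      simp only [hD]
      ring
    rw [e]
    exact h
  -- up
  have c1 := chain (f := fun j : ℕ => D i ((j * s : ℕ) : ℤ)) (e := E) (n := 65) (fun j hj => by
    have hjs : j * s ≤ 64 * s := Nat.mul_le_mul_right s (by omega)
    have := dv i ((j * s : ℕ) : ℤ) (by unfold gd; omega) (by unfold gd; omega)
      (by unfold gd; omega) (by unfold gd; omega)
    have e : (((j + 1) * s : ℕ) : ℤ) = ((j * s : ℕ) : ℤ) + s := by push_cast; ring
    rw [e]
    exact this)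
  -- left
  have c2 := chain (f := fun j : ℕ => D (max (-(i : ℤ) - t) (i - ((j * s : ℕ) : ℤ))) (65 * s))
    (e := E) (n := 258) (fun j hj => by
      have hjs : j * s ≤ 257 * s := Nat.mul_le_mul_right s (by omega)
      have e : (((j + 1) * s : ℕ) : ℤ) = ((j * s : ℕ) : ℤ) + s := by push_cast; ring
      have h := dh (max (-(i : ℤ) - t) (i - ((j * s : ℕ) : ℤ))) (65 * s)
        (max (-(i : ℤ) - t) (i - (((j + 1) * s : ℕ) : ℤ)) -
          max (-(i : ℤ) - t) (i - ((j * s : ℕ) : ℤ)))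
        (by rw [e]; omega) (by unfold gd; omega) (by unfold gd; rw [e]; omega)
        (by unfold gd; omega) (by unfold gd; rw [e]; omega)
      rw [add_sub_cancel] at h
      exact h)
  -- down
  have c3 := chain (f := fun j : ℕ => D (-(i : ℤ) - t) ((j * s : ℕ) : ℤ)) (e := E) (n := 65)
    (fun j hj => by
      have hjs : j * s ≤ 64 * s := Nat.mul_le_mul_right s (by omega)
      have := dv (-(i : ℤ) - t) ((j * s : ℕ) : ℤ) (by unfold gd; omega) (by unfold gd; omega)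
        (by unfold gd; omega) (by unfold gd; omega)
      have e : (((j + 1) * s : ℕ) : ℤ) = ((j * s : ℕ) : ℤ) + s := by push_cast; ring
      rw [e]
      exact this)
  have e1 : max (-(i : ℤ) - t) (i - ((258 * s : ℕ) : ℤ)) = -(i : ℤ) - t := by
    rw [max_eq_left]
    push_cast
    omega
  have e1' : max (-(i : ℤ) - t) (i - ((0 * s : ℕ) : ℤ)) = i := by
    rw [max_eq_right]
    · simp
    · omega
  rw [e1, e1'] at c2
  have e65 : ((65 * s : ℕ) : ℤ) = 65 * s := by push_cast; ring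
  have e00 : ((0 * s : ℕ) : ℤ) = 0 := by simp
  rw [e65, e00] at c1 c3
  -- evenness
  have e2 : |D (-(i : ℤ) - t) 0 + D i 0| ≤ 20 * eB N l ε₂ ε₃ := by
    simp only [hD]
    have v1 := H.SS_ev hR hId hL hΛ hs h0 (a := i) (b := 0) (by unfold gd; omega)
    have v2 := H.SS_ev hR hId hL hΛ hs h0 (a := (i : ℤ) + t) (b := 0) (by unfold gd; omega)
    rw [neg_zero] at v1 v2
    have w1 : -(i : ℤ) - t + t = -i := by ring
    have w2 : -(i : ℤ) - t = -(i + t) := by ring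
    rw [w1, w2]
    rw [abs_le] at v1 v2 ⊢
    constructor <;> linarith
  have e3 : (SI N ρ b0 l r L F0 G1 (i + t) 0 - SI N ρ b0 l r L F0 G1 i 0) = D i 0 := rfl
  rw [e3] at k1
  push_cast at c1 c2 c3
  rw [abs_le] at c1 c2 c3 k1 e2 ⊢
  constructor <;> linarith

/-- **`ρ` does not feel the distance** -/
theorem SysI.SS_all (H : SysI N l r Λ ε₂ ε₃ D0 D1 ρ) (hR : RefB b0 (20 * l))
    (hId : HasId N b0 l r L) (hL : 0 ≤ L) (hΛ : 10000000000 * (1 + CG + L) ≤ Λ)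
    (hr : 4096 * l ≤ r) {s : ℕ} (hs : r = 64 * s)
    {F0 F1 : ℤ → ℤ → ℝ} (h0 : F0 ∈ D0) (h1 : F1 ∈ D1) {R : ℕ}
    (hR1 : r ≤ R) (hR2 : R ≤ 2 * r) :
    |sgI ρ b0 l r L F0 F1 0 (R • e1) - sgI ρ b0 l r L F0 F1 0 (r • e1)| ≤
      480000 * eB N l ε₂ ε₃ := by
  have c := chain (f := fun j : ℕ => SI N ρ b0 l r L F0 F1 ((min R (r + j * s) : ℕ) : ℤ) 0)
    (e := 7500 * eB N l ε₂ ε₃) (n := 64) (fun j hj => by
      have hjs : j * s ≤ 63 * s := Nat.mul_le_mul_right s (by omega)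
      have e : (j + 1) * s = j * s + s := by ring
      have h := H.SS_step hR hId hL hΛ hr hs h0 h1 (i := min R (r + j * s))
        (t := min R (r + (j + 1) * s) - min R (r + j * s)) (by omega) (by omega)
        (by rw [e]; omega)
      have e2 : ((min R (r + j * s) : ℕ) : ℤ) +
          ((min R (r + (j + 1) * s) - min R (r + j * s) : ℕ) : ℤ) =
          ((min R (r + (j + 1) * s) : ℕ) : ℤ) := by
        rw [e]
        omega
      rw [e2] at h
      exact h)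
  have e1 : min R (r + 64 * s) = R := by omega
  have e2 : min R (r + 0 * s) = r := by omega
  rw [e1, e2] at c
  unfold SI at c
  rw [XX_ne1, XX_ne1] at c
  refine c.trans (le_of_eq ?_)
  push_cast
  ring

end

end

end Vale.Agent.P159.H817
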