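import Vale.Agent.P159.H817.Id5

/-!
P159 / module STATG-IDEAL (helper817), part 6: comparison of two tori, the theorem `statg_ideal`.
-/

set_option linter.unusedSectionVars false

namespace Vale.Agent.P159.H817

open Finset
open Vale.Agent.P159.TM.Spec (V)

noncomputable section

section

variable {N : ℕ} [NeZero N] {M : ℕ} [NeZero M]

/-- the parts of a field near the two cores `0`, `r e1` -/
def kap (l r : ℕ) (f : V N → ℝ) (x : V N) : ℝ :=
  U (21 * l) l (x - 0) * f x + U (21 * l) l (x - r • (e1 : V N)) * f x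

lemma kap_GB {l r : ℕ} (hl : 0 < l) {f : V N → ℝ} {s : ℝ} (hf : GB (s / l) f)
    (hb : ∀ x, |f x| ≤ 1) : GB ((2 * s + 2) / l) (kap l r f) ∧ ∀ x, |kap l r f x| ≤ 2 := by
  constructor
  · have h1 := GB.mul (U_shift_GB (N := N) (21 * l) hl 0) hf (fun x => abs_U _ _ _) hb
    have h2 := GB.mul (U_shift_GB (N := N) (21 * l) hl (r • e1)) hf (fun x => abs_U _ _ _) hb
    refine (h1.add h2).mono (le_of_eq ?_)
    ring
  · intro x
    unfold kap
    refine (abs_add_le _ _).trans ?_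
    rw [abs_mul, abs_mul]
    have a1 := abs_U (21 * l) l (x - 0)
    have a2 := abs_U (21 * l) l (x - r • (e1 : V N))
    have b1 : |U (21 * l) l (x - 0)| * |f x| ≤ 1 * 1 :=
      mul_le_mul a1 (hb x) (abs_nonneg _) zero_le_one
    have b2 : |U (21 * l) l (x - r • (e1 : V N))| * |f x| ≤ 1 * 1 :=
      mul_le_mul a2 (hb x) (abs_nonneg _) zero_le_one
    linarith

lemma sz_ne1q {r : ℕ} (hr : 2 * r ≤ N) (x : V N) : r ≤ sz x + sz (x - r • (e1 : V N)) := by
  have h1 := sz_add_le (r • (e1 : V N) - x) x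
  rw [sub_add_cancel, sz_ne1 hr, sz_sub_comm] at h1
  omega

lemma kap_zero {l r : ℕ} (hlr : 256 * l ≤ r) (hrN : 64 * r ≤ N) {f : V N → ℝ} {x : V N}
    (hx : 2 * r ≤ sz x) : kap l r f x = 0 := by
  have h1 := sz_add_le (x - r • (e1 : V N)) (r • (e1 : V N))
  rw [sub_add_cancel, sz_ne1 (by omega)] at h1
  rcases Nat.eq_zero_or_pos l with h0 | h0
  · subst h0
    unfold kap
    rw [U_zero (by rw [sub_zero]; omega), U_zero (by omega)]
    ring
  · unfold kap
    rw [U_zero (by rw [sub_zero]; omega), U_zero (by omega)]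
    ring

/-- near the cores the gradient of `kap f` is the gradient of `f` -/
lemma gr_kap {l r : ℕ} (hl : 4 ≤ l) (hlr : 256 * l ≤ r) (hrN : 64 * r ≤ N) {f : V N → ℝ}
    {e : V N × Bool} (he : sz (e.1 - 0) ≤ 20 * l ∨ sz (e.1 - r • (H817.e1 : V N)) ≤ 20 * l) :
    gr (kap l r f) e = gr f e := by
  obtain ⟨x, b⟩ := e
  simp only at he
  have h0 := sz_step (x - 0) b
  have h1 := sz_step (x - r • (e1 : V N)) b
  have h2 := sz_ne1q (r := r) (by omega) x
  have h3 := sz_ne1q (r := r) (by omega) (x + eb b)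
  have e0 : x - 0 + eb b = x + eb b - 0 := by abel
  have e1' : x - r • (e1 : V N) + eb b = x + eb b - r • (e1 : V N) := by abel
  rw [e0] at h0
  rw [e1'] at h1
  rw [sub_zero] at h0
  rw [gr_eq, gr_eq]
  unfold kap
  rcases he with he | he
  · rw [sub_zero] at he h0
    rw [U_one (by omega) (show sz (x - 0) ≤ 21 * l by rw [sub_zero]; omega),
      U_one (by omega) (show sz (x + eb b - 0) ≤ 21 * l by rw [sub_zero]; omega),
      U_zero (by omega), U_zero (by omega)]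
    ring
  · rw [sub_zero] at h0
    rw [U_one (by omega) (show sz (x - r • (H817.e1 : V N)) ≤ 21 * l by omega),
      U_one (by omega) (show sz (x + eb b - r • (H817.e1 : V N)) ≤ 21 * l by omega),
      U_zero (by rw [sub_zero]; omega), U_zero (by rw [sub_zero]; omega)]
    ring

lemma gcut_gr0 {r : ℕ} (hr : 1 ≤ r) (hrN : 64 * r ≤ N) {x : V N} (hx : sz x ≤ 3 * r) (b : Bool) :
    gr (gcut N r) (x, b) = 0 := by
  have h := cut_path (path_etr' (N := N) (n := r) (by omega)) (R := 4 * r) (by omega) (by omega)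
  have h5 := (sz_step x b).2
  rw [gr_eq]
  have h1 : gcut N r x = 0 := h.1 x (by rw [sub_zero]; omega)
  have h2 : gcut N r (x + eb b) = 0 := h.1 (x + eb b) (by rw [sub_zero]; omega)
  rw [h1, h2, sub_zero]

/-- **the cut ideal pair** is ideal -/
lemma Idl.cut {b0 : ℤ → ℤ → Bool → ℝ} {l r : ℕ} (hl : 4 ≤ l) (hlr : 256 * l ≤ r)
    (hrN : 64 * r ≤ N) {f : V N → ℝ} (hI : Idl b0 (20 * l) (0 : V N) (r • e1) f) :
    Idl b0 (20 * l) (0 : V N) (r • e1) (fun x => -gcut N r x + kap l r f x) := by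
  have key : ∀ e : V N × Bool, sz e.1 ≤ 3 * r →
      (sz (e.1 - 0) ≤ 20 * l ∨ sz (e.1 - r • (H817.e1 : V N)) ≤ 20 * l) →
      gr (fun x => -gcut N r x + kap l r f x) e = gr f e := by
    rintro ⟨x, b⟩ hx he
    have h1 : gr (fun x => -gcut N r x + kap l r f x) (x, b) =
        gr (fun x => -gcut N r x) (x, b) + gr (kap l r f) (x, b) := gr_add _ _ _
    have h2 : gr (fun x => -gcut N r x) (x, b) = -gr (gcut N r) (x, b) := gr_neg _ _
    rw [h1, h2, gr_kap hl hlr hrN he, gcut_gr0 (by omega) hrN hx]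
    ring
  constructor
  · intro e he
    rw [key e (by rw [sub_zero] at he; omega) (Or.inl he)]
    exact hI.at0 e he
  · intro e he
    have h1 := sz_add_le (e.1 - r • (e1 : V N)) (r • (e1 : V N))
    rw [sub_add_cancel, sz_ne1 (by omega)] at h1
    rw [key e (by omega) (Or.inr he)]
    exact hI.at1 e he

/-- extension of a function by zero -/
def exf (M : ℕ) [NeZero M] (f : V N → ℝ) (x : V (M * N)) : ℝ :=
  if 4 * sz x ≤ N then f (prj M x) else 0

lemma ext_gr {l r : ℕ} (hl : 4 ≤ l) (hlr : 256 * l ≤ r) (hrN : 64 * r ≤ N) (f : V N → ℝ) :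
    ext M (gr (kap l r f)) = gr (exf M (kap l r f)) := by
  funext e
  obtain ⟨x, b⟩ := e
  have hst := sz_step x b
  unfold ext
  rw [gr_eq (exf M (kap l r f))]
  unfold exf
  by_cases h : 4 * sz x ≤ N
  · rw [if_pos h, if_pos h]
    simp only
    rw [gr_eq, ← prj_eb (N := N) M b, ← prj_add]
    by_cases h2 : 4 * sz (x + eb b) ≤ N
    · rw [if_pos h2]
    · rw [if_neg h2, kap_zero hlr hrN (x := prj M (x + eb b)) (by
        rw [sz_prj (by omega)]
        omega)]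
  · rw [if_neg h, if_neg h]
    by_cases h2 : 4 * sz (x + eb b) ≤ N
    · rw [if_pos h2, kap_zero hlr hrN (x := prj M (x + eb b)) (by
        rw [sz_prj (by omega)]
        omega)]
      ring
    · rw [if_neg h2]
      ring

lemma exf_GB {l r : ℕ} (hl : 4 ≤ l) (hlr : 256 * l ≤ r) (hrN : 64 * r ≤ N) {f : V N → ℝ} {s : ℝ}
    (hs : 0 ≤ s) (hf : GB (s / l) f)
    (hb : ∀ x, |f x| ≤ 1) : GB ((2 * s + 2) / l) (exf M (kap l r f)) ∧
      ∀ x, |exf M (kap l r f) x| ≤ 2 := by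
  have h1 := kap_GB (r := r) (by omega : 0 < l) hf hb
  constructor
  · intro e
    rw [← ext_gr hl hlr hrN]
    unfold ext
    split_ifs
    · exact h1.1 _
    · rw [abs_zero]
      positivity
  · intro x
    unfold exf
    split_ifs
    · exact h1.2 _
    · rw [abs_zero]
      norm_num

/-- **extension of the cut ideal pair** -/
theorem ext_cfgI {l r : ℕ} {F0 F1 : ℤ → ℤ → ℝ} (h0 : SuppD l F0) (h1 : SuppD l F1) (hl : 4 ≤ l)
    (hlr : 256 * l ≤ r) (hrN : 64 * r ≤ N) (f : V N → ℝ) :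
    ext M (cfg F0 F1 (0 : V N) (r • e1) (fun x => -gcut N r x + kap l r f x)) =
      cfg F0 F1 (0 : V (M * N)) (r • e1) (fun x => gext N M r x + exf M (kap l r f) x) := by
  have h2 := ext_cfg (N := N) (M := M) h0 h1 (by omega) hlr hrN
  have h3 := ext_gr (M := M) hl hlr hrN f
  funext e
  rw [cfg_add, ← h2, ← h3]
  unfold ext
  split_ifs
  · rw [cfg_add]
  · ring

lemma suppD_zz (l : ℕ) : SuppD l (fun _ _ => (0 : ℝ)) := fun _ _ h => absurd rfl h

lemma cfg_zz (p q : V N) (g : V N → ℝ) (e : V N × Bool) :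
    cfg (fun _ _ => (0 : ℝ)) (fun _ _ => (0 : ℝ)) p q g e = bD p q e + gr g e := by
  have h : ∀ p : V N, gr (dec (fun _ _ => (0 : ℝ)) p) e = 0 := by
    intro p
    obtain ⟨x, b⟩ := e
    rw [gr_eq]
    unfold dec
    ring
  unfold cfg
  rw [h, h]
  ring

lemma Idl.ext {b0 : ℤ → ℤ → Bool → ℝ} {l r : ℕ} (hl : 4 ≤ l) (hlr : 256 * l ≤ r)
    (hrN : 64 * r ≤ N) {f : V N → ℝ} (hI : Idl b0 (20 * l) (0 : V N) (r • e1) f) :
    Idl b0 (20 * l) (0 : V (M * N)) (r • e1)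
      (fun x => gext N M r x + exf M (kap l r f) x) := by
  have hMN : N ≤ M * N := Nat.le_mul_of_pos_left N (NeZero.pos M)
  have hc := hI.cut hl hlr hrN
  have h2 := ext_cfgI (M := M) (suppD_zz l) (suppD_zz l) hl hlr hrN f
  have key : ∀ (x : V (M * N)) (b : Bool), 4 * sz x ≤ N →
      bD (0 : V (M * N)) (r • e1) (x, b) +
        gr (fun x => gext N M r x + exf M (kap l r f) x) (x, b) =
      bD (0 : V N) (r • e1) (prj M x, b) +
        gr (fun x => -gcut N r x + kap l r f x) (prj M x, b) := by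
    intro x b hx
    rw [← cfg_zz, ← cfg_zz, ← h2]
    unfold H817.ext
    rw [if_pos (show 4 * sz ((x, b) : V (M * N) × Bool).1 ≤ N from hx)]
  constructor
  · rintro ⟨x, b⟩ he
    simp only [sub_zero] at he
    rw [key x b (by omega), hc.at0 (prj M x, b) (by
      show sz (prj M x - 0) ≤ 20 * l
      rw [sub_zero, sz_prj (by omega)]
      exact he)]
    unfold nf
    simp only [sub_zero]
    have h3 := natAbs_le_sz x
    show b0 (pr1 N M x.1).valMinAbs (pr1 N M x.2).valMinAbs b = _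
    rw [vma_pr1 (by omega), vma_pr1 (by omega)]
  · rintro ⟨x, b⟩ he
    simp only at he
    have h1 := sz_add_le (x - r • (e1 : V (M * N))) (r • (e1 : V (M * N)))
    rw [sub_add_cancel, sz_ne1 (by omega)] at h1
    have e3 : prj (N := N) M x - r • (e1 : V N) = prj M (x - r • (e1 : V (M * N))) := by
      rw [prj_sub, prj_nsmul, prj_e1]
    rw [key x b (by omega), hc.at1 (prj M x, b) (by
      show sz (prj M x - r • (e1 : V N)) ≤ 20 * l
      rw [e3, sz_prj (by omega)]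
      exact he)]
    unfold nf
    simp only
    rw [e3]
    have h3 := natAbs_le_sz (x - r • (e1 : V (M * N)))
    show -b0 (pr1 N M (x - r • (e1 : V (M * N))).1).valMinAbs
      (pr1 N M (x - r • (e1 : V (M * N))).2).valMinAbs b = _
    rw [vma_pr1 (by omega), vma_pr1 (by omega)]

end

section

variable {N : ℕ} [NeZero N] {M : ℕ} [NeZero M] {l r : ℕ} {Λ ε₂ ε₃ : ℝ} {D0 D1 : Dec}
  {ρ : (V N × Bool → ℝ) → ℝ} {ρ' : (V (M * N) × Bool → ℝ) → ℝ}
  {b0 : ℤ → ℤ → Bool → ℝ} {L : ℝ}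

lemma eB_mono (H : SysI N l r Λ ε₂ ε₃ D0 D1 ρ) (hΛ : 0 ≤ Λ) :
    eB N l ε₂ ε₃ ≤ eB (M * N) l ε₂ ε₃ := by
  have hMN : N ≤ M * N := Nat.le_mul_of_pos_left N (NeZero.pos M)
  have h2 := H.eps hΛ
  have hl4 := H.hl
  have hl' : (0 : ℝ) < l := by exact_mod_cast (by omega : 0 < l)
  unfold eB
  refine mul_le_mul_of_nonneg_right ?_ (by linarith)
  refine mul_le_mul_of_nonneg_left ?_ (by norm_num)
  refine pow_le_pow_left₀ (by positivity) ?_ 2
  exact div_le_div_of_nonneg_right (by exact_mod_cast hMN) hl'.le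

/-- **the same ideal pair on the tori `N` and `M N`** -/
theorem SysI.torus (H : SysI N l r Λ ε₂ ε₃ D0 D1 ρ) (H' : SysI (M * N) l r Λ ε₂ ε₃ D0 D1 ρ')
    (hR : RefB b0 (20 * l)) (hId : HasId N b0 l r L) (hId' : HasId (M * N) b0 l r L) (hL : 0 ≤ L)
    (hX : ∀ β : V N × Bool → ℝ, KK l r Λ D0 D1 β → (∀ e, N < 7 * sz e.1 → β e = 0) →
      KK l r Λ D0 D1 (ext M β) → |ρ' (ext M β) - ρ β| ≤ ε₃)
    {F0 F1 : ℤ → ℤ → ℝ} (h0 : F0 ∈ D0) (h1 : F1 ∈ D1)
    (hΛ : 10000000000 * (1 + CG + L) ≤ Λ) :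
    |sgI ρ' b0 l r L F0 F1 0 (r • e1) - sgI ρ b0 l r L F0 F1 0 (r • e1)| ≤
      11 * eB (M * N) l ε₂ ε₃ := by
  have hC := CG_pos
  have hMN : N ≤ M * N := Nat.le_mul_of_pos_left N (NeZero.pos M)
  have hl4 := H.hl
  have hl0 : 0 < l := by omega
  have hlr := H.hlr
  have hrN := H.hrN
  have hl' : (0 : ℝ) < l := by exact_mod_cast hl0
  have hr0 : (0 : ℝ) < r := by exact_mod_cast (by omega : 0 < r)
  have hΛ0 : 0 ≤ Λ := by nlinarith
  have hf : Far r (0 : V N) (r • e1) := by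
    unfold Far
    rw [sub_zero, sz_ne1 (by omega)]
    omega
  have hf' : Far r (0 : V (M * N)) (r • e1) := by
    unfold Far
    rw [sub_zero, sz_ne1 (by omega)]
    omega
  obtain ⟨a1, a2, a3⟩ := gI_spec hId hf
  generalize gI N b0 l r L 0 (r • (e1 : V N)) = f at a1 a2 a3
  have a4 : GB (L / l) f := a2.rl hL hl0 (by omega)
  have hg := gcut_GB (N := N) (r := r) (by omega) hrN
  have hg' := gext_GB (N := N) (M := M) (r := r) (by omega) hrN
  have hk := kap_GB (r := r) hl0 a4 a3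
  have hk' := exf_GB (M := M) (r := r) hl4 hlr hrN hL a4 a3
  obtain ⟨S, hS⟩ : ∃ S : ℝ, S = 1000 * (1 + CG + L) := ⟨_, rfl⟩
  have hLS : L ≤ S := by rw [hS]; nlinarith
  have hS1 : 1 ≤ S := by rw [hS]; nlinarith
  have hSΛ : 1000000 * (1 + CG + S + S) ≤ Λ := by
    rw [hS]
    nlinarith
  have hSΛ' : S ≤ Λ := by nlinarith
  have g1 : GB (S / l) (fun x => -gcut N r x + kap l r f x) := by
    have c1 : GB ((1 + 10 * CG) / l) (fun x => -gcut N r x) :=
      (hg.1.rl (by positivity) hl0 (by omega)).neg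
    refine (c1.add hk.1).mono ?_
    rw [← add_div]
    refine div_le_div_of_nonneg_right ?_ hl'.le
    rw [hS]
    nlinarith
  have g2 : ∀ x, |-gcut N r x + kap l r f x| ≤ S := by
    intro x
    refine (abs_add_le _ _).trans ?_
    rw [abs_neg]
    have := hg.2 x
    have := hk.2 x
    rw [hS]
    nlinarith
  have g1' : GB (S / l) (fun x => gext N M r x + exf M (kap l r f) x) := by
    have c1 : GB (3 * (1 + 10 * CG) / l) (gext N M r) := hg'.1.rl (by positivity) hl0 (by omega)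
    refine (c1.add hk'.1).mono ?_
    rw [← add_div]
    refine div_le_div_of_nonneg_right ?_ hl'.le
    rw [hS]
    nlinarith
  have g2' : ∀ x, |gext N M r x + exf M (kap l r f) x| ≤ S := by
    intro x
    refine (abs_add_le _ _).trans ?_
    have := hg'.2 x
    have := hk'.2 x
    rw [hS]
    nlinarith
  have t1 := H.sgI_eq hR hId hL h0 h1 hf hLS g1 (a1.cut hl4 hlr hrN) g2 hS1 hSΛ
  have t2 := H'.sgI_eq hR hId' hL h0 h1 hf' hLS g1' (a1.ext hl4 hlr hrN) g2' hS1 hSΛ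
  have k1 := KK.core' (l := l) (r := r) (Λ := Λ) (D0 := D0) (D1 := D1) h0 h1 hf g1 hSΛ'
  have k2 := KK.core' (l := l) (r := r) (Λ := Λ) (D0 := D0) (D1 := D1) h0 h1 hf' g1' hSΛ'
  have hext := ext_cfgI (M := M) (H.supp0 _ h0) (H.supp1 _ h1) hl4 hlr hrN f
  have hz : ∀ e : V N × Bool, N < 7 * sz e.1 →
      cfg F0 F1 (0 : V N) (r • H817.e1) (fun x => -gcut N r x + kap l r f x) e = 0 := by
    rintro ⟨x, b⟩ he
    simp only at he
    have hst := sz_step x b
    have hsq : sz (r • (H817.e1 : V N)) = r := sz_ne1 (by omega)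
    have g1 := sz_add_le (x - r • (H817.e1 : V N)) (r • H817.e1)
    rw [sub_add_cancel, hsq] at g1
    have h := (cut_path (path_etr' (N := N) (n := r) (by omega)) (R := 4 * r) (by omega)
      (by omega)).2.2.2 x b (by rw [sub_zero]; omega)
    have h2 : gr (fun x => -gcut N r x) (x, b) = -bD (0 : V N) (r • H817.e1) (x, b) := by
      rw [← h]
      exact gr_neg (gcut N r) (x, b)
    have h3 : gr (kap l r f) (x, b) = 0 := by
      rw [gr_eq, kap_zero hlr hrN (x := x) (by omega),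
        kap_zero hlr hrN (x := x + eb b) (by omega), sub_zero]
    rw [cfg_add, h3]
    unfold cfg
    rw [gr_dec_zero (H.supp0 _ h0) b (by rw [sub_zero]; omega),
      gr_dec_zero (H.supp1 _ h1) b (by omega), h2]
    ring
  have t3 := hX _ k1 hz (by rw [hext]; exact k2)
  rw [hext] at t3
  have p3 := (H.eB_ge hΛ0).1
  have p4 : eB N l ε₂ ε₃ ≤ eB (M * N) l ε₂ ε₃ := eB_mono H hΛ0
  rw [abs_le] at t1 t2 t3 ⊢
  constructor <;> linarith

/-- **STATG-IDEAL**: `ρ` is almost the same at every ideal decorated pair `(N, r e1)`,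
`(M N, R e1)`, `r ≤ R ≤ 2 r` -/
theorem statg_ideal (H : SysI N l r Λ ε₂ ε₃ D0 D1 ρ) (H' : SysI (M * N) l r Λ ε₂ ε₃ D0 D1 ρ')
    (hR : RefB b0 (20 * l)) (hId : HasId N b0 l r L) (hId' : HasId (M * N) b0 l r L) (hL : 0 ≤ L)
    (hX : ∀ β : V N × Bool → ℝ, KK l r Λ D0 D1 β → (∀ e, N < 7 * sz e.1 → β e = 0) →
      KK l r Λ D0 D1 (ext M β) → |ρ' (ext M β) - ρ β| ≤ ε₃)
    {s : ℕ} (hs : r = 64 * s) (hr : 4096 * l ≤ r)
    {F0 F1 : ℤ → ℤ → ℝ} (h0 : F0 ∈ D0) (h1 : F1 ∈ D1) {S B : ℝ} (hLS : L ≤ S) (hB1 : 1 ≤ B)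
    (hΛ : 10000000000 * (1 + CG + S + B) ≤ Λ) {R : ℕ} (hR1 : r ≤ R) (hR2 : R ≤ 2 * r)
    {g : V N → ℝ} (hg : GB (S / l) g) (hgB : ∀ x, |g x| ≤ B)
    (hgI : Idl b0 (20 * l) (0 : V N) (r • e1) g)
    {g' : V (M * N) → ℝ} (hg' : GB (S / l) g') (hgB' : ∀ x, |g' x| ≤ B)
    (hgI' : Idl b0 (20 * l) (0 : V (M * N)) (R • e1) g') :
    |ρ' (cfg F0 F1 0 (R • e1) g') - ρ (cfg F0 F1 0 (r • e1) g)| ≤
      500000 * eB (M * N) l ε₂ ε₃ := by
  have hC := CG_pos
  have hMN : N ≤ M * N := Nat.le_mul_of_pos_left N (NeZero.pos M)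
  have hl4 := H.hl
  have hlr := H.hlr
  have hrN := H.hrN
  have hB0 : 0 ≤ B := by linarith
  have hS0 : 0 ≤ S := hL.trans hLS
  have hΛL : 10000000000 * (1 + CG + L) ≤ Λ := by nlinarith
  have hΛ0 : 0 ≤ Λ := by nlinarith
  have t1 := H.torus H' hR hId hId' hL hX h0 h1 hΛL
  have t2 := H'.SS_all hR hId' hL hΛL hr hs h0 h1 hR1 hR2
  have hf : Far r (0 : V N) (r • H817.e1) := by
    unfold Far
    rw [sub_zero, sz_ne1 (by omega)]
    omega
  have hf' : Far r (0 : V (M * N)) (R • H817.e1) := by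
    unfold Far
    rw [sub_zero, sz_ne1 (by omega)]
    omega
  have t3 := H.sgI_eq hR hId hL h0 h1 hf hLS hg hgI hgB hB1 (by nlinarith)
  have t4 := H'.sgI_eq hR hId' hL h0 h1 hf' hLS hg' hgI' hgB' hB1 (by nlinarith)
  have p4 : eB N l ε₂ ε₃ ≤ eB (M * N) l ε₂ ε₃ := eB_mono H hΛ0
  have p5 := (H'.eB_ge hΛ0).2
  rw [abs_le] at t1 t2 t3 t4 ⊢
  constructor <;> linarith

/-- the same on one torus, all distances in `[r, 2 r]` -/
theorem SysI.all_ideal (H : SysI N l r Λ ε₂ ε₃ D0 D1 ρ)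
    (hR : RefB b0 (20 * l)) (hId : HasId N b0 l r L) (hL : 0 ≤ L)
    {s : ℕ} (hs : r = 64 * s) (hr : 4096 * l ≤ r)
    {F0 F1 : ℤ → ℤ → ℝ} (h0 : F0 ∈ D0) (h1 : F1 ∈ D1) {S B : ℝ} (hLS : L ≤ S) (hB1 : 1 ≤ B)
    (hΛ : 10000000000 * (1 + CG + S + B) ≤ Λ) {R R' : ℕ} (hR1 : r ≤ R) (hR2 : R ≤ 2 * r)
    (hR1' : r ≤ R') (hR2' : R' ≤ 2 * r)
    {g : V N → ℝ} (hg : GB (S / l) g) (hgB : ∀ x, |g x| ≤ B)
    (hgI : Idl b0 (20 * l) (0 : V N) (R • e1) g)
    {g' : V N → ℝ} (hg' : GB (S / l) g') (hgB' : ∀ x, |g' x| ≤ B)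
    (hgI' : Idl b0 (20 * l) (0 : V N) (R' • e1) g') :
    |ρ (cfg F0 F1 0 (R' • e1) g') - ρ (cfg F0 F1 0 (R • e1) g)| ≤
      1000000 * eB N l ε₂ ε₃ := by
  have hC := CG_pos
  have hl4 := H.hl
  have hlr := H.hlr
  have hrN := H.hrN
  have hB0 : 0 ≤ B := by linarith
  have hS0 : 0 ≤ S := hL.trans hLS
  have hΛL : 10000000000 * (1 + CG + L) ≤ Λ := by nlinarith
  have hΛ0 : 0 ≤ Λ := by nlinarith
  have t1 := H.SS_all hR hId hL hΛL hr hs h0 h1 hR1 hR2
  have t2 := H.SS_all hR hId hL hΛL hr hs h0 h1 hR1' hR2'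
  have hf : Far r (0 : V N) (R • H817.e1) := by
    unfold Far
    rw [sub_zero, sz_ne1 (by omega)]
    omega
  have hf' : Far r (0 : V N) (R' • H817.e1) := by
    unfold Far
    rw [sub_zero, sz_ne1 (by omega)]
    omega
  have t3 := H.sgI_eq hR hId hL h0 h1 hf hLS hg hgI hgB hB1 (by nlinarith)
  have t4 := H.sgI_eq hR hId hL h0 h1 hf' hLS hg' hgI' hgB' hB1 (by nlinarith)
  have p5 := (H.eB_ge hΛ0).2
  rw [abs_le] at t1 t2 t3 t4 ⊢
  constructor <;> linarith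

end

end

end Vale.Agent.P159.H817
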