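import Vale.Agent.P159.H817.St13

/-!
P159 / module STATG (helper817), part 14: symmetries of the flat form, `Sys` for the concrete
functional.
-/

set_option linter.unusedSectionVars false

namespace Vale.Agent.P159.H817

open Finset Polynomial
open Vale.Agent.P159.TM.Spec (V)
open Vale.Agent.P159.TM.H764 (EE EE_nonneg)
open Vale.Agent.P159.H37 (qf bf re Zn ZM Zs Rs Gm)
open Vale.Agent.P159.H864 (TI sym lapM ti_lapM sym_lapM)
open Vale.Agent.P159.H963 (Pin Ank Anm Pn ntr nM nwt)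

noncomputable section

variable {N : ℕ} [NeZero N] {b t a m η : ℝ} {n : ℕ}

lemma pow_perm {σ : V N → V N} (hσ : ∀ (u : V N → ℝ), lp (u ∘ σ) = lp u ∘ σ) (j : ℕ)
    (u : V N → ℝ) : Matrix.mulVec (lapM ^ j) (u ∘ σ) = Matrix.mulVec (lapM ^ j) u ∘ σ := by
  induction j with
  | zero => rw [pow_zero, Matrix.one_mulVec, Matrix.one_mulVec]
  | succ j ih =>
    rw [pow_succ', ← Matrix.mulVec_mulVec, ← Matrix.mulVec_mulVec, ih, lapM_mulVec, lapM_mulVec,
      hσ]
    rfl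

lemma PM_perm {σ : V N → V N} (hσ : ∀ (u : V N → ℝ), lp (u ∘ σ) = lp u ∘ σ) (p : ℝ[X])
    (u : V N → ℝ) : Matrix.mulVec (PM p) (u ∘ σ) = Matrix.mulVec (PM p) u ∘ σ := by
  rw [PM_eq, Matrix.sum_mulVec, Matrix.sum_mulVec]
  funext x
  rw [Finset.sum_apply, Function.comp_apply, Finset.sum_apply]
  refine Finset.sum_congr rfl fun i _ => ?_
  rw [Matrix.smul_mulVec, Matrix.smul_mulVec, pow_perm hσ]
  rfl

lemma Qf_perm (σ : V N ≃ V N) (hσ : ∀ (u : V N → ℝ), lp (u ∘ σ) = lp u ∘ σ)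
    {β β' : V N × Bool → ℝ} (h1 : dv β' = dv β ∘ σ) (h2 : nrm β' = nrm β) :
    Qf a m n β' = Qf a m n β := by
  unfold Qf Bq
  have h3 : ∀ β : V N × Bool → ℝ, ∑ e, β e * β e = nrm β := fun β => by
    unfold nrm
    exact Finset.sum_congr rfl fun e _ => by ring
  rw [h3, h3, h2, h1, PM_perm hσ]
  congr 2
  exact Equiv.sum_comp σ fun x => Matrix.mulVec (PM (pb n m)) (dv β) x * dv β x

lemma Qf_tr (c : V N) (β : V N × Bool → ℝ) :
    Qf a m n (fun e => β (e.1 + c, e.2)) = Qf a m n β := by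
  refine Qf_perm (Equiv.addRight c) (fun u => ?_) ?_ ?_
  · funext x
    unfold lp
    simp only [Function.comp_apply, Equiv.coe_addRight]
    have c1 : x + e1 + c = x + c + e1 := by abel
    have c2 : x - e1 + c = x + c - e1 := by abel
    have c3 : x + e2 + c = x + c + e2 := by abel
    have c4 : x - e2 + c = x + c - e2 := by abel
    rw [c1, c2, c3, c4]
  · funext x
    unfold dv
    simp only [Function.comp_apply, Equiv.coe_addRight]
    have c2 : x - e1 + c = x + c - e1 := by abel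
    have c4 : x - e2 + c = x + c - e2 := by abel
    rw [c2, c4]
  · unfold nrm
    exact Equiv.sum_comp ((Equiv.addRight c).prodCongr (Equiv.refl Bool)) fun e => β e ^ 2

lemma nrm_split (β : V N × Bool → ℝ) :
    nrm β = ∑ x : V N, β (x, true) ^ 2 + ∑ x : V N, β (x, false) ^ 2 := by
  unfold nrm
  rw [Fintype.sum_prod_type, ← Finset.sum_add_distrib]
  exact Finset.sum_congr rfl fun x _ => by rw [Fintype.sum_bool]

lemma Qf_rf (β : V N × Bool → ℝ) : Qf a m n (Rf β) = Qf a m n β := by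
  refine Qf_perm sRe (fun u => ?_) ?_ ?_
  · funext x
    unfold lp sRe
    simp only [Function.comp_apply, Equiv.coe_fn_mk, sR_add, sR_sub, sR_e1, sR_e2]
    rw [sub_neg_eq_add, ← sub_eq_add_neg]
    ring
  · funext x
    unfold dv sRe
    simp only [Function.comp_apply, Equiv.coe_fn_mk, Rf_false, Rf_true, sR_sub, sR_e1, sR_e2]
    have c1 : sR x - -e2 - e2 = sR x := by abel
    rw [c1]
    ring
  · rw [nrm_split, nrm_split]
    simp only [Rf_false, Rf_true, neg_sq]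
    congr 1
    · exact Equiv.sum_comp (sRe.trans (Equiv.subRight e2)) fun x => β (x, true) ^ 2
    · exact Equiv.sum_comp sRe fun x => β (x, false) ^ 2

/-- **`Sys` for the concrete functional** -/
theorem sys_rh {l r : ℕ} {Λ ε₁ ε₂ ε₃ εR : ℝ} {D0 D1 : Dec} (hb : 0 < b) (ht : 0 < t) (ha : 0 < a)
    (hη : 0 ≤ η) (hl : 4 ≤ l) (hlr : 256 * l ≤ r) (hrN : 64 * r ≤ N) (hn : 1 ≤ n)
    (hnl : n + 3 ≤ l) (supp0 : ∀ F ∈ D0, SuppD l F) (supp1 : ∀ F ∈ D1, SuppD l F)
    (neg01 : ∀ F ∈ D0, (fun i j => -F i j) ∈ D1) (neg10 : ∀ F ∈ D1, (fun i j => -F i j) ∈ D0)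
    (rfl1 : ∀ F ∈ D1, (fun i j => -rfl2 F i j) ∈ D1) (h21 : ε₂ ≤ ε₁)
    (hP : ∀ k : V N, k ≠ 0 → |Pin N b t k - a * EE k| ≤ η * EE k * (1 + EE k / t))
    (hR : ∀ F (w : V N), GB (Λ / l) F → (∀ x, 4 * l ≤ sz (x - w) → F x = 0) →
      Rs (nwt N b t 0) (Pt t F) ≤ εR)
    (hεR : 0 ≤ εR) (hε : 3528 * kap0 a t η n * Λ ^ 2 + εR ≤ ε₂)
    (loc : ∀ (w : V N) (m : ℕ) (B P W : V N × Bool → ℝ), 8 * m ≤ r → KK l r Λ D0 D1 B →
      KK l r Λ D0 D1 (fun e => B e + P e) → KK l r Λ D0 D1 (fun e => B e + W e) →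
      KK l r Λ D0 D1 (fun e => B e + P e + W e) → (∀ e, P e ≠ 0 → sz (e.1 - w) ≤ m) →
      (∀ e, W e ≠ 0 → m + l ≤ sz (e.1 - w)) →
      |EZ N b t (fun e => B e + P e + W e) - EZ N b t (fun e => B e + P e) -
        EZ N b t (fun e => B e + W e) + EZ N b t B| ≤ ε₃)
    (core : ∀ F0 ∈ D0, ∀ F1 ∈ D1, ∀ (p q : V N) (g h : V N → ℝ), Far r p q → GB (Λ / l) g →
      GB (Λ / l) (fun x => g x + h x) → (∀ x, |h x| ≤ 1) →
      ((∀ x, 20 * l ≤ sz (x - p) → h x = 0) ∨ (∀ x, 20 * l ≤ sz (x - q) → h x = 0)) →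
      |rh N b t a n (cfg F0 F1 p q fun x => g x + h x) - rh N b t a n (cfg F0 F1 p q g)| ≤ ε₁) :
    Sys N l r Λ ε₁ ε₂ ε₃ D0 D1 (rh N b t a n) := by
  have hD := Db_pos hn (by positivity : 0 < t / a)
  have hκ : 0 ≤ kap0 a t η n := by unfold kap0; positivity
  have hl' : (0 : ℝ) < l := by
    have : 0 < l := by omega
    exact_mod_cast this
  have hflat : ∀ (F : V N → ℝ) (w : V N), GB (Λ / l) F → (∀ x, 20 * l ≤ sz (x - w) → F x = 0) →
      |qf (Anm N b t) F - Qf a (t / a) n (gr F)| ≤ 3528 * kap0 a t η n * Λ ^ 2 := by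
    intro F w hF hw
    refine (flat_qf hb ht ha hη hn hP F).trans ?_
    have h1 := nrm_local (by omega) hF hw
    calc kap0 a t η n * nrm (gr F) ≤ kap0 a t η n * (3528 * Λ ^ 2) :=
          mul_le_mul_of_nonneg_left h1 hκ
      _ = _ := by ring
  refine ⟨hl, hlr, hrN, supp0, supp1, neg01, neg10, rfl1, h21, ?_, ?_, ?_, ?_, ?_, ?_, core⟩
  · intro β g w hβ hg hw
    refine rh_conc hb ht hβ.eg ?_
    have h1 := (abs_le.1 (hflat g w hg hw)).2
    linarith
  · intro β hβ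
    unfold rh
    rw [EZ_neg hb ht hβ.eg, Qf_neg]
  · intro β c hβ
    unfold rh
    rw [EZ_tr hb c hβ.eg, Qf_tr]
  · intro β hβ
    unfold rh
    rw [EZ_rf hb hβ.eg, Qf_rf]
  · intro w m B P W hm k1 k2 k3 k4 hPs hWs
    have h1 := loc w m B P W hm k1 k2 k3 k4 hPs hWs
    have h2 := Qf_mixed (a := a) (m := t / a) hnl (B := B) hPs hWs
    unfold rh
    have e : EZ N b t (fun e => B e + P e + W e) - Qf a (t / a) n (fun e => B e + P e + W e) / 2 -
        (EZ N b t (fun e => B e + P e) - Qf a (t / a) n (fun e => B e + P e) / 2) -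
        (EZ N b t (fun e => B e + W e) - Qf a (t / a) n (fun e => B e + W e) / 2) +
        (EZ N b t B - Qf a (t / a) n B / 2) =
        EZ N b t (fun e => B e + P e + W e) - EZ N b t (fun e => B e + P e) -
        EZ N b t (fun e => B e + W e) + EZ N b t B := by
      linear_combination (-1 / 2 : ℝ) * h2
    rw [e]
    exact h1
  · intro F w hF hw
    have h1 := hflat F w hF fun x hx => hw x (by omega)
    have h2 := hR F w hF hw
    have h3 := Rs_nwt_nonneg (N := N) hb ht (Pt t F)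
    unfold rh
    rw [EZ_gr hb ht]
    rw [abs_le] at h1 ⊢
    constructor <;> linarith [h1.1, h1.2]

end

end Vale.Agent.P159.H817
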