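import Vale.Agent.P159.H817.St14

/-!
P159 / module STATG (helper817), part 15: the flat form does not see the torus.
-/

set_option linter.unusedSectionVars false

namespace Vale.Agent.P159.H817

open Finset Polynomial
open Vale.Agent.P159.TM.Spec (V)
open Vale.Agent.P159.H864 (TI sym lapM ti_lapM sym_lapM)

noncomputable section

variable {N : ℕ} [NeZero N] {M : ℕ} [NeZero M] {a m : ℝ} {n : ℕ}

/-- extension of functions of the sites by zero -/
def xv (M : ℕ) [NeZero M] (u : V N → ℝ) (x : V (M * N)) : ℝ :=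
  if 2 * sz x < N then u (prj M x) else 0

/-- lift of a site -/
def lft (M : ℕ) [NeZero M] (y : V N) : V (M * N) :=
  (((y.1.valMinAbs : ℤ) : ZMod (M * N)), ((y.2.valMinAbs : ℤ) : ZMod (M * N)))

lemma vma_cast {z : ℤ} (hz : 2 * z.natAbs < N) : ((z : ℤ) : ZMod (M * N)).valMinAbs = z := by
  have hMN : N ≤ M * N := Nat.le_mul_of_pos_left N (NeZero.pos M)
  refine (ZMod.valMinAbs_spec _ _).2 ⟨rfl, ?_⟩
  rw [Set.mem_Ioc]
  omega

lemma sz_lft {y : V N} (h : 2 * sz y < N) : sz (lft M y) = sz y := by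
  unfold sz at h ⊢
  unfold lft
  simp only
  rw [vma_cast (by omega), vma_cast (by omega)]

lemma prj_lft (y : V N) : prj M (lft M y) = y := by
  unfold prj lft
  simp only
  rw [map_intCast, map_intCast, ZMod.coe_valMinAbs, ZMod.coe_valMinAbs]

lemma lft_prj {x : V (M * N)} (h : 2 * sz x < N) : lft M (prj (N := N) M x) = x := by
  unfold sz at h
  unfold prj lft
  simp only
  rw [vma_pr1 (by omega), vma_pr1 (by omega), ZMod.coe_valMinAbs, ZMod.coe_valMinAbs]

/-- sums -/
lemma sum_xv {f : V N → ℝ} (hf : ∀ y, N ≤ 2 * sz y → f y = 0) :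
    ∑ x : V (M * N), xv M f x = ∑ y, f y := by
  classical
  have h1 : ∑ x : V (M * N), xv M f x =
      ∑ x ∈ (univ : Finset (V (M * N))).filter (fun x => 2 * sz x < N), f (prj M x) := by
    rw [Finset.sum_filter]
    rfl
  have h2 : ∑ y, f y = ∑ y ∈ (univ : Finset (V N)).filter (fun y => 2 * sz y < N), f y := by
    rw [Finset.sum_filter]
    refine Finset.sum_congr rfl fun y _ => ?_
    split_ifs with h
    · rfl
    · exact hf y (by omega)
  rw [h1, h2]
  refine Finset.sum_bij' (fun x _ => prj M x) (fun y _ => lft M y) ?_ ?_ ?_ ?_ ?_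
  · intro x hx
    rw [Finset.mem_filter] at hx ⊢
    refine ⟨Finset.mem_univ _, ?_⟩
    rw [sz_prj hx.2]
    exact hx.2
  · intro y hy
    rw [Finset.mem_filter] at hy ⊢
    refine ⟨Finset.mem_univ _, ?_⟩
    rw [sz_lft hy.2]
    exact hy.2
  · intro x hx
    exact lft_prj (Finset.mem_filter.1 hx).2
  · intro y _
    exact prj_lft y
  · intro x _
    rfl

lemma sz_nbr (x : V N) : sz x ≤ sz (x + e1) + 1 ∧ sz (x + e1) ≤ sz x + 1 ∧
    sz x ≤ sz (x - e1) + 1 ∧ sz (x - e1) ≤ sz x + 1 ∧ sz x ≤ sz (x + e2) + 1 ∧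
    sz (x + e2) ≤ sz x + 1 ∧ sz x ≤ sz (x - e2) + 1 ∧ sz (x - e2) ≤ sz x + 1 := by
  have h1 := sz_e1 x
  have h2 := sz_e2 x
  have h3 := sz_e1 (x - e1)
  have h4 := sz_e2 (x - e2)
  rw [sub_add_cancel] at h3 h4
  omega

lemma xv_far {u : V N → ℝ} {R : ℕ} (hu : ∀ y, R < sz y → u y = 0) {x : V (M * N)}
    (hx : R < sz x) : xv M u x = 0 := by
  unfold xv
  split_ifs with h
  · exact hu _ (by rw [sz_prj h]; exact hx)
  · rfl

lemma xv_near {u : V N → ℝ} {R : ℕ} (hR : 2 * (R + 2) < N) (hu : ∀ y, R < sz y → u y = 0)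
    {x z : V (M * N)} (hx : 2 * sz x < N) (hz : sz z ≤ sz x + 1)
    (hz' : sz (prj (N := N) M x) ≤ sz (prj (N := N) M z) + 1) :
    xv M u z = u (prj M z) := by
  unfold xv
  split_ifs with h
  · rfl
  · refine (hu _ ?_).symm
    rw [sz_prj hx] at hz'
    omega

lemma prj_sub_e1 (x : V (M * N)) : prj (N := N) M (x - e1) = prj M x - e1 := by
  rw [prj_sub, prj_e1]

lemma prj_sub_e2 (x : V (M * N)) : prj (N := N) M (x - e2) = prj M x - e2 := by
  rw [prj_sub, prj_e2]

lemma prj_add_e1 (x : V (M * N)) : prj (N := N) M (x + e1) = prj M x + e1 := by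
  rw [prj_add, prj_e1]

lemma prj_add_e2 (x : V (M * N)) : prj (N := N) M (x + e2) = prj M x + e2 := by
  rw [prj_add, prj_e2]

/-- the Laplacian -/
lemma lp_xv {u : V N → ℝ} {R : ℕ} (hR : 2 * (R + 2) < N) (hu : ∀ y, R < sz y → u y = 0) :
    lp (xv M u) = xv M (lp u) := by
  funext x
  have n1 := sz_nbr x
  have n2 := sz_nbr (prj (N := N) M x)
  by_cases hx : 2 * sz x < N
  · have e : xv M (lp u) x = lp u (prj M x) := by
      unfold xv
      rw [if_pos hx]
    have e0 : xv M u x = u (prj M x) := by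
      unfold xv
      rw [if_pos hx]
    rw [e]
    unfold lp
    rw [e0, xv_near hR hu (z := x + e1) hx (by omega) (by rw [prj_add_e1]; omega),
      xv_near hR hu (z := x - e1) hx (by omega) (by rw [prj_sub_e1]; omega),
      xv_near hR hu (z := x + e2) hx (by omega) (by rw [prj_add_e2]; omega),
      xv_near hR hu (z := x - e2) hx (by omega) (by rw [prj_sub_e2]; omega),
      prj_add_e1, prj_sub_e1, prj_add_e2, prj_sub_e2]
  · have e : xv M (lp u) x = 0 := by
      unfold xv
      rw [if_neg hx]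
    rw [e]
    unfold lp
    rw [xv_far hu (x := x) (by omega), xv_far hu (x := x + e1) (by omega),
      xv_far hu (x := x - e1) (by omega), xv_far hu (x := x + e2) (by omega),
      xv_far hu (x := x - e2) (by omega)]
    ring

/-- powers of the Laplacian -/
lemma pow_xv {u : V N → ℝ} {R : ℕ} (hu : ∀ y, R < sz y → u y = 0) (j : ℕ)
    (hR : 2 * (R + j + 2) < N) :
    Matrix.mulVec (lapM ^ j) (xv M u) = xv M (Matrix.mulVec (lapM ^ j) u) := by
  induction j with
  | zero => rw [pow_zero, pow_zero, Matrix.one_mulVec, Matrix.one_mulVec]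
  | succ j ih =>
    have h1 : ∀ y, R + j < sz y → Matrix.mulVec (lapM ^ j) u y = 0 := by
      intro y hy
      have := pow_supp (w := (0 : V N)) (m := R) (u := u) (fun z hz => hu z (by rwa [sub_zero] at hz))
        j y (by rwa [sub_zero])
      exact this
    have h2 := lp_xv (M := M) (u := Matrix.mulVec (lapM ^ j) u) (R := R + j) (by omega) h1
    rw [pow_succ', ← Matrix.mulVec_mulVec, ih (by omega), lapM_mulVec, h2, pow_succ',
      ← Matrix.mulVec_mulVec, lapM_mulVec]
    funext x
    unfold xv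
    split_ifs
    · rfl
    · ring

lemma PM_xv {u : V N → ℝ} {R : ℕ} (hu : ∀ y, R < sz y → u y = 0) {p : ℝ[X]}
    (hp : p.natDegree ≤ n) (hR : 2 * (R + n + 2) < N) :
    Matrix.mulVec (PM p) (xv M u) = xv M (Matrix.mulVec (PM p) u) := by
  rw [PM_eq, PM_eq, Matrix.sum_mulVec, Matrix.sum_mulVec]
  funext x
  rw [Finset.sum_apply]
  have h1 : ∀ i ∈ range (p.natDegree + 1), Matrix.mulVec (p.coeff i • lapM ^ i) (xv M u) x =
      if 2 * sz x < N then Matrix.mulVec (p.coeff i • lapM ^ i) u (prj M x) else 0 := by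
    intro i hi
    rw [Finset.mem_range] at hi
    rw [Matrix.smul_mulVec, Matrix.smul_mulVec, Pi.smul_apply, Pi.smul_apply,
      pow_xv hu i (by omega)]
    unfold xv
    split_ifs
    · rfl
    · rw [smul_zero]
  rw [Finset.sum_congr rfl h1]
  unfold xv
  split_ifs
  · rw [Finset.sum_apply]
  · exact Finset.sum_const_zero

lemma xv_mul (u v : V N → ℝ) (x : V (M * N)) :
    xv M u x * xv M v x = xv M (fun y => u y * v y) x := by
  unfold xv
  split_ifs
  · rfl
  · ring

/-- divergence of the extension -/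
lemma dv_ext {β : V N × Bool → ℝ} (hN : 16 ≤ N) (hβ : ∀ e, N < 4 * sz e.1 → β e = 0) :
    dv (ext M β) = xv M (dv β) := by
  funext x
  have n1 := sz_nbr x
  have n2 := sz_nbr (prj (N := N) M x)
  have ex : ∀ (z : V (M * N)) (c : Bool), 2 * sz z < N → ext M β (z, c) = β (prj M z, c) := by
    intro z c hz
    unfold ext
    split_ifs with h
    · rfl
    · refine (hβ _ ?_).symm
      simp only at h ⊢
      rw [sz_prj hz]
      omega
  have ex0 : ∀ (z : V (M * N)) (c : Bool), N < 4 * sz z → ext M β (z, c) = 0 := by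
    intro z c hz
    unfold ext
    rw [if_neg (by simp only; omega)]
  by_cases hx : 2 * sz x < N
  · have e : xv M (dv β) x = dv β (prj M x) := by
      unfold xv
      rw [if_pos hx]
    rw [e]
    have near : ∀ (z : V (M * N)) (c : Bool), sz z ≤ sz x + 1 →
        sz (prj (N := N) M x) ≤ sz (prj (N := N) M z) + 1 → ext M β (z, c) = β (prj M z, c) := by
      intro z c h1 h2
      rcases lt_or_ge (2 * sz z) N with h3 | h3
      · exact ex z c h3
      · rw [ex0 z c (by omega), hβ _ (by
          rw [sz_prj hx] at h2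
          simp only
          omega)]
    unfold dv
    rw [near (x - e1) false (by omega) (by rw [prj_sub_e1]; omega),
      near (x - e2) true (by omega) (by rw [prj_sub_e2]; omega), ex x false hx, ex x true hx,
      prj_sub_e1, prj_sub_e2]
  · have e : xv M (dv β) x = 0 := by
      unfold xv
      rw [if_neg hx]
    rw [e]
    unfold dv
    rw [ex0 (x - e1) false (by omega), ex0 x false (by omega), ex0 (x - e2) true (by omega),
      ex0 x true (by omega)]
    ring

/-- norm of the extension -/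
lemma nrm_ext {β : V N × Bool → ℝ} (hN : 16 ≤ N) (hβ : ∀ e, N < 4 * sz e.1 → β e = 0) :
    nrm (ext M β) = nrm β := by
  rw [nrm_split, nrm_split]
  have key : ∀ c : Bool, ∑ x : V (M * N), ext M β (x, c) ^ 2 = ∑ y : V N, β (y, c) ^ 2 := by
    intro c
    rw [← sum_xv (M := M) (f := fun y : V N => β (y, c) ^ 2) (fun y hy => by
      rw [hβ (y, c) (by simp only; omega)]
      ring)]
    refine Finset.sum_congr rfl fun x _ => ?_
    unfold ext xv
    simp only
    split_ifs with h1 h2 h2
    · rfl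
    · omega
    · rw [hβ _ (by simp only; rw [sz_prj h2]; omega)]
    · ring
  rw [key, key]

/-- **the flat form does not see the torus** -/
theorem Qf_ext {β : V N × Bool → ℝ} (hn : 8 * n + 64 ≤ N)
    (hβ : ∀ e, N < 4 * sz e.1 → β e = 0) : Qf a m n (ext M β) = Qf a m n β := by
  have hd : ∀ y : V N, N / 4 + 1 < sz y → dv β y = 0 := by
    intro y hy
    have n1 := sz_nbr y
    unfold dv
    rw [hβ (y - e1, false) (by simp only; omega), hβ (y, false) (by simp only; omega),
      hβ (y - e2, true) (by simp only; omega), hβ (y, true) (by simp only; omega)]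
    ring
  have hs : ∀ β : V N × Bool → ℝ, ∑ e, β e * β e = nrm β := fun β => by
    unfold nrm
    exact Finset.sum_congr rfl fun e _ => by ring
  have hs' : ∀ β : V (M * N) × Bool → ℝ, ∑ e, β e * β e = nrm β := fun β => by
    unfold nrm
    exact Finset.sum_congr rfl fun e _ => by ring
  unfold Qf Bq
  rw [hs, hs', nrm_ext (by omega) hβ, dv_ext (by omega) hβ,
    PM_xv hd (pb_deg n m) (by omega)]
  congr 2
  rw [← sum_xv (M := M) (f := fun y => Matrix.mulVec (PM (pb n m)) (dv β) y * dv β y)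
    (fun y hy => by rw [hd y (by omega), mul_zero])]
  exact Finset.sum_congr rfl fun x _ => xv_mul _ _ x

end

end Vale.Agent.P159.H817
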