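import Vale.Agent.P159.H817.St3

/-!
P159 / module STATG (helper817), part 4: the hypotheses (`Sys`), simple bumps, small amplitudes by
concavity, sums of bumps.
-/

set_option linter.unusedSectionVars false

namespace Vale.Agent.P159.H817

open Finset
open Vale.Agent.P159.TM.Spec (V)

noncomputable section

/-- a set of decorations -/
abbrev Dec := Set (ℤ → ℤ → ℝ)

/-- the distance of the cores is comparable to `r` -/
def Far {N : ℕ} [NeZero N] (r : ℕ) (p q : V N) : Prop := r ≤ 2 * sz (q - p) ∧ sz (q - p) ≤ 4 * r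

/-- the class of edge fields: smooth gradients and decorated pairs with a smooth change -/
def KK {N : ℕ} [NeZero N] (l r : ℕ) (Λ : ℝ) (D0 D1 : Dec) (β : V N × Bool → ℝ) : Prop :=
  (∃ g, GB (Λ / l) g ∧ β = gr g) ∨
    ∃ F0 ∈ D0, ∃ F1 ∈ D1, ∃ (p q : V N) (g : V N → ℝ), Far r p q ∧ GB (Λ / l) g ∧
      β = cfg F0 F1 p q g

/-- **the hypotheses on the functional `ρ`** of edge fields of the torus of side `N` -/
structure Sys (N : ℕ) [NeZero N] (l r : ℕ) (Λ ε₁ ε₂ ε₃ : ℝ) (D0 D1 : Dec)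
    (ρ : (V N × Bool → ℝ) → ℝ) : Prop where
  hl : 4 ≤ l
  hlr : 256 * l ≤ r
  hrN : 64 * r ≤ N
  supp0 : ∀ F ∈ D0, SuppD l F
  supp1 : ∀ F ∈ D1, SuppD l F
  neg01 : ∀ F ∈ D0, (fun i j => -F i j) ∈ D1
  neg10 : ∀ F ∈ D1, (fun i j => -F i j) ∈ D0
  rfl1 : ∀ F ∈ D1, (fun i j => -rfl2 F i j) ∈ D1
  h21 : ε₂ ≤ ε₁
  /-- concavity along real changes, up to a small quadratic term -/
  conc : ∀ β g (w : V N), KK l r Λ D0 D1 β → GB (Λ / l) g → (∀ x, 20 * l ≤ sz (x - w) → g x = 0) →
    ConcaveOn ℝ Set.univ (fun t : ℝ => ρ (fun e => β e + t * gr g e) - ε₂ / 2 * t ^ 2)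
  even : ∀ β, KK l r Λ D0 D1 β → ρ (fun e => -β e) = ρ β
  trans : ∀ β (a : V N), KK l r Λ D0 D1 β → ρ (fun e => β (e.1 + a, e.2)) = ρ β
  refl : ∀ β, KK l r Λ D0 D1 β → ρ (Rf β) = ρ β
  /-- locality -/
  loc : ∀ (w : V N) (m : ℕ) (B P W : V N × Bool → ℝ), 8 * m ≤ r → KK l r Λ D0 D1 B →
    KK l r Λ D0 D1 (fun e => B e + P e) → KK l r Λ D0 D1 (fun e => B e + W e) →
    KK l r Λ D0 D1 (fun e => B e + P e + W e) → (∀ e, P e ≠ 0 → sz (e.1 - w) ≤ m) →
    (∀ e, W e ≠ 0 → m + l ≤ sz (e.1 - w)) →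
    |ρ (fun e => B e + P e + W e) - ρ (fun e => B e + P e) - ρ (fun e => B e + W e) + ρ B| ≤ ε₃
  /-- real local fields -/
  real : ∀ F (w : V N), GB (Λ / l) F → (∀ x, 4 * l ≤ sz (x - w) → F x = 0) → |ρ (gr F)| ≤ ε₂
  /-- a priori bound near a core -/
  core : ∀ F0 ∈ D0, ∀ F1 ∈ D1, ∀ (p q : V N) (g h : V N → ℝ), Far r p q → GB (Λ / l) g →
    GB (Λ / l) (fun x => g x + h x) → (∀ x, |h x| ≤ 1) →
    ((∀ x, 20 * l ≤ sz (x - p) → h x = 0) ∨ (∀ x, 20 * l ≤ sz (x - q) → h x = 0)) →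
    |ρ (cfg F0 F1 p q fun x => g x + h x) - ρ (cfg F0 F1 p q g)| ≤ ε₁

/-! ### concave functions -/

lemma concave3 {φ : ℝ → ℝ} (h : ConcaveOn ℝ Set.univ φ) {ε δ : ℝ} (h1 : |φ 1 - φ 0| ≤ ε)
    (h2 : |φ (-1) - φ 0| ≤ ε) (h0 : 0 ≤ δ) (hδ : δ ≤ 1) : |φ δ - φ 0| ≤ δ * ε := by
  rw [abs_le] at h1 h2 ⊢
  have a1 := h.2 (Set.mem_univ (0 : ℝ)) (Set.mem_univ (1 : ℝ)) (by linarith : (0 : ℝ) ≤ 1 - δ) h0
    (by ring)
  simp only [smul_eq_mul, mul_zero, mul_one, zero_add] at a1
  have hp : 0 < 1 + δ := by linarith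
  have a2 := h.2 (Set.mem_univ δ) (Set.mem_univ (-1 : ℝ))
    (show (0 : ℝ) ≤ 1 / (1 + δ) by positivity) (show (0 : ℝ) ≤ δ / (1 + δ) by positivity)
    (by field_simp)
  simp only [smul_eq_mul] at a2
  have e1 : 1 / (1 + δ) * δ + δ / (1 + δ) * -1 = 0 := by field_simp; ring
  rw [e1] at a2
  have e2 : (1 + δ) * (1 / (1 + δ) * φ δ + δ / (1 + δ) * φ (-1)) = φ δ + δ * φ (-1) := by
    field_simp
  have a3 := mul_le_mul_of_nonneg_left a2 hp.le
  rw [e2] at a3
  constructor
  · nlinarith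
  · nlinarith

/-- concavity up to a small quadratic term -/
lemma concave4 {φ : ℝ → ℝ} {κ : ℝ} (h : ConcaveOn ℝ Set.univ fun t => φ t - κ / 2 * t ^ 2)
    {ε δ : ℝ} (hκ : 0 ≤ κ) (h1 : |φ 1 - φ 0| ≤ ε) (h2 : |φ (-1) - φ 0| ≤ ε) (h0 : 0 ≤ δ)
    (hδ : δ ≤ 1) : |φ δ - φ 0| ≤ δ * (ε + κ) := by
  have h3 := concave3 h (ε := ε + κ / 2) (δ := δ)
    (by rw [abs_le] at h1 ⊢; constructor <;> linarith)
    (by rw [abs_le] at h2 ⊢; constructor <;> linarith) h0 hδ
  have h4 : κ / 2 * δ ^ 2 ≤ κ / 2 * δ := mul_le_mul_of_nonneg_left (by nlinarith) (by linarith)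
  have h5 : 0 ≤ κ / 2 * δ ^ 2 := by positivity
  rw [abs_le] at h3 ⊢
  constructor <;> nlinarith

/-! ### localised products -/

section

variable {N : ℕ} [NeZero N]

/-- product of a cut-off with a function controlled on a box -/
lemma GB.cut {w : V N} {m k l : ℕ} {s B : ℝ} {f : V N → ℝ} (hl : 0 < l) (hkm : k + l + 1 ≤ m)
    (hs : 0 ≤ s) (hf : ∀ x b, sz (x - w) ≤ m → |gr f (x, b)| ≤ s)
    (hB : ∀ x, sz (x - w) ≤ m → |f x| ≤ B) : GB (s + B / l) (fun x => U k l (x - w) * f x) := by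
  rintro ⟨x, b⟩
  have hl' : (0 : ℝ) < l := by exact_mod_cast hl
  rcases le_or_gt (sz (x - w)) m with h | h
  · rw [gr_mul]
    refine (abs_add_le _ _).trans (add_le_add ?_ ?_)
    · rw [abs_mul]
      calc _ ≤ 1 * |gr f (x, b)| := mul_le_mul_of_nonneg_right (abs_U _ _ _) (abs_nonneg _)
        _ ≤ s := by rw [one_mul]; exact hf x b h
    · rw [abs_mul]
      have h1 : |gr (fun x => U k l (x - w)) (x, b)| ≤ 1 / l := U_shift_GB k hl w (x, b)
      calc _ ≤ 1 / l * B := mul_le_mul h1 (hB x h) (abs_nonneg _) (by positivity)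
        _ = B / l := by ring
  · have h1 : U k l (x - w) = 0 := U_zero (by omega)
    have h2 : U k l (x + eb b - w) = 0 := by
      refine U_zero ?_
      have := (sz_step (x - w) b).1
      rw [add_sub_right_comm]
      omega
    rw [gr_eq, h1, h2]
    have hB0 : 0 ≤ B := by
      have := hB w (by rw [sub_self, sz_zero]; exact Nat.zero_le _)
      exact (abs_nonneg _).trans this
    simp only [zero_mul, sub_self, abs_zero]
    positivity

lemma cu_cfg {F0 F1 : ℤ → ℤ → ℝ} {p q x : V N} {g : V N → ℝ} (hp : x ≠ p) (hq : x ≠ q) :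
    cu (cfg F0 F1 p q g) x = 0 := by
  have e : cfg F0 F1 p q g = fun e => (fun e => bD p q e + gr (dec F0 p) e) e +
      (fun e => gr (dec F1 q) e + gr g e) e := by
    funext e
    unfold cfg
    ring
  rw [e, cu_add, cu_add (bD p q), cu_add (gr (dec F1 q)), cu_gr, cu_gr, cu_gr, cu_bD, if_neg hp,
    if_neg hq]
  ring

variable {l r : ℕ} {Λ ε₁ ε₂ ε₃ : ℝ} {D0 D1 : Dec} {ρ : (V N × Bool → ℝ) → ℝ}

lemma KK.core' {F0 F1 : ℤ → ℤ → ℝ} (h0 : F0 ∈ D0) (h1 : F1 ∈ D1) {p q : V N} {g : V N → ℝ}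
    (hf : Far r p q) {s : ℝ} (hg : GB (s / l) g) (hs : s ≤ Λ) : KK l r Λ D0 D1 (cfg F0 F1 p q g) :=
  Or.inr ⟨F0, h0, F1, h1, p, q, g, hf,
    hg.mono (div_le_div_of_nonneg_right hs (Nat.cast_nonneg _)), rfl⟩

lemma KK.real' {g : V N → ℝ} {s : ℝ} (hg : GB (s / l) g) (hs : s ≤ Λ) : KK l r Λ D0 D1 (gr g) :=
  Or.inl ⟨g, hg.mono (div_le_div_of_nonneg_right hs (Nat.cast_nonneg _)), rfl⟩

/-- **simple bumps** -/
theorem Sys.bump (H : Sys N l r Λ ε₁ ε₂ ε₃ D0 D1 ρ) {F0 F1 : ℤ → ℤ → ℝ} (h0 : F0 ∈ D0)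
    (h1 : F1 ∈ D1) {p q : V N} (hf : Far r p q) {g h : V N → ℝ} {s t : ℝ} (hs : 0 ≤ s) (ht : 0 ≤ t)
    (hg : GB (s / l) g) (hh : GB (t / l) h) {w : V N} (hw : ∀ x, l ≤ sz (x - w) → h x = 0)
    (hp : 8 * l ≤ sz (w - p)) (hq : 8 * l ≤ sz (w - q)) (hΛ : 41 * (s + 1 + 2 * CG) + t ≤ Λ) :
    |ρ (cfg F0 F1 p q fun x => g x + h x) - ρ (cfg F0 F1 p q g)| ≤ 2 * ε₂ + ε₃ := by
  have hC := CG_pos
  have hl4 := H.hl
  have hl0 : 0 < l := by omega
  have hlr := H.hlr
  have hrN := H.hrN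
  have hl' : (0 : ℝ) < l := by exact_mod_cast hl0
  have hN := N_pos_real (N := N)
  set β := cfg F0 F1 p q g with hβ
  -- geometry
  have dist : ∀ x c : V N, 8 * l ≤ sz (w - c) → sz (x - w) ≤ 5 * l → 3 * l ≤ sz (x - c) := by
    intro x c hc hx
    have h3 := sz_add_le (w - x) (x - c)
    rw [sub_add_sub_cancel, sz_sub_comm w x] at h3
    omega
  set S : ℝ := s + 1 + 2 * CG with hS
  have hS0 : 0 ≤ S := by positivity
  -- size of `β` on the box
  have hβb : ∀ x b, sz (x - w) ≤ 5 * l → |β (x, b)| ≤ S / l := by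
    intro x b hx
    have d1 := dist x p hp hx
    have d2 := dist x q hq hx
    have e : β (x, b) = bD p q (x, b) + gr g (x, b) := by
      rw [hβ]
      unfold cfg
      rw [gr_dec_zero (H.supp0 F0 h0) b (by omega), gr_dec_zero (H.supp1 F1 h1) b (by omega)]
      ring
    rw [e]
    refine (abs_add_le _ _).trans ?_
    have a1 := bD_le p q x b d1 d2
    have a2 := hg (x, b)
    have a3 : 1 / (N : ℝ) ≤ 1 / l := by
      refine one_div_le_one_div_of_le hl' ?_
      have : l ≤ N := by omega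
      exact_mod_cast this
    have a4 : 4 * CG / (1 + ((3 * l : ℕ) : ℝ)) ≤ 2 * CG / l := by
      rw [div_le_div_iff₀ (by positivity) hl']
      push_cast
      nlinarith
    have e2 : S / l = 1 / l + 2 * CG / l + s / l := by rw [hS]; ring
    rw [e2]
    linarith
  have hcu : ∀ x, sz (x - w) ≤ 5 * l → cu β x = 0 := by
    intro x hx
    have d1 := dist x p hp hx
    have d2 := dist x q hq hx
    refine cu_cfg ?_ ?_
    · intro h
      rw [h, sub_self, sz_zero] at d1
      omega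
    · intro h
      rw [h, sub_self, sz_zero] at d2
      omega
  obtain ⟨f, -, hfg, hfb⟩ := box_pot β w (m := 5 * l) (by omega) hβb hcu
  have hfb' : ∀ x, sz (x - w) ≤ 5 * l → |f x| ≤ 40 * S := by
    intro x hx
    refine (hfb x hx).trans (le_of_eq ?_)
    push_cast
    field_simp
    ring
  have hχ : GB (41 * S / l) (fun x => U (3 * l) l (x - w) * f x) := by
    have h2 := GB.cut (w := w) (m := 5 * l) (k := 3 * l) (l := l) (s := S / l) (B := 40 * S)
      (f := f) hl0 (by omega) (by positivity)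
      (fun x b hx => by rw [hfg x b hx]; exact hβb x b hx) hfb'
    refine h2.mono (le_of_eq ?_)
    ring
  set F : V N → ℝ := fun x => U (3 * l) l (x - w) * f x with hF
  -- the four fields
  set W : V N × Bool → ℝ := fun e => β e - gr F e with hW
  have k1 : KK l r Λ D0 D1 (gr F) := KK.real' hχ (by linarith)
  have k2 : KK l r Λ D0 D1 (fun e => gr F e + gr h e) := by
    have h3 : (fun e => gr F e + gr h e) = gr (fun x => F x + h x) := by
      funext e; rw [gr_add]
    rw [h3]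
    refine KK.real' (s := 41 * S + t) ?_ (by linarith)
    refine (hχ.add hh).mono (le_of_eq ?_)
    ring
  have k3 : KK l r Λ D0 D1 (fun e => gr F e + W e) := by
    have h3 : (fun e => gr F e + W e) = β := by
      funext e; rw [hW]; ring
    rw [h3]
    exact KK.core' h0 h1 hf hg (by linarith)
  have e4 : (fun e => gr F e + gr h e + W e) = cfg F0 F1 p q (fun x => g x + h x) := by
    funext e
    rw [cfg_add, hW]
    ring
  have k4 : KK l r Λ D0 D1 (fun e => gr F e + gr h e + W e) := by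
    rw [e4]
    refine KK.core' h0 h1 hf (s := s + t) ?_ (by linarith)
    refine (hg.add hh).mono (le_of_eq ?_)
    ring
  have hP : ∀ e : V N × Bool, gr h e ≠ 0 → sz (e.1 - w) ≤ l := by
    rintro ⟨x, b⟩ hx
    by_contra h4
    refine hx ?_
    simp only at h4
    have h5 := (sz_step (x - w) b).1
    rw [gr_eq, hw x (by omega), hw (x + eb b) (by rw [add_sub_right_comm]; omega), sub_self]
  have hWs : ∀ e : V N × Bool, W e ≠ 0 → l + l ≤ sz (e.1 - w) := by
    rintro ⟨y, c⟩ hy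
    by_contra h4
    refine hy ?_
    simp only at h4
    have h5 := (sz_step (y - w) c).2
    have h8 : sz (y + eb c - w) ≤ 3 * l := by rw [add_sub_right_comm]; omega
    have e5 : gr F (y, c) = β (y, c) := by
      rw [← hfg y c (by omega), gr_eq, gr_eq]
      simp only [hF]
      rw [U_one hl0 h8, U_one hl0 (show sz (y - w) ≤ 3 * l by omega)]
      ring
    simp only [hW]
    rw [e5, sub_self]
  have hloc := H.loc w l (gr F) (gr h) W (by omega) k1 k2 k3 k4 hP hWs
  have r1 := H.real F w (hχ.mono (div_le_div_of_nonneg_right (by linarith) hl'.le)) (fun x hx => by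
    simp only [hF]
    rw [U_zero (by omega), zero_mul])
  have r2 := H.real (fun x => F x + h x) w ((hχ.add hh).mono (by
    rw [← add_div]
    exact div_le_div_of_nonneg_right (by linarith) hl'.le)) (fun x hx => by
    simp only [hF]
    rw [U_zero (by omega), zero_mul, hw x (by omega), add_zero])
  have h3 : (fun e => gr F e + gr h e) = gr (fun x => F x + h x) := by
    funext e; rw [gr_add]
  have h5 : (fun e => gr F e + W e) = β := by
    funext e; rw [hW]; ring
  rw [e4, h3, h5] at hloc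
  rw [abs_le] at hloc r1 r2 ⊢
  constructor <;> linarith

/-! ### the averaged partition of unity -/

/-- the tent -/
def T (l : ℕ) (z : V N) : ℝ := U 0 l z

lemma T_zero {z : V N} (h : l ≤ sz z) : T l z = 0 := U_zero (by omega)

/-- total mass of the tent -/
def ZT (N l : ℕ) [NeZero N] : ℝ := ∑ z : V N, T l z

lemma card_box (k : ℕ) :
    (((univ : Finset (V N)).filter fun z => sz z ≤ k).card : ℝ) ≤ 4 * ((k : ℝ) + 1) ^ 2 := by
  classical
  set B := (univ : Finset (ZMod N)).filter fun a => a.valMinAbs.natAbs ≤ k with hB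
  have h1 : ((univ : Finset (V N)).filter fun z => sz z ≤ k) ⊆ B ×ˢ B := by
    intro x hx
    rw [Finset.mem_filter] at hx
    have h2 : max x.1.valMinAbs.natAbs x.2.valMinAbs.natAbs ≤ k := hx.2
    rw [Finset.mem_product, hB]
    simp only [Finset.mem_filter, Finset.mem_univ, true_and]
    omega
  have h2 := Finset.card_le_card h1
  rw [Finset.card_product] at h2
  have h3 : B.card ≤ 2 * (k + 1) := card_abs_le' k
  have h4 : ((B.card : ℕ) : ℝ) ≤ 2 * ((k : ℝ) + 1) := by exact_mod_cast h3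
  have h5 : (((univ : Finset (V N)).filter fun z => sz z ≤ k).card : ℝ) ≤ (B.card : ℝ) * B.card := by
    exact_mod_cast h2
  have h6 : (0 : ℝ) ≤ B.card := Nat.cast_nonneg _
  nlinarith

lemma ZT_ge {l : ℕ} (hl : 0 < l) (hlN : l < N) : (l : ℝ) ^ 2 / 8 ≤ ZT N l := by
  classical
  have hl' : (0 : ℝ) < l := by exact_mod_cast hl
  set k := l / 2 with hk
  -- the box of radius `k`
  set I : Finset (V N) := (univ : Finset (V N)).filter fun z => sz z ≤ k with hI
  have h1 : ∀ z ∈ I, 1 / 2 ≤ T l z := by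
    intro z hz
    have h2 : sz z ≤ k := (Finset.mem_filter.1 hz).2
    unfold T U
    refine le_max_of_le_right (le_min (by norm_num) ?_)
    rw [le_div_iff₀ hl']
    have h3 : 2 * sz z ≤ l := by omega
    have h4 : 2 * (sz z : ℝ) ≤ l := by exact_mod_cast h3
    push_cast
    linarith
  have h2 : ∑ z ∈ I, T l z ≤ ZT N l :=
    Finset.sum_le_sum_of_subset_of_nonneg (Finset.subset_univ _) fun z _ _ => U_nonneg _ _ _
  have h3 : (I.card : ℝ) * (1 / 2) ≤ ∑ z ∈ I, T l z := by
    rw [← nsmul_eq_mul]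
    exact Finset.card_nsmul_le_sum _ _ _ h1
  have h4 : (k + 1) * (k + 1) ≤ I.card := by
    have h5 : ((range (k + 1)) ×ˢ (range (k + 1))).card = (k + 1) * (k + 1) := by
      rw [Finset.card_product, Finset.card_range]
    rw [← h5]
    refine Finset.card_le_card_of_injOn (fun ij => ((ij.1 : ZMod N), (ij.2 : ZMod N))) ?_ ?_
    · intro ij hij
      rw [Finset.mem_coe, Finset.mem_product, Finset.mem_range, Finset.mem_range] at hij
      rw [Finset.mem_coe, hI, Finset.mem_filter]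
      refine ⟨Finset.mem_univ _, ?_⟩
      have e1 : ((ij.1 : ZMod N)).valMinAbs = ij.1 := ZMod.valMinAbs_natCast_of_le_half (by omega)
      have e2 : ((ij.2 : ZMod N)).valMinAbs = ij.2 := ZMod.valMinAbs_natCast_of_le_half (by omega)
      unfold sz
      rw [e1, e2]
      omega
    · intro ij hij ij' hij' h
      rw [Finset.mem_coe, Finset.mem_product, Finset.mem_range, Finset.mem_range] at hij hij'
      rw [Prod.ext_iff] at h
      have e1 : ((ij.1 : ZMod N)).valMinAbs = ij.1 := ZMod.valMinAbs_natCast_of_le_half (by omega)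
      have e2 : ((ij.2 : ZMod N)).valMinAbs = ij.2 := ZMod.valMinAbs_natCast_of_le_half (by omega)
      have e3 : ((ij'.1 : ZMod N)).valMinAbs = ij'.1 := ZMod.valMinAbs_natCast_of_le_half (by omega)
      have e4 : ((ij'.2 : ZMod N)).valMinAbs = ij'.2 := ZMod.valMinAbs_natCast_of_le_half (by omega)
      simp only at h
      rw [h.1] at e1
      rw [h.2] at e2
      refine Prod.ext ?_ ?_ <;> omega
  have h5 : ((l : ℝ) / 2) ^ 2 ≤ I.card := by
    have h6 : (l : ℝ) / 2 ≤ k + 1 := by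
      have : l ≤ 2 * (k + 1) := by omega
      have : (l : ℝ) ≤ 2 * (k + 1) := by exact_mod_cast this
      linarith
    have h7 : ((k : ℝ) + 1) * (k + 1) ≤ I.card := by exact_mod_cast h4
    have h8 : 0 ≤ (l : ℝ) / 2 := by positivity
    nlinarith
  nlinarith

/-- the partial sums of the partition -/
def cS (l : ℕ) (S : Finset (V N)) (x : V N) : ℝ := (∑ w ∈ S, T l (x - w)) / ZT N l

lemma sum_T (x : V N) : ∑ w : V N, T l (x - w) = ZT N l :=
  Equiv.sum_comp (Equiv.subLeft x) (T (N := N) l)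

lemma cS_univ (hl : 0 < l) (hlN : l < N) (x : V N) : cS l univ x = 1 := by
  have hl' : (0 : ℝ) < l := by exact_mod_cast hl
  have hZ := ZT_ge (N := N) hl hlN
  have hZ0 : 0 < ZT N l := lt_of_lt_of_le (by positivity) hZ
  unfold cS
  rw [sum_T]
  exact div_self hZ0.ne'

lemma cS_abs (hl : 0 < l) (hlN : l < N) (S : Finset (V N)) (x : V N) : |cS l S x| ≤ 1 := by
  have hl' : (0 : ℝ) < l := by exact_mod_cast hl
  have hZ := ZT_ge (N := N) hl hlN
  have hZ0 : 0 < ZT N l := lt_of_lt_of_le (by positivity) hZ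
  have h1 : 0 ≤ ∑ w ∈ S, T l (x - w) := Finset.sum_nonneg fun w _ => U_nonneg _ _ _
  have h2 : ∑ w ∈ S, T l (x - w) ≤ ZT N l := by
    rw [← sum_T x]
    exact Finset.sum_le_sum_of_subset_of_nonneg (Finset.subset_univ _) fun w _ _ => U_nonneg _ _ _
  unfold cS
  rw [abs_of_nonneg (by positivity), div_le_one hZ0]
  exact h2

lemma cS_GB (hl : 4 ≤ l) (hlN : l < N) (S : Finset (V N)) : GB (72 / (l : ℝ)) (cS l S) := by
  classical
  rintro ⟨x, b⟩
  have hl0 : 0 < l := by omega
  have hl' : (0 : ℝ) < l := by exact_mod_cast hl0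
  have hl4 : (4 : ℝ) ≤ l := by exact_mod_cast hl
  have hZ := ZT_ge (N := N) hl0 hlN
  have hZ0 : 0 < ZT N l := lt_of_lt_of_le (by positivity) hZ
  rw [gr_eq]
  unfold cS
  rw [← sub_div, ← Finset.sum_sub_distrib, abs_div, abs_of_pos hZ0, div_le_iff₀ hZ0]
  refine (Finset.abs_sum_le_sum_abs _ _).trans ?_
  have h1 : ∀ w : V N, |T l (x + eb b - w) - T l (x - w)| ≤
      if sz (x - w) ≤ l then 1 / (l : ℝ) else 0 := by
    intro w
    split_ifs with h
    · have h2 := U_shift_GB (N := N) 0 hl0 w (x, b)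
      rw [gr_eq] at h2
      exact h2
    · have h3 := (sz_step (x - w) b).1
      rw [T_zero (by rw [add_sub_right_comm]; omega), T_zero (by omega), sub_self, abs_zero]
  have h2 : ∑ w ∈ S, |T l (x + eb b - w) - T l (x - w)| ≤
      ∑ w : V N, if sz (x - w) ≤ l then 1 / (l : ℝ) else 0 := by
    refine (Finset.sum_le_sum fun w _ => h1 w).trans ?_
    exact Finset.sum_le_sum_of_subset_of_nonneg (Finset.subset_univ _) fun w _ _ => by
      split_ifs <;> positivity
  refine h2.trans ?_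
  have h3 : ∑ w : V N, (if sz (x - w) ≤ l then 1 / (l : ℝ) else 0) =
      ∑ z : V N, if sz z ≤ l then 1 / (l : ℝ) else 0 :=
    Equiv.sum_comp (Equiv.subLeft x) (fun z : V N => if sz z ≤ l then 1 / (l : ℝ) else 0)
  rw [h3, ← Finset.sum_filter, Finset.sum_const, nsmul_eq_mul]
  have h4 := card_box (N := N) l
  have h5 : 4 * ((l : ℝ) + 1) ^ 2 ≤ 9 * (l : ℝ) ^ 2 := by nlinarith
  calc (((univ : Finset (V N)).filter fun z => sz z ≤ l).card : ℝ) * (1 / (l : ℝ))
      ≤ 9 * (l : ℝ) ^ 2 * (1 / (l : ℝ)) :=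
        mul_le_mul_of_nonneg_right (h4.trans h5) (by positivity)
    _ = 72 / (l : ℝ) * ((l : ℝ) ^ 2 / 8) := by field_simp; norm_num
    _ ≤ _ := mul_le_mul_of_nonneg_left hZ (by positivity)

/-- **sums of bumps**: changes vanishing near both cores -/
theorem Sys.bumps (H : Sys N l r Λ ε₁ ε₂ ε₃ D0 D1 ρ) {F0 F1 : ℤ → ℤ → ℝ} (h0 : F0 ∈ D0)
    (h1 : F1 ∈ D1) {p q : V N} (hf : Far r p q) {g h : V N → ℝ} {s t B : ℝ} (hs : 0 ≤ s)
    (ht : 0 ≤ t) (hB : 0 ≤ B) (hg : GB (s / l) g) (hh : GB (t / l) h) (hb : ∀ x, |h x| ≤ B)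
    (hp : ∀ x, sz (x - p) ≤ 9 * l → h x = 0) (hq : ∀ x, sz (x - q) ≤ 9 * l → h x = 0)
    (hΛ : 42 * (s + t + 72 * B + 1 + 2 * CG) ≤ Λ) :
    |ρ (cfg F0 F1 p q fun x => g x + h x) - ρ (cfg F0 F1 p q g)| ≤
      8 * ((N : ℝ) / l) ^ 2 * (3 * ε₂ + ε₃) := by
  classical
  have hC := CG_pos
  have hl4 := H.hl
  have hl0 : 0 < l := by omega
  have hlr := H.hlr
  have hrN := H.hrN
  have hlN : l < N := by omega
  have hl' : (0 : ℝ) < l := by exact_mod_cast hl0
  have hl4' : (4 : ℝ) ≤ l := by exact_mod_cast hl4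
  have hN := N_pos_real (N := N)
  have hZ := ZT_ge (N := N) hl0 hlN
  have hZ1 : 1 ≤ ZT N l := by nlinarith
  have hZ0 : 0 < ZT N l := by linarith
  set ε := 2 * ε₂ + ε₃ with hε
  have hΛ0 : 0 ≤ Λ := by
    have h3 : 0 ≤ 42 * (s + t + 72 * B + 1 + 2 * CG) := by positivity
    linarith
  have heps : 0 ≤ ε₂ ∧ 0 ≤ ε₃ := by
    have r0 := H.real (fun _ => 0) p (GB.zero (by positivity)) (fun _ _ => rfl)
    have k1 : KK l r Λ D0 D1 (gr (fun _ : V N => (0 : ℝ))) := KK.real' (s := 0) (by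
      rw [zero_div]
      exact GB.zero le_rfl) hΛ0
    have r1 := H.loc p 0 (gr (fun _ : V N => (0 : ℝ))) (fun _ => 0) (fun _ => 0) (by omega) k1
      (by simpa using k1) (by simpa using k1) (by simpa using k1)
      (fun e he => absurd rfl he) (fun e he => absurd rfl he)
    exact ⟨(abs_nonneg _).trans r0, (abs_nonneg _).trans r1⟩
  -- the partial sums
  have hGB : ∀ S : Finset (V N), GB ((s + t + 72 * B) / l) (fun x => g x + cS l S x * h x) := by
    intro S
    have a1 := GB.mul (cS_GB (N := N) hl4 hlN S) hh (cS_abs hl0 hlN S) hb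
    refine (hg.add a1).mono (le_of_eq ?_)
    ring
  have hbump : ∀ w : V N, GB ((t + B) / l) (fun x => T l (x - w) * h x) := by
    intro w
    have a1 := GB.mul (U_shift_GB (N := N) 0 hl0 w) hh (fun x => abs_U _ _ _) hb
    refine a1.mono (le_of_eq ?_)
    ring
  have key : ∀ (S : Finset (V N)) (w : V N), ∀ σ : ℝ, |σ| ≤ 1 →
      |ρ (cfg F0 F1 p q fun x => (g x + cS l S x * h x) + σ * (T l (x - w) * h x)) -
        ρ (cfg F0 F1 p q fun x => g x + cS l S x * h x)| ≤ ε := by
    intro S w σ hσ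
    have hbσ : GB ((t + B) / l) (fun x => σ * (T l (x - w) * h x)) := by
      refine ((hbump w).smul σ).mono ?_
      have : 0 ≤ (t + B) / l := by positivity
      nlinarith [abs_nonneg σ]
    by_cases hc : 8 * l ≤ sz (w - p) ∧ 8 * l ≤ sz (w - q)
    · refine H.bump h0 h1 hf (s := s + t + 72 * B) (t := t + B) (by positivity) (by positivity)
        (hGB S) hbσ (w := w) (fun x hx => ?_) hc.1 hc.2 ?_
      · rw [T_zero hx]
        ring
      · linarith
    · have hz : ∀ x, T l (x - w) * h x = 0 := by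
        intro x
        by_cases hx : l ≤ sz (x - w)
        · rw [T_zero hx, zero_mul]
        · rcases not_and_or.1 hc with hc | hc
          · rw [hp x, mul_zero]
            have h3 := sz_add_le (x - w) (w - p)
            rw [sub_add_sub_cancel] at h3
            omega
          · rw [hq x, mul_zero]
            have h3 := sz_add_le (x - w) (w - q)
            rw [sub_add_sub_cancel] at h3
            omega
      have e : (fun x => (g x + cS l S x * h x) + σ * (T l (x - w) * h x)) =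
          fun x => g x + cS l S x * h x := by
        funext x
        rw [hz x]
        ring
      rw [e, sub_self, abs_zero]
      rw [hε]
      linarith [heps.1, heps.2]
  have step : ∀ (S : Finset (V N)) (w : V N), w ∉ S →
      |ρ (cfg F0 F1 p q fun x => g x + cS l (insert w S) x * h x) -
        ρ (cfg F0 F1 p q fun x => g x + cS l S x * h x)| ≤ 1 / ZT N l * (ε + ε₂) := by
    intro S w hw
    have kS : KK l r Λ D0 D1 (cfg F0 F1 p q fun x => g x + cS l S x * h x) :=
      KK.core' h0 h1 hf (hGB S) (by nlinarith)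
    have hcv := H.conc _ (fun x => T l (x - w) * h x) w kS
      ((hbump w).mono (div_le_div_of_nonneg_right (by nlinarith) hl'.le))
      (fun x hx => by rw [T_zero (by omega), zero_mul])
    set φ : ℝ → ℝ := fun σ => ρ (fun e => cfg F0 F1 p q (fun x => g x + cS l S x * h x) e +
      σ * gr (fun x => T l (x - w) * h x) e) with hφ
    have hφe : ∀ σ, φ σ = ρ (cfg F0 F1 p q fun x =>
        (g x + cS l S x * h x) + σ * (T l (x - w) * h x)) := by
      intro σ
      simp only [hφ]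
      congr 1
      funext e
      rw [cfg_add F0 F1 p q (fun x => g x + cS l S x * h x)
        (fun x => σ * (T l (x - w) * h x)), gr_smul]
    have hφ0 : φ 0 = ρ (cfg F0 F1 p q fun x => g x + cS l S x * h x) := by
      rw [hφe]
      congr 2
      funext x
      ring
    have b1 : |φ 1 - φ 0| ≤ ε := by
      rw [hφ0, hφe]
      exact key S w 1 (by simp)
    have b2 : |φ (-1) - φ 0| ≤ ε := by
      rw [hφ0, hφe]
      exact key S w (-1) (by simp)
    have h3 := concave4 (φ := φ) hcv heps.1 b1 b2 (δ := 1 / ZT N l) (by positivity) (by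
      rw [div_le_one hZ0]; exact hZ1)
    rw [hφ0, hφe] at h3
    have e : (fun x => (g x + cS l S x * h x) + 1 / ZT N l * (T l (x - w) * h x)) =
        fun x => g x + cS l (insert w S) x * h x := by
      funext x
      have : cS l (insert w S) x = T l (x - w) / ZT N l + cS l S x := by
        unfold cS
        rw [Finset.sum_insert hw, add_div]
      rw [this]
      ring
    rw [e] at h3
    exact h3
  have main : ∀ S : Finset (V N),
      |ρ (cfg F0 F1 p q fun x => g x + cS l S x * h x) - ρ (cfg F0 F1 p q g)| ≤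
        S.card * (1 / ZT N l * (ε + ε₂)) := by
    intro S
    induction S using Finset.induction_on with
    | empty =>
      have : (fun x : V N => g x + cS l ∅ x * h x) = g := by
        funext x
        unfold cS
        simp
      rw [this]
      simp
    | insert w S hw ih =>
      rw [Finset.card_insert_of_notMem hw]
      have h3 := step S w hw
      push_cast
      have e : ρ (cfg F0 F1 p q fun x => g x + cS l (insert w S) x * h x) - ρ (cfg F0 F1 p q g) =
          (ρ (cfg F0 F1 p q fun x => g x + cS l (insert w S) x * h x) -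
            ρ (cfg F0 F1 p q fun x => g x + cS l S x * h x)) +
          (ρ (cfg F0 F1 p q fun x => g x + cS l S x * h x) - ρ (cfg F0 F1 p q g)) := by ring
      rw [e]
      refine (abs_add_le _ _).trans ?_
      linarith
  have h3 := main univ
  have e : (fun x : V N => g x + cS l univ x * h x) = fun x => g x + h x := by
    funext x
    rw [cS_univ hl0 hlN, one_mul]
  rw [e, Finset.card_univ, card_VN] at h3
  refine h3.trans ?_
  have hε0 : 0 ≤ ε + ε₂ := by
    rw [hε]
    linarith [heps.1, heps.2]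
  have hε3 : 3 * ε₂ + ε₃ = ε + ε₂ := by rw [hε]; ring
  rw [← mul_assoc, hε3]
  refine mul_le_mul_of_nonneg_right ?_ hε0
  rw [mul_one_div, div_pow, div_le_iff₀ hZ0, mul_comm (8 * ((N : ℝ) ^ 2 / (l : ℝ) ^ 2))]
  calc (N : ℝ) ^ 2 = (l : ℝ) ^ 2 / 8 * (8 * ((N : ℝ) ^ 2 / (l : ℝ) ^ 2)) := by field_simp
    _ ≤ _ := mul_le_mul_of_nonneg_right hZ (by positivity)

end

end

end Vale.Agent.P159.H817
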