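import Vale.Agent.P159.H817.St4

/-!
P159 / module STATG (helper817), part 5: tiny changes, the charge of a core vanishes, linear response.
-/

set_option linter.unusedSectionVars false

namespace Vale.Agent.P159.H817

open Finset
open Vale.Agent.P159.TM.Spec (V)

noncomputable section

section

variable {N : ℕ} [NeZero N] {l r : ℕ} {Λ ε₁ ε₂ ε₃ : ℝ} {D0 D1 : Dec} {ρ : (V N × Bool → ℝ) → ℝ}

/-- the error of bump sums -/
def eB (N l : ℕ) (ε₂ ε₃ : ℝ) : ℝ := 8 * ((N : ℝ) / l) ^ 2 * (3 * ε₂ + ε₃)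

lemma Sys.eps (H : Sys N l r Λ ε₁ ε₂ ε₃ D0 D1 ρ) (hΛ : 0 ≤ Λ) : 0 ≤ ε₂ ∧ 0 ≤ ε₃ := by
  have r0 := H.real (fun _ => 0) 0 (GB.zero (by positivity)) (fun _ _ => rfl)
  have k1 : KK l r Λ D0 D1 (gr (fun _ : V N => (0 : ℝ))) := KK.real' (s := 0) (by
    rw [zero_div]
    exact GB.zero le_rfl) hΛ
  have r1 := H.loc 0 0 (gr (fun _ : V N => (0 : ℝ))) (fun _ => 0) (fun _ => 0) (by omega) k1
    (by simpa using k1) (by simpa using k1) (by simpa using k1)
    (fun e he => absurd rfl he) (fun e he => absurd rfl he)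
  exact ⟨(abs_nonneg _).trans r0, (abs_nonneg _).trans r1⟩

lemma Sys.eps1 (H : Sys N l r Λ ε₁ ε₂ ε₃ D0 D1 ρ) (hΛ : 0 ≤ Λ) {F0 F1 : ℤ → ℤ → ℝ}
    (h0 : F0 ∈ D0) (h1 : F1 ∈ D1) {p q : V N} (hf : Far r p q) : 0 ≤ ε₁ := by
  have h := H.core F0 h0 F1 h1 p q (fun _ => 0) (fun _ => 0) hf (GB.zero (by positivity))
    (by simpa using GB.zero (N := N) (s := Λ / l) (by positivity)) (by simp)
    (Or.inl fun _ _ => rfl)
  exact (abs_nonneg _).trans h

lemma Sys.eB_ge (H : Sys N l r Λ ε₁ ε₂ ε₃ D0 D1 ρ) (hΛ : 0 ≤ Λ) : ε₃ ≤ eB N l ε₂ ε₃ := by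
  obtain ⟨h2, h3⟩ := H.eps hΛ
  have hl := H.hl
  have hlr := H.hlr
  have hrN := H.hrN
  have hl' : (0 : ℝ) < l := by exact_mod_cast (by omega : 0 < l)
  have h4 : 1 ≤ (N : ℝ) / l := by
    rw [le_div_iff₀ hl', one_mul]
    exact_mod_cast (by omega : l ≤ N)
  have h5 : 1 ≤ ((N : ℝ) / l) ^ 2 := one_le_pow₀ h4
  unfold eB
  nlinarith

/-- **tiny changes near one core** -/
theorem Sys.tiny (H : Sys N l r Λ ε₁ ε₂ ε₃ D0 D1 ρ) {F0 F1 : ℤ → ℤ → ℝ} (h0 : F0 ∈ D0)
    (h1 : F1 ∈ D1) {p q : V N} (hf : Far r p q) {g h : V N → ℝ} {s t δ : ℝ} (hs : 0 ≤ s)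
    (ht : 0 ≤ t) (hδ : 0 < δ) (hδ1 : δ ≤ 1) (hg : GB (s / l) g) (hh : GB (δ * t / l) h)
    (hb : ∀ x, |h x| ≤ δ)
    (hz : (∀ x, 20 * l ≤ sz (x - p) → h x = 0) ∨ (∀ x, 20 * l ≤ sz (x - q) → h x = 0))
    (hΛ : s + t ≤ Λ) :
    |ρ (cfg F0 F1 p q fun x => g x + h x) - ρ (cfg F0 F1 p q g)| ≤ δ * (2 * ε₁) := by
  have kS : KK l r Λ D0 D1 (cfg F0 F1 p q g) := KK.core' h0 h1 hf hg (by linarith)
  set k : V N → ℝ := fun x => δ⁻¹ * h x with hk
  have hkh : ∀ x, δ * k x = h x := by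
    intro x
    rw [hk]
    field_simp
  have hkGB : GB (t / l) k := by
    refine (hh.smul δ⁻¹).mono (le_of_eq ?_)
    rw [abs_of_pos (inv_pos.2 hδ)]
    field_simp
  have hkb : ∀ x, |k x| ≤ 1 := by
    intro x
    simp only [hk]
    rw [abs_mul, abs_of_pos (inv_pos.2 hδ)]
    calc δ⁻¹ * |h x| ≤ δ⁻¹ * δ := mul_le_mul_of_nonneg_left (hb x) (inv_pos.2 hδ).le
      _ = 1 := inv_mul_cancel₀ hδ.ne'
  have hΛ0 : 0 ≤ Λ := by linarith
  have hcv : ConcaveOn ℝ Set.univ
      (fun σ : ℝ => ρ (fun e => cfg F0 F1 p q g e + σ * gr k e) - ε₂ / 2 * σ ^ 2) := by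
    have hkl : GB (Λ / l) k :=
      hkGB.mono (div_le_div_of_nonneg_right (by linarith) (Nat.cast_nonneg _))
    rcases hz with hz | hz
    · exact H.conc _ k p kS hkl fun x hx => by simp only [hk]; rw [hz x hx]; ring
    · exact H.conc _ k q kS hkl fun x hx => by simp only [hk]; rw [hz x hx]; ring
  set φ : ℝ → ℝ := fun σ => ρ (fun e => cfg F0 F1 p q g e + σ * gr k e) with hφ
  have hφe : ∀ σ, φ σ = ρ (cfg F0 F1 p q fun x => g x + σ * k x) := by
    intro σ
    simp only [hφ]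
    congr 1
    funext e
    rw [cfg_add F0 F1 p q g (fun x => σ * k x), gr_smul σ k]
  have hφ0 : φ 0 = ρ (cfg F0 F1 p q g) := by
    rw [hφe]
    congr 2
    funext x
    ring
  have key : ∀ σ : ℝ, |σ| = 1 → |φ σ - φ 0| ≤ ε₁ := by
    intro σ hσ
    rw [hφ0, hφe]
    refine H.core F0 h0 F1 h1 p q g (fun x => σ * k x) hf ?_ ?_ ?_ ?_
    · exact hg.mono (div_le_div_of_nonneg_right (by linarith) (Nat.cast_nonneg _))
    · refine (hg.add (hkGB.smul σ)).mono ?_
      rw [hσ, one_mul, ← add_div]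
      exact div_le_div_of_nonneg_right hΛ (Nat.cast_nonneg _)
    · intro x
      rw [abs_mul, hσ, one_mul]
      exact hkb x
    · rcases hz with hz | hz
      · left
        intro x hx
        simp only [hk]
        rw [hz x hx]
        ring
      · right
        intro x hx
        simp only [hk]
        rw [hz x hx]
        ring
  have h3 := concave4 (φ := φ) hcv (H.eps hΛ0).1 (key 1 (by simp)) (key (-1) (by simp)) hδ.le hδ1
  have h4 : δ * (ε₁ + ε₂) ≤ δ * (2 * ε₁) := mul_le_mul_of_nonneg_left (by linarith [H.h21]) hδ.le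
  replace h3 := h3.trans h4
  rw [hφ0, hφe] at h3
  have e : (fun x => g x + δ * k x) = fun x => g x + h x := by
    funext x
    rw [hkh]
  rw [e] at h3
  exact h3

/-! ### the response to a shift of the core -/

/-- response of `ρ` to a shift of the core `q` by `c` -/
def rsp (ρ : (V N × Bool → ℝ) → ℝ) (l : ℕ) (F0 F1 : ℤ → ℤ → ℝ) (p q : V N) (g : V N → ℝ)
    (c : ℝ) : ℝ :=
  ρ (cfg F0 F1 p q fun x => g x + c * U (10 * l) l (x - q)) - ρ (cfg F0 F1 p q g)

lemma Far.symm {p q : V N} (h : Far r p q) : Far r q p := by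
  unfold Far at h ⊢
  rw [sz_sub_comm p q]
  exact h

lemma U_cGB (m : ℕ) (hl : 0 < l) (q : V N) {c C : ℝ} (hc : |c| ≤ C) :
    GB (C / l) (fun x => c * U m l (x - q)) := by
  refine ((U_shift_GB (N := N) m hl q).smul c).mono ?_
  rw [mul_one_div]
  exact div_le_div_of_nonneg_right hc (Nat.cast_nonneg _)

/-- slopes of size `L / r` are slopes of size `L / l` -/
lemma GB.rl {L : ℝ} (hL : 0 ≤ L) (hl : 0 < l) (hlr : l ≤ r) {g : V N → ℝ} (hg : GB (L / r) g) :
    GB (L / l) g := by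
  refine hg.mono ?_
  have hl' : (0 : ℝ) < l := by exact_mod_cast hl
  exact div_le_div_of_nonneg_left hL hl' (by exact_mod_cast hlr)

/-- **locality of the response** -/
theorem Sys.rsp_loc (H : Sys N l r Λ ε₁ ε₂ ε₃ D0 D1 ρ) {F0 F0' F1 : ℤ → ℤ → ℝ} (h0 : F0 ∈ D0)
    (h0' : F0' ∈ D0) (h1 : F1 ∈ D1) {p p' q : V N} (hf : Far r p q) (hf' : Far r p' q)
    {g g' : V N → ℝ} {L C c : ℝ} (hL : 0 ≤ L) (hg : GB (L / r) g) (hg' : GB (L / r) g')
    (hc : |c| ≤ C) (hΛ : 100000 * (1 + CG + L + C) ≤ Λ)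
    (hr : 100000 * (1 + CG + L + C) * l ≤ r) :
    |rsp ρ l F0 F1 p q g c - rsp ρ l F0' F1 p' q g' c| ≤
      ε₃ + 8000 * (1 + CG + L) * (l / r) * ε₁ := by
  have hC := CG_pos
  have hl4 := H.hl
  have hl0 : 0 < l := by omega
  have hlr := H.hlr
  have hrN := H.hrN
  have hl' : (0 : ℝ) < l := by exact_mod_cast hl0
  have hr0 : (0 : ℝ) < r := by exact_mod_cast (by omega : 0 < r)
  have hN := N_pos_real (N := N)
  have hC0 : 0 ≤ C := (abs_nonneg c).trans hc
  -- the difference of the two fields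
  set D : V N × Bool → ℝ := fun e => (bD p' p e + gr g' e) - gr g e with hD
  set S : ℝ := 1 + 16 * CG + 2 * L with hS
  have hS0 : 0 < S := by positivity
  have hdp : ∀ x, sz (x - q) ≤ 15 * l → r ≤ 4 * sz (x - p) := by
    intro x hx
    have h3 := sz_add_le (p - x) (x - q)
    rw [sub_add_sub_cancel, sz_sub_comm p x, sz_sub_comm p q] at h3
    have := hf.1
    omega
  have hdp' : ∀ x, sz (x - q) ≤ 15 * l → r ≤ 4 * sz (x - p') := by
    intro x hx
    have h3 := sz_add_le (p' - x) (x - q)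
    rw [sub_add_sub_cancel, sz_sub_comm p' x, sz_sub_comm p' q] at h3
    have := hf'.1
    omega
  have hDb : ∀ x b, sz (x - q) ≤ 15 * l → |D (x, b)| ≤ S / r := by
    intro x b hx
    have a1 := bD_le p' p x b (ρ := r / 4) (by have := hdp' x hx; omega)
      (by have := hdp x hx; omega)
    have a2 : 4 * CG / (1 + ((r / 4 : ℕ) : ℝ)) ≤ 16 * CG / r := by
      rw [div_le_div_iff₀ (by positivity) hr0]
      have : (r : ℝ) ≤ 4 * (1 + ((r / 4 : ℕ) : ℝ)) := by
        have : r ≤ 4 * (1 + r / 4) := by omega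
        exact_mod_cast this
      nlinarith
    have a3 : 1 / (N : ℝ) ≤ 1 / r := by
      refine one_div_le_one_div_of_le hr0 ?_
      exact_mod_cast (by omega : r ≤ N)
    have a4 := hg (x, b)
    have a5 := hg' (x, b)
    have e : S / r = 1 / r + 16 * CG / r + L / r + L / r := by rw [hS]; ring
    rw [e, hD]
    refine (abs_sub _ _).trans ?_
    have := abs_add_le (bD p' p (x, b)) (gr g' (x, b))
    linarith
  have hDc : ∀ x, sz (x - q) ≤ 15 * l → cu D x = 0 := by
    intro x hx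
    have n1 : x ≠ p := by
      intro h
      have := hdp x hx
      rw [h, sub_self, sz_zero] at this
      omega
    have n2 : x ≠ p' := by
      intro h
      have := hdp' x hx
      rw [h, sub_self, sz_zero] at this
      omega
    have e : D = fun e => (fun e => bD p' p e + gr g' e) e + (fun e => gr (fun x => -g x) e) e := by
      funext e
      rw [hD]
      simp only [gr_neg]
      ring
    rw [e, cu_add, cu_add (bD p' p), cu_gr, cu_gr, cu_bD, if_neg n1, if_neg n2]
    ring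
  obtain ⟨f, -, hfg, hfb⟩ := box_pot D q (m := 15 * l) (by omega) hDb hDc
  set δ : ℝ := 120 * S * (l / r) with hδ
  have hδ0 : 0 < δ := by positivity
  have hfb' : ∀ x, sz (x - q) ≤ 15 * l → |f x| ≤ δ := by
    intro x hx
    refine (hfb x hx).trans (le_of_eq ?_)
    rw [hδ]
    push_cast
    ring
  have hδle : δ ≤ 4000 * (1 + CG + L) * (l / r) := by
    rw [hδ, hS]
    refine mul_le_mul_of_nonneg_right ?_ (by positivity)
    nlinarith
  have hlr1 : (l : ℝ) / r ≤ 1 / (100000 * (1 + CG + L + C)) := by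
    rw [div_le_div_iff₀ hr0 (by positivity)]
    linarith
  have hδ1 : δ ≤ 1 := by
    refine hδle.trans ?_
    calc _ ≤ 4000 * (1 + CG + L) * (1 / (100000 * (1 + CG + L + C))) :=
          mul_le_mul_of_nonneg_left hlr1 (by positivity)
      _ ≤ 1 := by
          rw [mul_one_div, div_le_one (by positivity)]
          nlinarith
  set k : V N → ℝ := fun x => U (13 * l) l (x - q) * f x with hk
  have hkGB : GB (δ * 2 / l) k := by
    have h2 := GB.cut (w := q) (m := 15 * l) (k := 13 * l) (l := l) (s := S / r) (B := δ)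
      (f := f) hl0 (by omega) (by positivity)
      (fun x b hx => by rw [hfg x b hx]; exact hDb x b hx) hfb'
    refine h2.mono ?_
    have : S / r ≤ δ / l := by
      rw [hδ]
      have e : 120 * S * ((l : ℝ) / r) / l = 120 * (S / r) := by field_simp
      rw [e]
      have : 0 ≤ S / r := by positivity
      linarith
    have e : δ * 2 / l = δ / l + δ / l := by ring
    rw [e]
    linarith
  have hkb : ∀ x, |k x| ≤ δ := by
    intro x
    simp only [hk]
    rcases le_or_gt (sz (x - q)) (15 * l) with h | h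
    · rw [abs_mul]
      calc _ ≤ 1 * |f x| := mul_le_mul_of_nonneg_right (abs_U _ _ _) (abs_nonneg _)
        _ ≤ _ := by rw [one_mul]; exact hfb' x h
    · rw [U_zero (by omega), zero_mul, abs_zero]
      exact hδ0.le
  have hkz : ∀ x, 20 * l ≤ sz (x - q) → k x = 0 := by
    intro x hx
    simp only [hk]
    rw [U_zero (by omega), zero_mul]
  set u : V N → ℝ := fun x => c * U (10 * l) l (x - q) with hu
  have huGB : GB (C / l) u := U_cGB (10 * l) hl0 q hc
  have hg1 : GB (L / l) g := hg.rl hL hl0 (by omega)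
  have hg1' : GB (L / l) g' := hg'.rl hL hl0 (by omega)
  have hk2 : GB (2 / (l : ℝ)) k := hkGB.mono (by
    refine div_le_div_of_nonneg_right ?_ hl'.le
    linarith)
  -- tiny changes
  have t1 := H.tiny h0 h1 hf (g := g) (h := k) (s := L) (t := 2) (δ := δ) hL (by norm_num) hδ0 hδ1
    hg1 hkGB hkb (Or.inr hkz) (by nlinarith)
  have t2 := H.tiny h0 h1 hf (g := fun x => g x + u x) (h := k) (s := L + C) (t := 2) (δ := δ)
    (by positivity) (by norm_num) hδ0 hδ1
    (by rw [add_div]; exact hg1.add huGB) hkGB hkb (Or.inr hkz) (by nlinarith)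
  -- locality
  set B : V N × Bool → ℝ := cfg F0 F1 p q (fun x => g x + k x) with hB
  set W : V N × Bool → ℝ := fun e => cfg F0' F1 p' q g' e - B e with hW
  have kB : KK l r Λ D0 D1 B := KK.core' h0 h1 hf (s := L + 2)
    (by rw [add_div]; exact hg1.add hk2) (by nlinarith)
  have eP : (fun e => B e + gr u e) = cfg F0 F1 p q (fun x => (g x + u x) + k x) := by
    funext e
    rw [hB, ← cfg_add]
    congr 1
    funext x
    ring
  have kP : KK l r Λ D0 D1 (fun e => B e + gr u e) := by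
    rw [eP]
    refine KK.core' h0 h1 hf (s := L + C + 2) ?_ (by nlinarith)
    rw [add_div, add_div]
    exact (hg1.add huGB).add hk2
  have eW : (fun e => B e + W e) = cfg F0' F1 p' q g' := by
    funext e
    rw [hW]
    ring
  have kW : KK l r Λ D0 D1 (fun e => B e + W e) := by
    rw [eW]
    exact KK.core' h0' h1 hf' hg1' (by nlinarith)
  have ePW : (fun e => B e + gr u e + W e) = cfg F0' F1 p' q (fun x => g' x + u x) := by
    funext e
    rw [cfg_add, hW]
    ring
  have kPW : KK l r Λ D0 D1 (fun e => B e + gr u e + W e) := by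
    rw [ePW]
    refine KK.core' h0' h1 hf' (s := L + C) ?_ (by nlinarith)
    rw [add_div]
    exact hg1'.add huGB
  have hPs : ∀ e : V N × Bool, gr u e ≠ 0 → sz (e.1 - q) ≤ 11 * l := by
    rintro ⟨x, b⟩ hx
    by_contra h4
    refine hx ?_
    simp only at h4
    have h5 := (sz_step (x - q) b).1
    have h8 : 10 * l + l ≤ sz (x + eb b - q) := by rw [add_sub_right_comm]; omega
    rw [gr_eq]
    simp only [hu]
    rw [U_zero h8, U_zero (show 10 * l + l ≤ sz (x - q) by omega)]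
    ring
  have hWs : ∀ e : V N × Bool, W e ≠ 0 → 11 * l + l ≤ sz (e.1 - q) := by
    rintro ⟨y, b'⟩ hy
    by_contra h4
    refine hy ?_
    simp only at h4
    have h5 := (sz_step (y - q) b').2
    have h8 : sz (y + eb b' - q) ≤ 13 * l := by rw [add_sub_right_comm]; omega
    have e5 : gr k (y, b') = D (y, b') := by
      rw [← hfg y b' (by omega), gr_eq, gr_eq]
      simp only [hk]
      rw [U_one hl0 h8, U_one hl0 (show sz (y - q) ≤ 13 * l by omega)]
      ring
    have d1 := hdp y (by omega)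
    have d2 := hdp' y (by omega)
    have e6 : bD p' q (y, b') = bD p' p (y, b') + bD p q (y, b') := by
      refine bD_add ?_ _
      have h9 := sz_add_le (p - q) (q - p')
      rw [sub_add_sub_cancel, sz_sub_comm p q] at h9
      have := hf.2
      have := hf'.2
      omega
    simp only [hW, hB]
    rw [cfg_add]
    unfold cfg
    rw [gr_dec_zero (H.supp0 F0 h0) b' (by omega), gr_dec_zero (H.supp0 F0' h0') b' (by omega),
      e6, e5, hD]
    ring
  have hloc := H.loc q (11 * l) B (gr u) W (by omega) kB kP kW kPW hPs hWs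
  rw [ePW, eW, eP] at hloc
  unfold rsp
  have hε1 := H.eps1 (by nlinarith) h0 h1 hf
  have hδle2 : 2 * (δ * (2 * ε₁)) ≤ 8000 * (1 + CG + L) * (l / r) * ε₁ := by
    have : 4 * δ ≤ 8000 * (1 + CG + L) * (l / r) := by
      rw [hδ, hS]
      have : 4 * (120 * (1 + 16 * CG + 2 * L) * ((l : ℝ) / r)) =
        (480 * (1 + 16 * CG + 2 * L)) * (l / r) := by ring
      rw [this]
      refine mul_le_mul_of_nonneg_right ?_ (by positivity)
      nlinarith
    calc 2 * (δ * (2 * ε₁)) = (4 * δ) * ε₁ := by ring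
      _ ≤ _ := mul_le_mul_of_nonneg_right this hε1
  rw [abs_le] at hloc t1 t2 ⊢
  constructor <;> linarith


lemma cfg_const (F0 F1 : ℤ → ℤ → ℝ) (p q : V N) (g : V N → ℝ) (c : ℝ) :
    cfg F0 F1 p q (fun x => g x + c) = cfg F0 F1 p q g := by
  funext e
  rw [cfg_add F0 F1 p q g (fun _ => c), gr_const, add_zero]

/-- negation of a configuration -/
lemma cfg_neg' {F0 F1 : ℤ → ℤ → ℝ} {p q : V N} (h : 2 * sz (q - p) < N) (g : V N → ℝ) :
    (fun e => -cfg F0 F1 p q g e) =
      cfg (fun i j => -F1 i j) (fun i j => -F0 i j) q p (fun x => -g x) :=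
  funext fun e => cfg_neg h g e

lemma Sys.far_lt (H : Sys N l r Λ ε₁ ε₂ ε₃ D0 D1 ρ) {p q : V N} (hf : Far r p q) :
    2 * sz (q - p) < N := by
  have := H.hrN
  have := H.hl
  have := H.hlr
  have := hf.2
  omega

lemma Sys.ev (H : Sys N l r Λ ε₁ ε₂ ε₃ D0 D1 ρ) {F0 F1 : ℤ → ℤ → ℝ} (h0 : F0 ∈ D0)
    (h1 : F1 ∈ D1) {p q : V N} (hf : Far r p q) {g : V N → ℝ} (hg : GB (Λ / l) g) :
    ρ (cfg (fun i j => -F1 i j) (fun i j => -F0 i j) q p (fun x => -g x)) =
      ρ (cfg F0 F1 p q g) := by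
  rw [← cfg_neg' (H.far_lt hf)]
  exact H.even _ (KK.core' h0 h1 hf hg le_rfl)

/-- a point near `p` is far from `q` -/
lemma Sys.sep (H : Sys N l r Λ ε₁ ε₂ ε₃ D0 D1 ρ) {p q x : V N} (hf : Far r p q)
    (hx : sz (x - p) ≤ 20 * l) : 50 * l ≤ sz (x - q) := by
  have := H.hlr
  have := hf.1
  have h3 := sz_add_le (q - x) (x - p)
  rw [sub_add_sub_cancel, sz_sub_comm q x] at h3
  omega

/-- **neutrality**: shifting `q` by `c` is shifting `p` by `-c` -/
theorem Sys.rsp_swap (H : Sys N l r Λ ε₁ ε₂ ε₃ D0 D1 ρ) {F0 F1 : ℤ → ℤ → ℝ} (h0 : F0 ∈ D0)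
    (h1 : F1 ∈ D1) {p q : V N} (hf : Far r p q) {g : V N → ℝ} {L C c : ℝ} (hL : 0 ≤ L)
    (hg : GB (L / r) g) (hc : |c| ≤ C) (hΛ : 100000 * (1 + CG + L + C) ≤ Λ) :
    |rsp ρ l F0 F1 p q g c -
      rsp ρ l (fun i j => -F1 i j) (fun i j => -F0 i j) q p (fun x => -g x) c| ≤
      eB N l ε₂ ε₃ := by
  have hC := CG_pos
  have hl4 := H.hl
  have hl0 : 0 < l := by omega
  have hlr := H.hlr
  have hl' : (0 : ℝ) < l := by exact_mod_cast hl0
  have hC0 : 0 ≤ C := (abs_nonneg c).trans hc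
  have hg1 : GB (L / l) g := hg.rl hL hl0 (by omega)
  have e1 : ρ (cfg (fun i j => -F1 i j) (fun i j => -F0 i j) q p (fun x => -g x)) =
      ρ (cfg F0 F1 p q g) :=
    H.ev h0 h1 hf (hg1.mono (div_le_div_of_nonneg_right (by nlinarith) hl'.le))
  set g1 : V N → ℝ := fun x => g x + (-c) * U (10 * l) l (x - p) with hg1d
  have hg1GB : GB ((L + C) / l) g1 := by
    rw [add_div]
    exact hg1.add (U_cGB (10 * l) hl0 p (by rwa [abs_neg]))
  have e2 : ρ (cfg (fun i j => -F1 i j) (fun i j => -F0 i j) q p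
      (fun x => -g x + c * U (10 * l) l (x - p))) = ρ (cfg F0 F1 p q g1) := by
    rw [← H.ev h0 h1 hf (hg1GB.mono (div_le_div_of_nonneg_right (by nlinarith) hl'.le))]
    congr 2
    funext x
    rw [hg1d]
    ring
  set h : V N → ℝ := fun x => c * U (10 * l) l (x - p) + c * U (10 * l) l (x - q) + (-c) with hh
  have hGB : GB (2 * C / l) h := by
    have h2 := ((U_cGB (10 * l) hl0 p hc).add (U_cGB (10 * l) hl0 q hc)).add
      (GB.const (N := N) (s := 0) le_rfl (-c))
    refine h2.mono (le_of_eq ?_)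
    ring
  have hb : ∀ x, |h x| ≤ 3 * C := by
    intro x
    rw [hh]
    have a1 := abs_U (10 * l) l (x - p)
    have a2 := abs_U (10 * l) l (x - q)
    have b1 : |c * U (10 * l) l (x - p)| ≤ C := by
      rw [abs_mul]
      calc _ ≤ C * 1 := mul_le_mul hc a1 (abs_nonneg _) hC0
        _ = C := mul_one C
    have b2 : |c * U (10 * l) l (x - q)| ≤ C := by
      rw [abs_mul]
      calc _ ≤ C * 1 := mul_le_mul hc a2 (abs_nonneg _) hC0
        _ = C := mul_one C
    refine (abs_add_le _ _).trans ?_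
    rw [abs_neg]
    have := abs_add_le (c * U (10 * l) l (x - p)) (c * U (10 * l) l (x - q))
    linarith
  have hbump := H.bumps h0 h1 hf (g := g1) (h := h) (s := L + C) (t := 2 * C) (B := 3 * C)
    (by positivity) (by positivity) (by positivity) hg1GB hGB hb
    (fun x hx => by
      have h3 := H.sep hf (x := x) (by omega)
      rw [hh]
      simp only
      rw [U_one hl0 (show sz (x - p) ≤ 10 * l by omega), U_zero (by omega)]
      ring)
    (fun x hx => by
      have h3 := H.sep hf.symm (x := x) (by omega)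
      rw [hh]
      simp only
      rw [U_one hl0 (show sz (x - q) ≤ 10 * l by omega), U_zero (by omega)]
      ring)
    (by nlinarith)
  have e3 : (fun x => g1 x + h x) = fun x => (g x + c * U (10 * l) l (x - q)) + (-c) := by
    funext x
    rw [hg1d, hh]
    ring
  rw [e3, cfg_const] at hbump
  unfold rsp
  rw [e1, e2]
  unfold eB
  have e4 : ∀ a b d : ℝ, (a - b) - (d - b) = a - d := by intros; ring
  rw [e4]
  exact hbump

/-- **oddness of the response** -/
theorem Sys.rsp_odd (H : Sys N l r Λ ε₁ ε₂ ε₃ D0 D1 ρ) {F0 F1 : ℤ → ℤ → ℝ} (h0 : F0 ∈ D0)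
    (h1 : F1 ∈ D1) {p q : V N} (hf : Far r p q) {g : V N → ℝ} {L C c : ℝ} (hL : 0 ≤ L)
    (hg : GB (L / r) g) (hc : |c| ≤ C) (hΛ : 100000 * (1 + CG + L + C) ≤ Λ) :
    |rsp ρ l F0 F1 p q g c + rsp ρ l F0 F1 p q g (-c)| ≤ 2 * eB N l ε₂ ε₃ + ε₃ := by
  have hC := CG_pos
  have hl4 := H.hl
  have hl0 : 0 < l := by omega
  have hlr := H.hlr
  have hl' : (0 : ℝ) < l := by exact_mod_cast hl0
  have hC0 : 0 ≤ C := (abs_nonneg c).trans hc
  have hc' : |-c| ≤ C := by rwa [abs_neg]
  have hg1 : GB (L / l) g := hg.rl hL hl0 (by omega)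
  set u : V N → ℝ := fun x => c * U (10 * l) l (x - q) with hu
  set u' : V N → ℝ := fun x => (-c) * U (13 * l) l (x - q) with hu'
  set v : V N → ℝ := fun x => (-c) * U (10 * l) l (x - q) with hv
  have huGB : GB (C / l) u := U_cGB (10 * l) hl0 q hc
  have huGB' : GB (C / l) u' := U_cGB (13 * l) hl0 q hc'
  have hvGB : GB (C / l) v := U_cGB (10 * l) hl0 q hc'
  set h : V N → ℝ := fun x => u x + u' x with hh
  have hGB : GB (2 * C / l) h := (huGB.add huGB').mono (le_of_eq (by ring))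
  have hb : ∀ x, |h x| ≤ 2 * C := by
    intro x
    have a1 := abs_U (10 * l) l (x - q)
    have a2 := abs_U (13 * l) l (x - q)
    have b1 : |u x| ≤ C := by
      rw [hu]
      simp only
      rw [abs_mul]
      calc _ ≤ C * 1 := mul_le_mul hc a1 (abs_nonneg _) hC0
        _ = C := mul_one C
    have b2 : |u' x| ≤ C := by
      rw [hu']
      simp only
      rw [abs_mul]
      calc _ ≤ C * 1 := mul_le_mul hc' a2 (abs_nonneg _) hC0
        _ = C := mul_one C
    rw [hh]
    refine (abs_add_le _ _).trans ?_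
    linarith
  have hz1 : ∀ x, sz (x - p) ≤ 9 * l → h x = 0 := by
    intro x hx
    have h3 := H.sep hf (x := x) (by omega)
    rw [hh, hu, hu']
    simp only
    rw [U_zero (by omega), U_zero (by omega)]
    ring
  have hz2 : ∀ x, sz (x - q) ≤ 9 * l → h x = 0 := by
    intro x hx
    rw [hh, hu, hu']
    simp only
    rw [U_one hl0 (by omega), U_one hl0 (by omega)]
    ring
  have b1 := H.bumps h0 h1 hf (g := g) (h := h) (s := L) (t := 2 * C) (B := 2 * C)
    hL (by positivity) (by positivity) hg1 hGB hb hz1 hz2 (by nlinarith)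
  -- locality
  set B : V N × Bool → ℝ := cfg F0 F1 p q g with hB
  have kB : KK l r Λ D0 D1 B := KK.core' h0 h1 hf hg1 (by nlinarith)
  have eP : (fun e => B e + gr u e) = cfg F0 F1 p q (fun x => g x + u x) := by
    funext e
    rw [hB, ← cfg_add]
  have kP : KK l r Λ D0 D1 (fun e => B e + gr u e) := by
    rw [eP]
    refine KK.core' h0 h1 hf (s := L + C) ?_ (by nlinarith)
    rw [add_div]
    exact hg1.add huGB
  have eW : (fun e => B e + gr u' e) = cfg F0 F1 p q (fun x => g x + u' x) := by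
    funext e
    rw [hB, ← cfg_add]
  have kW : KK l r Λ D0 D1 (fun e => B e + gr u' e) := by
    rw [eW]
    refine KK.core' h0 h1 hf (s := L + C) ?_ (by nlinarith)
    rw [add_div]
    exact hg1.add huGB'
  have ePW : (fun e => B e + gr u e + gr u' e) = cfg F0 F1 p q (fun x => g x + h x) := by
    funext e
    rw [cfg_add, hh, gr_add, hB]
    ring
  have kPW : KK l r Λ D0 D1 (fun e => B e + gr u e + gr u' e) := by
    rw [ePW]
    refine KK.core' h0 h1 hf (s := L + 2 * C) ?_ (by nlinarith)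
    rw [add_div]
    exact hg1.add hGB
  have hPs : ∀ e : V N × Bool, gr u e ≠ 0 → sz (e.1 - q) ≤ 11 * l := by
    rintro ⟨x, b⟩ hx
    by_contra h4
    refine hx ?_
    simp only at h4
    have h5 := (sz_step (x - q) b).1
    have h8 : 10 * l + l ≤ sz (x + eb b - q) := by rw [add_sub_right_comm]; omega
    rw [gr_eq]
    simp only [hu]
    rw [U_zero h8, U_zero (show 10 * l + l ≤ sz (x - q) by omega)]
    ring
  have hWs : ∀ e : V N × Bool, gr u' e ≠ 0 → 11 * l + l ≤ sz (e.1 - q) := by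
    rintro ⟨y, b'⟩ hy
    by_contra h4
    refine hy ?_
    simp only at h4
    have h5 := (sz_step (y - q) b').2
    have h8 : sz (y + eb b' - q) ≤ 13 * l := by rw [add_sub_right_comm]; omega
    rw [gr_eq]
    simp only [hu']
    rw [U_one hl0 h8, U_one hl0 (show sz (y - q) ≤ 13 * l by omega)]
    ring
  have hloc := H.loc q (11 * l) B (gr u) (gr u') (by omega) kB kP kW kPW hPs hWs
  rw [ePW, eW, eP] at hloc
  unfold rsp
  unfold eB
  -- the bump from `u'` to `v`
  have b4 := H.bumps h0 h1 hf (g := fun x => g x + v x) (h := fun x => h x) (s := L + C)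
    (t := 2 * C) (B := 2 * C) (by positivity) (by positivity) (by positivity)
    (by rw [add_div]; exact hg1.add hvGB) hGB hb hz1 hz2 (by nlinarith)
  have e6 : (fun x => (g x + v x) + h x) = fun x => g x + u' x := by
    funext x
    rw [hh, hu, hv]
    ring
  rw [e6] at b4
  rw [abs_le] at hloc b1 b4 ⊢
  constructor <;> linarith


lemma Rf_cfg {F0 F1 : ℤ → ℤ → ℝ} (h0 : SuppD l F0) (h1 : SuppD l F1)
    (h0' : SuppD l (rfl2 F0)) (h1' : SuppD l (rfl2 F1)) (hl : 2 * l + 4 < N) {p q : V N}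
    (h : 2 * sz (q - p) < N) (g : V N → ℝ) :
    (fun e => Rf (fun e => -cfg F0 F1 p q g e) e) =
      cfg (fun i j => -rfl2 F0 i j) (fun i j => -rfl2 F1 i j) (sF p) (sF q)
        (fun x => -g (sR x)) := by
  have hneg : ∀ (β : V N × Bool → ℝ) (e : V N × Bool), Rf (fun e => -β e) e = -Rf β e := by
    rintro β ⟨x, b⟩
    cases b
    · rfl
    · rfl
  have hadd : ∀ (β γ : V N × Bool → ℝ) (e : V N × Bool),
      Rf (fun e => β e + γ e) e = Rf β e + Rf γ e := by
    rintro β γ ⟨x, b⟩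
    cases b
    · rfl
    · simp only [Rf_true]
      ring
  funext e
  have d0 : Rf (gr (dec F0 p)) e = gr (dec (rfl2 F0) (sF p)) e := by
    rw [Rf_gr]
    have : (fun x => dec F0 p (sR x)) = dec (rfl2 F0) (sF p) := by
      funext x
      exact dec_sR h0 h0' hl p x
    rw [this]
  have d1 : Rf (gr (dec F1 q)) e = gr (dec (rfl2 F1) (sF q)) e := by
    rw [Rf_gr]
    have : (fun x => dec F1 q (sR x)) = dec (rfl2 F1) (sF q) := by
      funext x
      exact dec_sR h1 h1' hl q x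
    rw [this]
  have n0 : gr (dec (fun i j => -rfl2 F0 i j) (sF p)) e = -gr (dec (rfl2 F0) (sF p)) e :=
    gr_neg _ e
  have n1 : gr (dec (fun i j => -rfl2 F1 i j) (sF q)) e = -gr (dec (rfl2 F1) (sF q)) e :=
    gr_neg _ e
  have e0 : cfg F0 F1 p q g = fun e => (fun e => bD p q e + gr (dec F0 p) e) e +
      (fun e => gr (dec F1 q) e + gr g e) e := by
    funext e
    unfold cfg
    ring
  rw [hneg, e0, hadd, hadd (bD p q), hadd (gr (dec F1 q)), d0, d1, Rf_bD h, Rf_gr]
  unfold cfg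
  rw [n0, n1, gr_neg]
  ring

lemma GB.sR {s : ℝ} {g : V N → ℝ} (hg : GB s g) : GB s (fun x => g (H817.sR x)) := by
  rintro ⟨x, b⟩
  rw [← Rf_gr]
  cases b
  · rw [Rf_false]
    exact hg _
  · rw [Rf_true, abs_neg]
    exact hg _

/-- the reflected decorations -/
lemma Sys.rfl0 (H : Sys N l r Λ ε₁ ε₂ ε₃ D0 D1 ρ) {F : ℤ → ℤ → ℝ} (hF : F ∈ D0) :
    (fun i j => -rfl2 F i j) ∈ D0 := by
  have h1 := H.neg01 F hF
  have h2 := H.rfl1 _ h1
  have h3 : (fun i j => -rfl2 (fun i j => -F i j) i j) = fun i j => rfl2 F i j := by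
    funext i j
    unfold rfl2
    ring
  rw [h3] at h2
  exact H.neg10 _ h2

lemma supp_rfl2 {F : ℤ → ℤ → ℝ} (h : SuppD l (fun i j => -rfl2 F i j)) : SuppD l (rfl2 F) :=
  fun i j hij => h i j (neg_ne_zero.2 hij)

lemma Sys.rf (H : Sys N l r Λ ε₁ ε₂ ε₃ D0 D1 ρ) {F0 F1 : ℤ → ℤ → ℝ} (h0 : F0 ∈ D0)
    (h1 : F1 ∈ D1) {p q : V N} (hf : Far r p q) {g : V N → ℝ} (hg : GB (Λ / l) g) :
    ρ (cfg (fun i j => -rfl2 F0 i j) (fun i j => -rfl2 F1 i j) (sF p) (sF q)
        (fun x => -g (sR x))) = ρ (cfg F0 F1 p q g) := by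
  have hl := H.hl
  have hlr := H.hlr
  have hrN := H.hrN
  rw [← Rf_cfg (H.supp0 _ h0) (H.supp1 _ h1) (supp_rfl2 (H.supp0 _ (H.rfl0 h0)))
    (supp_rfl2 (H.supp1 _ (H.rfl1 _ h1))) (by omega) (H.far_lt hf)]
  have k1 : KK l r Λ D0 D1 (fun e => -cfg F0 F1 p q g e) := by
    rw [cfg_neg' (H.far_lt hf)]
    exact KK.core' (H.neg10 _ h1) (H.neg01 _ h0) hf.symm hg.neg le_rfl
  rw [← H.even _ (KK.core' h0 h1 hf hg le_rfl)]
  exact H.refl _ k1

lemma Far.sF {p q : V N} (h : Far r p q) : Far r (H817.sF p) (H817.sF q) := by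
  unfold Far at h ⊢
  rw [sF_sub, sz_sR]
  exact h

/-- **reflection of the response** -/
theorem Sys.rsp_refl (H : Sys N l r Λ ε₁ ε₂ ε₃ D0 D1 ρ) {F0 F1 : ℤ → ℤ → ℝ} (h0 : F0 ∈ D0)
    (h1 : F1 ∈ D1) {p q : V N} (hf : Far r p q) {g : V N → ℝ} {L C c : ℝ} (hL : 0 ≤ L)
    (hg : GB (L / r) g) (hc : |c| ≤ C) (hΛ : 100000 * (1 + CG + L + C) ≤ Λ) :
    |rsp ρ l F0 F1 p q g c -
      rsp ρ l (fun i j => -rfl2 F0 i j) (fun i j => -rfl2 F1 i j) (sF p) (sF q)
        (fun x => -g (sR x)) (-c)| ≤ eB N l ε₂ ε₃ := by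
  have hC := CG_pos
  have hl4 := H.hl
  have hl0 : 0 < l := by omega
  have hlr := H.hlr
  have hl' : (0 : ℝ) < l := by exact_mod_cast hl0
  have hC0 : 0 ≤ C := (abs_nonneg c).trans hc
  have hc' : |-c| ≤ C := by rwa [abs_neg]
  have hg1 : GB (L / l) g := hg.rl hL hl0 (by omega)
  have ha1 := H.rf h0 h1 hf (hg1.mono (div_le_div_of_nonneg_right (by nlinarith) hl'.le))
  have ha2 := H.rf h0 h1 hf (g := fun x => g x + c * U (10 * l) l (x - q))
    ((hg1.add (U_cGB (10 * l) hl0 q hc)).mono (by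
      rw [← add_div]
      exact div_le_div_of_nonneg_right (by nlinarith) hl'.le))
  unfold rsp
  rw [ha1, ← ha2]
  have e3 : ∀ x : V N, U (10 * l) l (sR x - q) = U (10 * l) l (x - sR q) := by
    intro x
    have : sR x - q = sR (x - sR q) := by rw [sR_sub, sR_sR]
    rw [this]
    unfold U
    rw [sz_sR]
  set g1 : V N → ℝ := fun x => -g (sR x) + (-c) * U (10 * l) l (x - sF q) with hg1d
  have hg1GB : GB ((L + C) / l) g1 := by
    rw [add_div]
    exact hg1.sR.neg.add (U_cGB (10 * l) hl0 (sF q) hc')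
  set h : V N → ℝ := fun x => (-c) * U (10 * l) l (x - sR q) - (-c) * U (10 * l) l (x - sF q)
    with hh
  have hGB : GB (2 * C / l) h := by
    refine ((U_cGB (10 * l) hl0 (sR q) hc').sub (U_cGB (10 * l) hl0 (sF q) hc')).mono (le_of_eq ?_)
    ring
  have hb : ∀ x, |h x| ≤ 2 * C := by
    intro x
    have a1 := abs_U (10 * l) l (x - sR q)
    have a2 := abs_U (10 * l) l (x - sF q)
    have b1 : |(-c) * U (10 * l) l (x - sR q)| ≤ C := by
      rw [abs_mul]
      calc _ ≤ C * 1 := mul_le_mul hc' a1 (abs_nonneg _) hC0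
        _ = C := mul_one C
    have b2 : |(-c) * U (10 * l) l (x - sF q)| ≤ C := by
      rw [abs_mul]
      calc _ ≤ C * 1 := mul_le_mul hc' a2 (abs_nonneg _) hC0
        _ = C := mul_one C
    rw [hh]
    refine (abs_sub _ _).trans ?_
    linarith
  have hse : ∀ x, sz (x - sR q) ≤ sz (x - sF q) + 1 ∧ sz (x - sF q) ≤ sz (x - sR q) + 1 := by
    intro x
    have := sz_step (x - sR q) true
    have e : x - sR q + eb true = x - sF q := by
      show x - sR q + e2 = x - sF q
      unfold sF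
      abel
    rw [e] at this
    exact ⟨this.1, this.2⟩
  have hbump := H.bumps (H.rfl0 h0) (H.rfl1 _ h1) hf.sF (g := g1) (h := h) (s := L + C)
    (t := 2 * C) (B := 2 * C) (by positivity) (by positivity) (by positivity) hg1GB hGB hb
    (fun x hx => by
      have h3 := H.sep hf.sF (x := x) (by omega)
      have h4 := hse x
      rw [hh]
      simp only
      rw [U_zero (by omega), U_zero (by omega)]
      ring)
    (fun x hx => by
      have h4 := hse x
      rw [hh]
      simp only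
      rw [U_one hl0 (by omega), U_one hl0 (by omega)]
      ring)
    (by nlinarith)
  have e4 : (fun x => g1 x + h x) =
      fun x => -(g (sR x) + c * U (10 * l) l (sR x - q)) := by
    funext x
    rw [e3, hg1d, hh]
    ring
  rw [e4] at hbump
  unfold eB
  have e5 : ∀ a b d : ℝ, (a - b) - (d - b) = a - d := by intros; ring
  rw [e5]
  exact hbump

/-- translation of the functional -/
lemma Sys.tr (H : Sys N l r Λ ε₁ ε₂ ε₃ D0 D1 ρ) {F0 F1 : ℤ → ℤ → ℝ} (h0 : F0 ∈ D0)
    (h1 : F1 ∈ D1) {p q : V N} (hf : Far r p q) {g : V N → ℝ} (hg : GB (Λ / l) g) (a : V N) :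
    ρ (cfg F0 F1 (p + a) (q + a) fun y => g (y - a)) = ρ (cfg F0 F1 p q g) := by
  have hf' : Far r (p + a) (q + a) := by
    unfold Far at hf ⊢
    rw [add_sub_add_right_eq_sub]
    exact hf
  have k1 : KK l r Λ D0 D1 (cfg F0 F1 (p + a) (q + a) fun y => g (y - a)) :=
    KK.core' h0 h1 hf' (hg.shift a) le_rfl
  rw [← H.trans _ a k1]
  congr 1
  funext e
  obtain ⟨x, b⟩ := e
  exact cfg_shift F0 F1 p q a g x b

lemma Sys.rsp_tr (H : Sys N l r Λ ε₁ ε₂ ε₃ D0 D1 ρ) {F0 F1 : ℤ → ℤ → ℝ} (h0 : F0 ∈ D0)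
    (h1 : F1 ∈ D1) {p q : V N} (hf : Far r p q) {g : V N → ℝ} {L C c : ℝ} (hL : 0 ≤ L)
    (hg : GB (L / r) g) (hc : |c| ≤ C) (hΛ : 100000 * (1 + CG + L + C) ≤ Λ) (a : V N) :
    rsp ρ l F0 F1 (p + a) (q + a) (fun y => g (y - a)) c = rsp ρ l F0 F1 p q g c := by
  have hC := CG_pos
  have hl4 := H.hl
  have hl0 : 0 < l := by omega
  have hlr := H.hlr
  have hl' : (0 : ℝ) < l := by exact_mod_cast hl0
  have hC0 : 0 ≤ C := (abs_nonneg c).trans hc
  have hg1 : GB (L / l) g := hg.rl hL hl0 (by omega)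
  have e1 := H.tr h0 h1 hf (hg1.mono (div_le_div_of_nonneg_right (by nlinarith) hl'.le)) a
  have e2 := H.tr h0 h1 hf (g := fun x => g x + c * U (10 * l) l (x - q))
    ((hg1.add (U_cGB (10 * l) hl0 q hc)).mono (by
      rw [← add_div]
      exact div_le_div_of_nonneg_right (by nlinarith) hl'.le)) a
  unfold rsp
  rw [e1, ← e2]
  congr 4
  funext y
  congr 3
  abel

/-- **the charge of a core vanishes** -/
theorem Sys.rsp_small (H : Sys N l r Λ ε₁ ε₂ ε₃ D0 D1 ρ) {F0 F1 : ℤ → ℤ → ℝ} (h0 : F0 ∈ D0)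
    (h1 : F1 ∈ D1) {p q : V N} (hf : Far r p q) {g : V N → ℝ} {L C c : ℝ} (hL : 0 ≤ L)
    (hg : GB (L / r) g) (hc : |c| ≤ C) (hΛ : 100000 * (1 + CG + L + C) ≤ Λ)
    (hr : 100000 * (1 + CG + L + C) * l ≤ r) :
    |rsp ρ l F0 F1 p q g c| ≤ 5 * eB N l ε₂ ε₃ + 8000 * (1 + CG + L) * (l / r) * ε₁ := by
  have hC := CG_pos
  have hC0 : 0 ≤ C := (abs_nonneg c).trans hc
  have hc' : |-c| ≤ C := by rwa [abs_neg]
  have hΛ0 : 0 ≤ Λ := by nlinarith
  have he3 := H.eB_ge hΛ0
  -- reflection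
  have s1 := H.rsp_refl h0 h1 hf hL hg hc hΛ
  set R0 : ℤ → ℤ → ℝ := fun i j => -rfl2 F0 i j with hR0
  set R1 : ℤ → ℤ → ℝ := fun i j => -rfl2 F1 i j with hR1
  have m0 : R0 ∈ D0 := H.rfl0 h0
  have m1 : R1 ∈ D1 := H.rfl1 _ h1
  -- translation
  set a : V N := q - sF q with ha
  set g1 : V N → ℝ := fun x => -g (sR x) with hg1
  have hg1GB : GB (L / r) g1 := hg.sR.neg
  have s2 := H.rsp_tr m0 m1 hf.sF hL hg1GB hc' hΛ a
  have ea : sF q + a = q := by rw [ha]; abel
  rw [ea] at s2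
  set p2 : V N := sF p + a with hp2
  set g2 : V N → ℝ := fun y => g1 (y - a) with hg2
  have hg2GB : GB (L / r) g2 := hg1GB.shift a
  have hf2 : Far r p2 q := by
    rw [← ea, hp2]
    have := hf.sF
    unfold Far at this ⊢
    rw [add_sub_add_right_eq_sub]
    exact this
  -- swap, change the decoration, swap back
  have s3 := H.rsp_swap m0 m1 hf2 hL hg2GB hc' hΛ
  have s4 := H.rsp_loc (H.neg10 _ m1) (H.neg10 _ h1) (H.neg01 _ m0) hf2.symm hf2.symm hL
    hg2GB.neg hg2GB.neg hc' hΛ hr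
  have s5 := H.rsp_swap m0 h1 hf2 hL hg2GB hc' hΛ
  -- back to the first configuration
  have s6 := H.rsp_loc m0 h0 h1 hf2 hf hL hg2GB hg hc' hΛ hr
  have s7 := H.rsp_odd h0 h1 hf hL hg hc hΛ
  rw [← s2] at s1
  rw [abs_le] at s1 s3 s4 s5 s6 s7 ⊢
  constructor <;> linarith

/-- **linear response**: smooth changes at the scale `r` cost little -/
theorem Sys.lr (H : Sys N l r Λ ε₁ ε₂ ε₃ D0 D1 ρ) {F0 F1 : ℤ → ℤ → ℝ} (h0 : F0 ∈ D0)
    (h1 : F1 ∈ D1) {p q : V N} (hf : Far r p q) {g0 g : V N → ℝ} {L B : ℝ} (hL : 0 ≤ L)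
    (hg0 : GB (L / r) g0) (hg : GB (L / r) g) (hb : ∀ x, |g x| ≤ B)
    (hΛ : 10000000 * (1 + CG + L + B) ≤ Λ) (hr : 10000000 * (1 + CG + L + B) * l ≤ r) :
    |ρ (cfg F0 F1 p q fun x => g0 x + g x) - ρ (cfg F0 F1 p q g0)| ≤
      6 * eB N l ε₂ ε₃ + 800000 * (1 + CG + L) * (l / r) * ε₁ := by
  have hC := CG_pos
  have hl4 := H.hl
  have hl0 : 0 < l := by omega
  have hlr := H.hlr
  have hl' : (0 : ℝ) < l := by exact_mod_cast hl0
  have hr0 : (0 : ℝ) < r := by exact_mod_cast (by omega : 0 < r)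
  have hB0 : 0 ≤ B := (abs_nonneg _).trans (hb 0)
  have hΛ0 : 0 ≤ Λ := by nlinarith
  have hε1 := H.eps1 hΛ0 h0 h1 hf
  set δ : ℝ := 40 * (1 + L) * (l / r) with hδ
  have hδ0 : 0 < δ := by positivity
  have hlr1 : (l : ℝ) / r ≤ 1 / (10000000 * (1 + CG + L + B)) := by
    rw [div_le_div_iff₀ hr0 (by positivity)]
    linarith
  have hδ1 : δ ≤ 1 := by
    calc δ ≤ 40 * (1 + L) * (1 / (10000000 * (1 + CG + L + B))) :=
          mul_le_mul_of_nonneg_left hlr1 (by positivity)
      _ ≤ 1 := by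
          rw [mul_one_div, div_le_one (by positivity)]
          nlinarith
  have hg0l : GB (L / l) g0 := hg0.rl hL hl0 (by omega)
  have hgl : GB (L / l) g := hg.rl hL hl0 (by omega)
  -- the local parts
  have hloc : ∀ w : V N, GB (36 * L / r) (fun x => U (15 * l) l (x - w) * (g x - g w)) ∧
      (∀ x, |U (15 * l) l (x - w) * (g x - g w)| ≤ δ) ∧
      (∀ x, |U (15 * l) l (x - w) * (g x - g w)| ≤ 2 * B) ∧
      ∀ x, 20 * l ≤ sz (x - w) → U (15 * l) l (x - w) * (g x - g w) = 0 := by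
    intro w
    have hosc : ∀ x, sz (x - w) ≤ 17 * l → |g x - g w| ≤ 34 * L * (l / r) := by
      intro x hx
      have h1 := hg.osc' (by positivity) x w
      refine h1.trans ?_
      have h2 : (sz (x - w) : ℝ) ≤ 17 * l := by exact_mod_cast hx
      calc 2 * (sz (x - w) : ℝ) * (L / r) ≤ 2 * (17 * l) * (L / r) :=
            mul_le_mul_of_nonneg_right (by linarith) (by positivity)
        _ = _ := by ring
    refine ⟨?_, ?_, ?_, ?_⟩
    · have h2 := GB.cut (w := w) (m := 17 * l) (k := 15 * l) (l := l) (s := L / r)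
        (B := 34 * L * (l / r)) (f := fun x => g x - g w) hl0 (by omega) (by positivity)
        (fun x b _ => by
          rw [gr_sub, gr_const, sub_zero]
          exact hg (x, b)) hosc
      refine h2.mono ?_
      have e : 34 * L * ((l : ℝ) / r) / l = 34 * (L / r) := by field_simp
      rw [e]
      have : 0 ≤ L / r := by positivity
      have e' : 36 * L / r = 36 * (L / r) := by ring
      rw [e']
      linarith
    · intro x
      rcases le_or_gt (sz (x - w)) (17 * l) with h | h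
      · rw [abs_mul]
        have h3 := hosc x h
        calc _ ≤ 1 * |g x - g w| := mul_le_mul_of_nonneg_right (abs_U _ _ _) (abs_nonneg _)
          _ ≤ 34 * L * (l / r) := by rw [one_mul]; exact h3
          _ ≤ δ := by
              rw [hδ]
              exact mul_le_mul_of_nonneg_right (by linarith) (by positivity)
      · rw [U_zero (by omega), zero_mul, abs_zero]
        exact hδ0.le
    · intro x
      rw [abs_mul]
      have h3 : |g x - g w| ≤ 2 * B := by
        refine (abs_sub _ _).trans ?_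
        have := hb x
        have := hb w
        linarith
      calc _ ≤ 1 * |g x - g w| := mul_le_mul_of_nonneg_right (abs_U _ _ _) (abs_nonneg _)
        _ ≤ _ := by rw [one_mul]; exact h3
    · intro x hx
      rw [U_zero (by omega), zero_mul]
  obtain ⟨p1, p2, p3, p4⟩ := hloc p
  obtain ⟨q1, q2, q3, q4⟩ := hloc q
  set kp : V N → ℝ := fun x => U (15 * l) l (x - p) * (g x - g p) with hkp
  set kq : V N → ℝ := fun x => U (15 * l) l (x - q) * (g x - g q) with hkq
  have hδt : 36 * L / r ≤ δ * 1 / l := by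
    rw [hδ]
    have e : 40 * (1 + L) * ((l : ℝ) / r) * 1 / l = 40 * (1 + L) / r := by field_simp
    rw [e]
    exact div_le_div_of_nonneg_right (by linarith) hr0.le
  have h36 : 36 * L / (r : ℝ) ≤ 36 * L / l :=
    div_le_div_of_nonneg_left (by positivity) hl' (by exact_mod_cast (by omega : l ≤ r))
  -- step 1
  have t1 := H.tiny h0 h1 hf (g := g0) (h := kp) (s := L) (t := 1) (δ := δ) hL (by norm_num) hδ0
    hδ1 hg0l (p1.mono hδt) p2 (Or.inl p4) (by nlinarith)
  -- step 2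
  set g1 : V N → ℝ := fun x => g0 x + kp x with hg1
  have hg1GB : GB (37 * L / r) g1 := (hg0.add p1).mono (le_of_eq (by ring))
  have hg1l : GB (37 * L / l) g1 := hg1GB.rl (by positivity) hl0 (by omega)
  have t2 := H.tiny h0 h1 hf (g := g1) (h := kq) (s := 37 * L) (t := 1) (δ := δ) (by positivity)
    (by norm_num) hδ0 hδ1 hg1l (q1.mono hδt) q2 (Or.inr q4) (by nlinarith)
  -- step 3
  set g2 : V N → ℝ := fun x => g1 x + kq x with hg2
  have hg2GB : GB (73 * L / r) g2 := (hg1GB.add q1).mono (le_of_eq (by ring))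
  have hg2l : GB (73 * L / l) g2 := hg2GB.rl (by positivity) hl0 (by omega)
  set c : ℝ := g q - g p with hc
  have hcb : |c| ≤ 2 * B := by
    refine (abs_sub _ _).trans ?_
    have := hb p
    have := hb q
    linarith
  have t3 := H.rsp_small h0 h1 hf (L := 73 * L) (C := 2 * B) (by positivity) hg2GB hcb
    (by nlinarith) (by
      refine le_trans (mul_le_mul_of_nonneg_right ?_ hl'.le) hr
      nlinarith)
  unfold rsp at t3
  set u : V N → ℝ := fun x => c * U (10 * l) l (x - q) with hu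
  have huGB : GB (2 * B / l) u := U_cGB (10 * l) hl0 q hcb
  -- step 4
  set h : V N → ℝ := fun x => (((g x - kp x) - kq x) - u x) + (-g p) with hh
  have hGB : GB ((73 * L + 2 * B) / l) h := by
    have h2 := (((hgl.sub (p1.mono h36)).sub (q1.mono h36)).sub huGB).add
      (GB.const (N := N) (s := 0) le_rfl (-g p))
    refine h2.mono (le_of_eq ?_)
    ring
  have hhb : ∀ x, |h x| ≤ 8 * B := by
    intro x
    have a1 := hb x
    have a2 := p3 x
    have a3 := q3 x
    have a4 := hb p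
    have a5 : |u x| ≤ 2 * B := by
      rw [hu]
      simp only
      rw [abs_mul]
      calc _ ≤ 2 * B * 1 := mul_le_mul hcb (abs_U _ _ _) (abs_nonneg _) (by positivity)
        _ = _ := mul_one _
    have b2 : |kp x| ≤ 2 * B := a2
    have b3 : |kq x| ≤ 2 * B := a3
    simp only [hh]
    rw [abs_le] at a1 b2 b3 a4 a5 ⊢
    constructor <;> linarith
  have t4 := H.bumps h0 h1 hf (g := fun x => g2 x + u x) (h := h) (s := 73 * L + 2 * B)
    (t := 73 * L + 2 * B) (B := 8 * B) (by positivity) (by positivity) (by positivity)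
    (by rw [add_div]; exact hg2l.add huGB) hGB hhb
    (fun x hx => by
      have h3 := H.sep hf (x := x) (by omega)
      simp only [hh, hkp, hkq, hu]
      rw [U_one hl0 (show sz (x - p) ≤ 15 * l by omega), U_zero (by omega), U_zero (by omega)]
      ring)
    (fun x hx => by
      have h3 := H.sep hf.symm (x := x) (by omega)
      simp only [hh, hkp, hkq, hu]
      rw [U_one hl0 (show sz (x - q) ≤ 15 * l by omega),
        U_one hl0 (show sz (x - q) ≤ 10 * l by omega),
        U_zero (show 15 * l + l ≤ sz (x - p) by omega), hc]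
      ring)
    (by nlinarith)
  have e4 : (fun x => (g2 x + u x) + h x) = fun x => (g0 x + g x) + (-g p) := by
    funext x
    simp only [hh, hg2, hg1]
    ring
  rw [e4, cfg_const] at t4
  have e5 : 8 * ((N : ℝ) / l) ^ 2 * (3 * ε₂ + ε₃) = eB N l ε₂ ε₃ := rfl
  rw [e5] at t4
  have e6 : 2 * (δ * (2 * ε₁)) + 8000 * (1 + CG + 73 * L) * (l / r) * ε₁ ≤
      800000 * (1 + CG + L) * (l / r) * ε₁ := by
    have : 2 * (δ * (2 * ε₁)) + 8000 * (1 + CG + 73 * L) * (l / r) * ε₁ =
        (160 * (1 + L) + 8000 * (1 + CG + 73 * L)) * ((l / r) * ε₁) := by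
      rw [hδ]
      ring
    rw [this, mul_assoc (800000 * (1 + CG + L))]
    refine mul_le_mul_of_nonneg_right ?_ (by positivity)
    nlinarith
  rw [abs_le] at t1 t2 t3 t4 ⊢
  constructor <;> linarith

end

end

end Vale.Agent.P159.H817
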