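import Vale.Agent.P159.H817.St5

/-!
P159 / module STATG (helper817), part 6: moving the cores; `ρ` is almost constant on decorated pairs.
-/

set_option linter.unusedSectionVars false

namespace Vale.Agent.P159.H817

open Finset
open Vale.Agent.P159.TM.Spec (V)

noncomputable section

section

variable {N : ℕ} [NeZero N] {l r : ℕ} {Λ ε₁ ε₂ ε₃ : ℝ} {D0 D1 : Dec} {ρ : (V N × Bool → ℝ) → ℝ}

lemma sz_le_l1 (x : V N) : sz x ≤ l1 x := by
  unfold sz l1
  omega

/-- the functional on a decorated pair -/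
def sg (ρ : (V N × Bool → ℝ) → ℝ) (F0 F1 : ℤ → ℤ → ℝ) (p q : V N) : ℝ :=
  ρ (cfg F0 F1 p q fun _ => 0)

/-- the error of moves -/
def eM (N l r : ℕ) (ε₁ ε₂ ε₃ : ℝ) : ℝ :=
  19 * eB N l ε₂ ε₃ + 1000000000 * (1 + CG) * (l / r) * ε₁

/-- **the mixed difference** -/
theorem Sys.mixed (H : Sys N l r Λ ε₁ ε₂ ε₃ D0 D1 ρ) {s : ℕ} (hs : r = 64 * s)
    {F0 F0' F1 F1' : ℤ → ℤ → ℝ} (h0 : F0 ∈ D0) (h0' : F0' ∈ D0) (h1 : F1 ∈ D1) (h1' : F1' ∈ D1)
    {p p' q q' : V N} (hu : l1 (p' - p) ≤ s) (hv : l1 (q' - q) ≤ s) (f1 : Far r p q)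
    (f2 : Far r p' q) (f3 : Far r p q') (f4 : Far r p' q')
    (hΛ : 10000000000 * (1 + CG) ≤ Λ) (hr : 10000000000 * (1 + CG) * l ≤ r) :
    |sg ρ F0' F1' p' q' - sg ρ F0' F1 p' q - sg ρ F0 F1' p q' + sg ρ F0 F1 p q| ≤
      eM N l r ε₁ ε₂ ε₃ := by
  have hC := CG_pos
  have hl4 := H.hl
  have hl0 : 0 < l := by omega
  have hlr := H.hlr
  have hrN := H.hrN
  have hl' : (0 : ℝ) < l := by exact_mod_cast hl0
  have hs0 : 0 < s := by omega
  have hs' : (0 : ℝ) < s := by exact_mod_cast hs0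
  have hrs : (r : ℝ) = 64 * s := by exact_mod_cast hs
  have hr0 : (0 : ℝ) < r := by rw [hrs]; positivity
  have hΛ0 : 0 ≤ Λ := by nlinarith
  have hε1 := H.eps1 hΛ0 h0 h1 f1
  have he3 := H.eB_ge hΛ0
  have su : sz (p' - p) ≤ s := (sz_le_l1 _).trans hu
  have sv : sz (q' - q) ≤ s := (sz_le_l1 _).trans hv
  obtain ⟨gu, gu0, guGB, gub, gue⟩ := cut p p' (R := 4 * s) (by omega) (by omega)
  obtain ⟨gv, gv0, gvGB, gvb, gve⟩ := cut q q' (R := 4 * s) (by omega) (by omega)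
  set L : ℝ := 32 * (1 + 10 * CG) with hL
  have hL0 : 0 ≤ L := by positivity
  have eL : (1 + 10 * CG) / ((4 * s : ℕ) : ℝ) = L / r / 2 := by
    rw [hL, hrs]
    push_cast
    field_simp
    ring
  rw [eL] at guGB gvGB
  have hhalf : L / r / 2 ≤ L / r := by
    have : 0 ≤ L / r := by positivity
    linarith
  have ru : GB (L / r) gu := guGB.mono hhalf
  have rv : GB (L / r) (fun x => -gv x) := (gvGB.mono hhalf).neg
  have ruv : GB (L / r) (fun x => gu x - gv x) := (guGB.sub gvGB).mono (le_of_eq (by ring))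
  have hlL : ∀ {g : V N → ℝ}, GB (L / r) g → GB (L / l) g := fun hg => hg.rl hL0 hl0 (by omega)
  have hLΛ : L ≤ Λ := by rw [hL]; nlinarith
  -- linear response
  have lr : ∀ {F0 F1 : ℤ → ℤ → ℝ}, F0 ∈ D0 → F1 ∈ D1 → ∀ {p q : V N}, Far r p q →
      ∀ {g : V N → ℝ}, GB (L / r) g → (∀ x, |g x| ≤ 4 * CG) →
      |ρ (cfg F0 F1 p q g) - sg ρ F0 F1 p q| ≤
        6 * eB N l ε₂ ε₃ + 800000 * (1 + CG + L) * (l / r) * ε₁ := by
    intro F0 F1 h0 h1 p q hf g hg hb
    have h := H.lr h0 h1 hf (g0 := fun _ => 0) (g := g) (L := L) (B := 4 * CG) hL0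
      (GB.zero (by positivity)) hg hb (by rw [hL]; nlinarith)
      (by
        refine le_trans (mul_le_mul_of_nonneg_right ?_ hl'.le) hr
        rw [hL]
        nlinarith)
    have e : (fun x : V N => (0 : ℝ) + g x) = g := by
      funext x
      ring
    rw [e] at h
    exact h
  -- the four fields
  set B : V N × Bool → ℝ := cfg F0 F1 p q (fun _ => 0) with hB
  set P : V N × Bool → ℝ := fun e => cfg F0' F1 p' q gu e - B e with hP
  set W : V N × Bool → ℝ := fun e => cfg F0 F1' p q' (fun x => -gv x) e - B e with hW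
  have kB : KK l r Λ D0 D1 B := KK.core' h0 h1 f1 (s := L) (GB.zero (by positivity)) hLΛ
  have eP : (fun e => B e + P e) = cfg F0' F1 p' q gu := by
    funext e
    rw [hP]
    ring
  have kP : KK l r Λ D0 D1 (fun e => B e + P e) := by
    rw [eP]
    exact KK.core' h0' h1 f2 (hlL ru) hLΛ
  have eW : (fun e => B e + W e) = cfg F0 F1' p q' (fun x => -gv x) := by
    funext e
    rw [hW]
    ring
  have kW : KK l r Λ D0 D1 (fun e => B e + W e) := by
    rw [eW]
    exact KK.core' h0 h1' f3 (hlL rv) hLΛ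
  have hq2 : ∀ e, bD p q e = bD p p' e + bD p' q e := by
    intro e
    refine bD_add ?_ e
    have := f2.2
    omega
  have hq3 : ∀ e, bD p q' e = bD p q e + bD q q' e := by
    intro e
    refine bD_add ?_ e
    have := f1.2
    omega
  have hq4 : ∀ e, bD p' q' e = bD p' q e + bD q q' e := by
    intro e
    refine bD_add ?_ e
    have := f2.2
    omega
  have ePW : (fun e => B e + P e + W e) = cfg F0' F1' p' q' (fun x => gu x - gv x) := by
    funext e
    have n1 : gr (fun x => -gv x) e = -gr gv e := gr_neg gv e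
    have n2 : gr (fun x => gu x - gv x) e = gr gu e - gr gv e := gr_sub gu gv e
    have n3 : gr (fun _ : V N => (0 : ℝ)) e = 0 := gr_const 0 e
    simp only [hP, hW, hB, cfg]
    rw [n1, n2, n3, hq4, hq3]
    ring
  have kPW : KK l r Λ D0 D1 (fun e => B e + P e + W e) := by
    rw [ePW]
    exact KK.core' h0' h1' f4 (hlL ruv) hLΛ
  have hP0 : ∀ e, P e ≠ 0 → sz (e.1 - p) ≤ 8 * s := by
    rintro ⟨x, b⟩ hx
    by_contra h4
    simp only at h4
    refine hx ?_
    have h5 := sz_add_le (x - p') (p' - p)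
    rw [sub_add_sub_cancel] at h5
    rw [hP, hB]
    unfold cfg
    simp only
    rw [gr_dec_zero (H.supp0 F0 h0) b (by omega), gr_dec_zero (H.supp0 F0' h0') b (by omega),
      gue x b (by omega), gr_const, hq2]
    ring
  have hW0 : ∀ e, W e ≠ 0 → sz (e.1 - q) ≤ 8 * s := by
    rintro ⟨x, b⟩ hx
    by_contra h4
    simp only at h4
    refine hx ?_
    have h5 := sz_add_le (x - q') (q' - q)
    rw [sub_add_sub_cancel] at h5
    rw [hW, hB]
    unfold cfg
    simp only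
    rw [gr_dec_zero (H.supp1 F1 h1) b (by omega), gr_dec_zero (H.supp1 F1' h1') b (by omega),
      gr_neg, gve x b (by omega), gr_const, hq3]
    ring
  have hWs : ∀ e : V N × Bool, W e ≠ 0 → 8 * s + l ≤ sz (e.1 - p) := by
    intro e' he'
    have a2 := hW0 e' he'
    have a3 := f1.1
    have a4 := sz_add_le (q - e'.1) (e'.1 - p)
    rw [sub_add_sub_cancel] at a4
    rw [sz_sub_comm q e'.1] at a4
    omega
  have hloc := H.loc p (8 * s) B P W (by omega) kB kP kW kPW hP0 hWs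
  rw [ePW, eW, eP] at hloc
  have t1 := lr h0' h1 f2 ru (fun x => (gub x).trans (by linarith))
  have t2 := lr h0 h1' f3 rv (fun x => by rw [abs_neg]; exact (gvb x).trans (by linarith))
  have t3 := lr h0' h1' f4 ruv (fun x => by
    refine (abs_sub _ _).trans ?_
    have := gub x
    have := gvb x
    linarith)
  have e6 : 3 * (800000 * (1 + CG + L) * (l / r) * ε₁) ≤
      1000000000 * (1 + CG) * (l / r) * ε₁ := by
    have : 3 * (800000 * (1 + CG + L) * ((l : ℝ) / r) * ε₁) =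
        (2400000 * (1 + CG + L)) * ((l / r) * ε₁) := by ring
    rw [this, mul_assoc (1000000000 * (1 + CG))]
    refine mul_le_mul_of_nonneg_right ?_ (by positivity)
    rw [hL]
    nlinarith
  have e7 : ρ B = sg ρ F0 F1 p q := rfl
  rw [e7] at hloc
  unfold eM
  rw [abs_le] at hloc t1 t2 t3 ⊢
  constructor <;> linarith


/-! ### the lattice of moves -/

/-- the point `(a, b)` -/
def XX (N : ℕ) [NeZero N] (a b : ℤ) : V N := ((a : ZMod N), (b : ZMod N))

lemma XX_sub (a b c d : ℤ) : XX N a b - XX N c d = XX N (a - c) (b - d) := by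
  unfold XX
  ext
  · simp only [Prod.fst_sub]
    push_cast
    ring
  · simp only [Prod.snd_sub]
    push_cast
    ring

lemma vma_XX {a : ℤ} (ha : 2 * a.natAbs < N) : ((a : ZMod N)).valMinAbs = a := by
  refine (ZMod.valMinAbs_spec _ _).2 ⟨rfl, ?_⟩
  rw [Set.mem_Ioc]
  omega

lemma sz_XX {a b : ℤ} (ha : 2 * a.natAbs < N) (hb : 2 * b.natAbs < N) :
    sz (XX N a b) = max a.natAbs b.natAbs := by
  unfold sz XX
  rw [vma_XX ha, vma_XX hb]

lemma l1_XX {a b : ℤ} (ha : 2 * a.natAbs < N) (hb : 2 * b.natAbs < N) :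
    l1 (XX N a b) = a.natAbs + b.natAbs := by
  unfold l1 XX
  rw [vma_XX ha, vma_XX hb]

lemma XX_zero : XX N 0 0 = 0 := by
  unfold XX
  simp

lemma XX_ne1 (n : ℕ) : XX N n 0 = n • (e1 : V N) := by
  rw [nsmul_e1]
  unfold XX
  simp

lemma chain {f : ℕ → ℝ} {e : ℝ} {n : ℕ} (h : ∀ j, j < n → |f (j + 1) - f j| ≤ e) :
    |f n - f 0| ≤ n * e := by
  induction n with
  | zero => simp
  | succ n ih =>
    have h1 := ih fun j hj => h j (by omega)
    have h2 := h n (by omega)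
    push_cast
    rw [abs_le] at h1 h2 ⊢
    constructor <;> linarith

/-- good indices -/
def gd (s : ℕ) (a b : ℤ) : Prop := 32 * s ≤ max a.natAbs b.natAbs ∧ max a.natAbs b.natAbs ≤ 250 * s

/-- the functional in the lattice of moves -/
def SS (ρ : (V N × Bool → ℝ) → ℝ) (F0 F1 : ℤ → ℤ → ℝ) (a b : ℤ) : ℝ :=
  sg ρ F0 F1 0 (XX N a b)

lemma Sys.far_XX (H : Sys N l r Λ ε₁ ε₂ ε₃ D0 D1 ρ) {s : ℕ} (hs : r = 64 * s) {a b c d : ℤ}
    (h : gd s (a - c) (b - d)) : Far r (XX N c d) (XX N a b) := by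
  have hl := H.hl
  have hlr := H.hlr
  have hrN := H.hrN
  unfold Far
  unfold gd at h
  rw [XX_sub, sz_XX (by omega) (by omega)]
  omega

/-- translation -/
lemma Sys.SS_tr (H : Sys N l r Λ ε₁ ε₂ ε₃ D0 D1 ρ) (hΛ0 : 0 ≤ Λ) {s : ℕ} (hs : r = 64 * s)
    {F0 F1 : ℤ → ℤ → ℝ} (h0 : F0 ∈ D0) (h1 : F1 ∈ D1) {a b c d : ℤ} (h : gd s (a - c) (b - d)) :
    sg ρ F0 F1 (XX N c d) (XX N a b) = SS ρ F0 F1 (a - c) (b - d) := by
  have hf := H.far_XX hs h
  have h2 := H.tr h0 h1 hf (g := fun _ => 0) (GB.zero (by positivity)) (-XX N c d)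
  unfold SS sg
  rw [← h2, add_neg_cancel, ← sub_eq_add_neg, XX_sub]

/-- evenness -/
lemma Sys.SS_ev (H : Sys N l r Λ ε₁ ε₂ ε₃ D0 D1 ρ) (hΛ0 : 0 ≤ Λ) {s : ℕ} (hs : r = 64 * s)
    {F : ℤ → ℤ → ℝ} (h0 : F ∈ D0) {a b : ℤ} (h : gd s a b) :
    SS ρ F (fun i j => -F i j) (-a) (-b) = SS ρ F (fun i j => -F i j) a b := by
  have h1 := H.neg01 F h0
  have hf : Far r (XX N 0 0) (XX N a b) := H.far_XX hs (by simpa using h)
  have h2 := H.ev h0 h1 hf (g := fun _ => 0) (GB.zero (by positivity))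
  have h4 : gd s (0 - a) (0 - b) := by
    unfold gd at h ⊢
    omega
  have h3 := H.SS_tr hΛ0 hs h0 h1 h4
  rw [zero_sub, zero_sub] at h3
  rw [← h3]
  unfold SS sg
  rw [← XX_zero (N := N), ← h2]
  simp only [neg_neg, neg_zero]

/-- the mixed difference in the lattice of moves -/
lemma Sys.SS_mixed (H : Sys N l r Λ ε₁ ε₂ ε₃ D0 D1 ρ) {s : ℕ} (hs : r = 64 * s)
    {F0 F0' F1 F1' : ℤ → ℤ → ℝ} (h0 : F0 ∈ D0) (h0' : F0' ∈ D0) (h1 : F1 ∈ D1) (h1' : F1' ∈ D1)
    {a b c d c' d' : ℤ} (hu : c.natAbs + d.natAbs ≤ s) (hv : c'.natAbs + d'.natAbs ≤ s)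
    (g1 : gd s a b) (g2 : gd s (a + c) (b + d)) (g3 : gd s (a + c') (b + d'))
    (g4 : gd s (a + c + c') (b + d + d'))
    (hΛ : 10000000000 * (1 + CG) ≤ Λ) (hr : 10000000000 * (1 + CG) * l ≤ r) :
    |SS ρ F0' F1' (a + c + c') (b + d + d') - SS ρ F0' F1 (a + c) (b + d) -
        SS ρ F0 F1' (a + c') (b + d') + SS ρ F0 F1 a b| ≤ eM N l r ε₁ ε₂ ε₃ := by
  have hC := CG_pos
  have hl := H.hl
  have hlr := H.hlr
  have hrN := H.hrN
  have hΛ0 : 0 ≤ Λ := by nlinarith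
  have x1 : gd s (a - 0) (b - 0) := by simpa using g1
  have x2 : gd s (a - -c) (b - -d) := by simpa using g2
  have x3 : gd s (a + c' - 0) (b + d' - 0) := by simpa using g3
  have x4 : gd s (a + c' - -c) (b + d' - -d) := by
    have e1 : a + c' - -c = a + c + c' := by ring
    have e2 : b + d' - -d = b + d + d' := by ring
    rw [e1, e2]
    exact g4
  have t1 := H.SS_tr hΛ0 hs h0 h1 x1
  have t2 := H.SS_tr hΛ0 hs h0' h1 x2
  have t3 := H.SS_tr hΛ0 hs h0 h1' x3
  have t4 := H.SS_tr hΛ0 hs h0' h1' x4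
  have h := H.mixed hs h0 h0' h1 h1' (p := XX N 0 0) (p' := XX N (-c) (-d))
    (q := XX N a b) (q' := XX N (a + c') (b + d'))
    (by
      rw [XX_sub, l1_XX (by omega) (by omega)]
      omega)
    (by
      rw [XX_sub, l1_XX (by omega) (by omega)]
      omega)
    (H.far_XX hs x1) (H.far_XX hs x2) (H.far_XX hs x3) (H.far_XX hs x4) hΛ hr
  rw [t1, t2, t3, t4] at h
  have e1 : a + c' - -c = a + c + c' := by ring
  have e2 : b + d' - -d = b + d + d' := by ring
  rw [e1, e2, sub_zero, sub_zero, sub_zero, sub_zero, sub_neg_eq_add, sub_neg_eq_add] at h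
  exact h

/-- one step to the right costs little -/
theorem Sys.SS_step (H : Sys N l r Λ ε₁ ε₂ ε₃ D0 D1 ρ) {s : ℕ} (hs : r = 64 * s)
    {F0 F1 : ℤ → ℤ → ℝ} (h0 : F0 ∈ D0) (h1 : F1 ∈ D1) {i t : ℕ} (hi : 64 * s ≤ i)
    (hi' : i ≤ 128 * s) (ht : t ≤ s)
    (hΛ : 10000000000 * (1 + CG) ≤ Λ) (hr : 10000000000 * (1 + CG) * l ≤ r) :
    |SS ρ F0 F1 (i + t) 0 - SS ρ F0 F1 i 0| ≤ 195 * eM N l r ε₁ ε₂ ε₃ := by
  have hC := CG_pos
  have hΛ0 : 0 ≤ Λ := by nlinarith
  have hl4 := H.hl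
  have hlr := H.hlr
  have hs1 : 1 ≤ s := by omega
  set E := eM N l r ε₁ ε₂ ε₃ with hE
  set G1 : ℤ → ℤ → ℝ := fun i j => -F0 i j with hG1
  have m1 : G1 ∈ D1 := H.neg01 F0 h0
  -- independence of the decoration
  have k1 : |(SS ρ F0 F1 (i + t) 0 - SS ρ F0 F1 i 0) -
      (SS ρ F0 G1 (i + t) 0 - SS ρ F0 G1 i 0)| ≤ E := by
    have h := H.SS_mixed hs h0 h0 m1 h1 (a := i) (b := 0) (c := t) (d := 0) (c' := 0) (d' := 0)
      (by omega) (by omega) (by unfold gd; omega) (by unfold gd; omega) (by unfold gd; omega)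
      (by unfold gd; omega) hΛ hr
    simp only [add_zero] at h
    have e : (SS ρ F0 F1 (i + t) 0 - SS ρ F0 F1 i 0) -
      (SS ρ F0 G1 (i + t) 0 - SS ρ F0 G1 i 0) = SS ρ F0 F1 (i + t) 0 -
        SS ρ F0 G1 (i + t) 0 - SS ρ F0 F1 i 0 + SS ρ F0 G1 i 0 := by ring
    rw [e]
    exact h
  -- the path
  set D : ℤ → ℤ → ℝ := fun a b => SS ρ F0 G1 (a + t) b - SS ρ F0 G1 a b with hD
  have dh : ∀ a b c : ℤ, c.natAbs ≤ s → gd s a b → gd s (a + c) b → gd s (a + t) b →
      gd s (a + c + t) b → |D (a + c) b - D a b| ≤ E := by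
    intro a b c hc g1 g2 g3 g4
    have h := H.SS_mixed hs h0 h0 m1 m1 (a := a) (b := b) (c := c) (d := 0) (c' := t) (d' := 0)
      (by simpa using hc) (by simpa using ht) g1 (by simpa using g2) (by simpa using g3)
      (by simpa using g4) hΛ hr
    simp only [add_zero] at h
    have e : D (a + c) b - D a b = SS ρ F0 G1 (a + c + t) b - SS ρ F0 G1 (a + c) b -
        SS ρ F0 G1 (a + t) b + SS ρ F0 G1 a b := by
      simp only [hD]
      ring
    rw [e]
    exact h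
  have dv : ∀ a b : ℤ, gd s a b → gd s (a + t) b → gd s a (b + s) → gd s (a + t) (b + s) →
      |D a (b + s) - D a b| ≤ E := by
    intro a b g1 g2 g3 g4
    have h := H.SS_mixed hs h0 h0 m1 m1 (a := a) (b := b) (c := t) (d := 0) (c' := 0) (d' := s)
      (by simpa using ht) (by simp) g1 (by simpa using g2) (by simpa using g3)
      (by simpa using g4) hΛ hr
    simp only [add_zero] at h
    have e : D a (b + s) - D a b = SS ρ F0 G1 (a + t) (b + s) - SS ρ F0 G1 (a + t) b -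
        SS ρ F0 G1 a (b + s) + SS ρ F0 G1 a b := by
      simp only [hD]
      ring
    rw [e]
    exact h
  -- up
  have c1 := chain (f := fun j : ℕ => D i ((j * s : ℕ) : ℤ)) (e := E) (n := 65) (fun j hj => by
    have hjs : j * s ≤ 64 * s := Nat.mul_le_mul_right s (by omega)
    have := dv i ((j * s : ℕ) : ℤ) (by unfold gd; omega) (by unfold gd; omega)
      (by unfold gd; omega) (by unfold gd; omega)
    have e : (((j + 1) * s : ℕ) : ℤ) = ((j * s : ℕ) : ℤ) + s := by push_cast; ring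
    rw [e]
    exact this)
  -- left
  have c2 := chain (f := fun j : ℕ => D (max (-(i : ℤ) - t) (i - ((j * s : ℕ) : ℤ))) (65 * s))
    (e := E) (n := 258) (fun j hj => by
      have hjs : j * s ≤ 257 * s := Nat.mul_le_mul_right s (by omega)
      have e : (((j + 1) * s : ℕ) : ℤ) = ((j * s : ℕ) : ℤ) + s := by push_cast; ring
      have h := dh (max (-(i : ℤ) - t) (i - ((j * s : ℕ) : ℤ))) (65 * s)
        (max (-(i : ℤ) - t) (i - (((j + 1) * s : ℕ) : ℤ)) -
          max (-(i : ℤ) - t) (i - ((j * s : ℕ) : ℤ)))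
        (by rw [e]; omega) (by unfold gd; omega) (by unfold gd; rw [e]; omega)
        (by unfold gd; omega) (by unfold gd; rw [e]; omega)
      rw [add_sub_cancel] at h
      exact h)
  -- down
  have c3 := chain (f := fun j : ℕ => D (-(i : ℤ) - t) ((j * s : ℕ) : ℤ)) (e := E) (n := 65)
    (fun j hj => by
      have hjs : j * s ≤ 64 * s := Nat.mul_le_mul_right s (by omega)
      have := dv (-(i : ℤ) - t) ((j * s : ℕ) : ℤ) (by unfold gd; omega) (by unfold gd; omega)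
        (by unfold gd; omega) (by unfold gd; omega)
      have e : (((j + 1) * s : ℕ) : ℤ) = ((j * s : ℕ) : ℤ) + s := by push_cast; ring
      rw [e]
      exact this)
  have e1 : max (-(i : ℤ) - t) (i - ((258 * s : ℕ) : ℤ)) = -(i : ℤ) - t := by
    rw [max_eq_left]
    push_cast
    omega
  have e1' : max (-(i : ℤ) - t) (i - ((0 * s : ℕ) : ℤ)) = i := by
    rw [max_eq_right]
    · simp
    · omega
  rw [e1, e1'] at c2
  have e65 : ((65 * s : ℕ) : ℤ) = 65 * s := by push_cast; ring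
  have e00 : ((0 * s : ℕ) : ℤ) = 0 := by simp
  rw [e65, e00] at c1 c3
  -- evenness
  have e2 : D (-(i : ℤ) - t) 0 = -D i 0 := by
    simp only [hD]
    have v1 := H.SS_ev hΛ0 hs h0 (a := i) (b := 0) (by unfold gd; omega)
    have v2 := H.SS_ev hΛ0 hs h0 (a := (i : ℤ) + t) (b := 0) (by unfold gd; omega)
    rw [neg_zero] at v1 v2
    have w1 : -(i : ℤ) - t + t = -i := by ring
    have w2 : -(i : ℤ) - t = -(i + t) := by ring
    rw [w1, w2, v1, v2]
    ring
  rw [e2] at c3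
  have hE0 : 0 ≤ E := (abs_nonneg _).trans k1
  have e3 : (SS ρ F0 G1 (i + t) 0 - SS ρ F0 G1 i 0) = D i 0 := rfl
  rw [e3] at k1
  push_cast at c1 c2 c3
  rw [abs_le] at c1 c2 c3 k1 ⊢
  constructor <;> linarith

/-- **`ρ` does not feel the distance** -/
theorem Sys.SS_all (H : Sys N l r Λ ε₁ ε₂ ε₃ D0 D1 ρ) {s : ℕ} (hs : r = 64 * s)
    {F0 F1 : ℤ → ℤ → ℝ} (h0 : F0 ∈ D0) (h1 : F1 ∈ D1)
    (hΛ : 10000000000 * (1 + CG) ≤ Λ) (hr : 10000000000 * (1 + CG) * l ≤ r) {R : ℕ}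
    (hR : r ≤ R) (hR2 : R ≤ 2 * r) :
    |sg ρ F0 F1 0 (R • e1) - sg ρ F0 F1 0 (r • e1)| ≤ 12480 * eM N l r ε₁ ε₂ ε₃ := by
  have c := chain (f := fun j : ℕ => SS ρ F0 F1 ((min R (r + j * s) : ℕ) : ℤ) 0)
    (e := 195 * eM N l r ε₁ ε₂ ε₃) (n := 64) (fun j hj => by
      have hjs : j * s ≤ 63 * s := Nat.mul_le_mul_right s (by omega)
      have e : (j + 1) * s = j * s + s := by ring
      have h := H.SS_step hs h0 h1 (i := min R (r + j * s))
        (t := min R (r + (j + 1) * s) - min R (r + j * s)) (by omega) (by omega)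
        (by rw [e]; omega) hΛ hr
      have e2 : ((min R (r + j * s) : ℕ) : ℤ) +
          ((min R (r + (j + 1) * s) - min R (r + j * s) : ℕ) : ℤ) =
          ((min R (r + (j + 1) * s) : ℕ) : ℤ) := by
        rw [e]
        omega
      rw [e2] at h
      exact h)
  have e1 : min R (r + 64 * s) = R := by omega
  have e2 : min R (r + 0 * s) = r := by omega
  rw [e1, e2] at c
  unfold SS at c
  rw [XX_ne1, XX_ne1] at c
  refine c.trans (le_of_eq ?_)
  push_cast
  ring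

end

end

end Vale.Agent.P159.H817
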