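import Vale.Agent.P159.H817.St6
import Vale.Agent.P159.H817.Ang10

/-!
P159 / module STATG (helper817), part 7: comparison of two tori `N` and `M N`.
-/

set_option linter.unusedSectionVars false

namespace Vale.Agent.P159.H817

open Finset
open Vale.Agent.P159.TM.Spec (V)

noncomputable section

/-! ### the maximum principle -/

section

variable {N : ℕ} [NeZero N]

lemma vma_succ {a : ZMod N} (h0 : 0 ≤ a.valMinAbs) (h : 2 * (a.valMinAbs.natAbs + 1) < N) :
    (a + 1).valMinAbs.natAbs = a.valMinAbs.natAbs + 1 := by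
  have e : (a + 1).valMinAbs = a.valMinAbs + 1 := by
    refine (ZMod.valMinAbs_spec _ _).2 ⟨?_, ?_⟩
    · push_cast
      simp
    · rw [Set.mem_Ioc]
      omega
  rw [e]
  omega

lemma vma_pred {a : ZMod N} (h0 : a.valMinAbs ≤ 0) (h : 2 * (a.valMinAbs.natAbs + 1) < N) :
    (a - 1).valMinAbs.natAbs = a.valMinAbs.natAbs + 1 := by
  have e : (a - 1).valMinAbs = a.valMinAbs - 1 := by
    refine (ZMod.valMinAbs_spec _ _).2 ⟨?_, ?_⟩
    · push_cast
      simp
    · rw [Set.mem_Ioc]
      omega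
  rw [e]
  omega

/-- one of the neighbours is farther from the origin -/
lemma sz_grow {x : V N} (h : 2 * (sz x + 1) < N) :
    sz (x + e1) = sz x + 1 ∨ sz (x - e1) = sz x + 1 ∨ sz (x + e2) = sz x + 1 ∨
      sz (x - e2) = sz x + 1 := by
  have c1 : (x + e1).1 = x.1 + 1 := rfl
  have c2 : (x + e1).2 = x.2 := by show x.2 + 0 = x.2; ring
  have c3 : (x - e1).1 = x.1 - 1 := rfl
  have c4 : (x - e1).2 = x.2 := by show x.2 - 0 = x.2; ring
  have c5 : (x + e2).2 = x.2 + 1 := rfl
  have c6 : (x + e2).1 = x.1 := by show x.1 + 0 = x.1; ring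
  have c7 : (x - e2).2 = x.2 - 1 := rfl
  have c8 : (x - e2).1 = x.1 := by show x.1 - 0 = x.1; ring
  unfold sz at h ⊢
  rw [c1, c2, c3, c4, c5, c6, c7, c8]
  rcases le_total x.2.valMinAbs.natAbs x.1.valMinAbs.natAbs with h1 | h1
  · rcases le_total 0 x.1.valMinAbs with h2 | h2
    · left
      rw [vma_succ h2 (by omega)]
      omega
    · right; left
      rw [vma_pred h2 (by omega)]
      omega
  · rcases le_total 0 x.2.valMinAbs with h2 | h2
    · right; right; left
      rw [vma_succ h2 (by omega)]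
      omega
    · right; right; right
      rw [vma_pred h2 (by omega)]
      omega

lemma sz_nb (x : V N) : sz (x + e1) ≤ sz x + 1 ∧ sz (x - e1) ≤ sz x + 1 ∧
    sz (x + e2) ≤ sz x + 1 ∧ sz (x - e2) ≤ sz x + 1 := by
  have h1 := sz_e1 x
  have h2 := sz_e2 x
  have h3 := sz_e1 (x - e1)
  have h4 := sz_e2 (x - e2)
  rw [sub_add_cancel] at h3 h4
  exact ⟨h1.2, h3.1, h2.2, h4.1⟩

/-- **maximum principle**, upper bound -/
lemma max_pr {f : V N → ℝ} {K : ℕ} (hK : 2 * K < N) (hf : ∀ x, sz x < K → lp f x = 0) {B : ℝ}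
    (hB : ∀ x, sz x = K → f x ≤ B) {x : V N} (hx : sz x ≤ K) : f x ≤ B := by
  classical
  set A : Finset (V N) := univ.filter fun x => sz x ≤ K with hA
  have hAne : A.Nonempty := ⟨x, by rw [hA, Finset.mem_filter]; exact ⟨Finset.mem_univ _, hx⟩⟩
  obtain ⟨x0, hx0, hmax⟩ := Finset.exists_max_image A f hAne
  set A' : Finset (V N) := A.filter fun x => f x = f x0 with hA'
  have hA'ne : A'.Nonempty := ⟨x0, by rw [hA', Finset.mem_filter]; exact ⟨hx0, rfl⟩⟩
  obtain ⟨x1, hx1, hmax1⟩ := Finset.exists_max_image A' (fun x => sz x) hA'ne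
  rw [hA', Finset.mem_filter] at hx1
  have hx1K : sz x1 ≤ K := (Finset.mem_filter.1 hx1.1).2
  have hx1m : f x ≤ f x1 := by
    rw [hx1.2]
    exact hmax x (by rw [hA, Finset.mem_filter]; exact ⟨Finset.mem_univ _, hx⟩)
  refine hx1m.trans ?_
  rcases eq_or_lt_of_le hx1K with h | h
  · exact hB _ h
  exfalso
  have h1 := hf x1 h
  have hn := sz_nb x1
  have hle : ∀ y, sz y ≤ sz x1 + 1 → f y ≤ f x1 := by
    intro y hy
    rw [hx1.2]
    exact hmax y (by rw [hA, Finset.mem_filter]; exact ⟨Finset.mem_univ _, by omega⟩)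
  have g1 := hle _ hn.1
  have g2 := hle _ hn.2.1
  have g3 := hle _ hn.2.2.1
  have g4 := hle _ hn.2.2.2
  unfold lp at h1
  have hcontr : ∀ y, sz y = sz x1 + 1 → f y = f x1 → False := by
    intro y hy hfy
    have h3 := hmax1 y (by
      rw [hA', Finset.mem_filter, hA, Finset.mem_filter]
      exact ⟨⟨Finset.mem_univ _, by omega⟩, by rw [hfy, hx1.2]⟩)
    omega
  rcases sz_grow (x := x1) (by omega) with h2 | h2 | h2 | h2
  · exact hcontr _ h2 (by linarith)
  · exact hcontr _ h2 (by linarith)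
  · exact hcontr _ h2 (by linarith)
  · exact hcontr _ h2 (by linarith)

lemma lp_neg' (f : V N → ℝ) (x : V N) : lp (fun y => -f y) x = -lp f x := by
  unfold lp
  ring

/-- **maximum principle** -/
lemma max_abs {f : V N → ℝ} {K : ℕ} (hK : 2 * K < N) (hf : ∀ x, sz x < K → lp f x = 0) {B : ℝ}
    (hB : ∀ x, sz x = K → |f x| ≤ B) {x : V N} (hx : sz x ≤ K) : |f x| ≤ B := by
  rw [abs_le]
  constructor
  · have h1 := max_pr (f := fun y => -f y) hK (fun y hy => by rw [lp_neg', hf y hy, neg_zero])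
      (B := B) (fun y hy => (neg_le_abs _).trans (hB y hy)) hx
    linarith
  · exact max_pr hK hf (fun y hy => (le_abs_self _).trans (hB y hy)) hx

end

/-! ### the projection -/

section

variable {N : ℕ} [NeZero N] (M : ℕ) [NeZero M]

/-- one coordinate of the projection -/
def pr1 (N M : ℕ) : ZMod (M * N) →+* ZMod N := ZMod.castHom (Dvd.intro_left M rfl) (ZMod N)

/-- the projection from the torus `M N` -/
def prj (x : V (M * N)) : V N := (pr1 N M x.1, pr1 N M x.2)

lemma prj_add (x y : V (M * N)) : prj (N := N) M (x + y) = prj M x + prj M y := by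
  unfold prj
  rw [Prod.fst_add, Prod.snd_add, map_add, map_add]
  rfl

lemma prj_sub (x y : V (M * N)) : prj (N := N) M (x - y) = prj M x - prj M y := by
  unfold prj
  rw [Prod.fst_sub, Prod.snd_sub, map_sub, map_sub]
  rfl

lemma prj_e1 : prj (N := N) M e1 = e1 := by
  unfold prj e1
  rw [map_one, map_zero]

lemma prj_e2 : prj (N := N) M e2 = e2 := by
  unfold prj e2
  rw [map_one, map_zero]

lemma prj_eb (b : Bool) : prj (N := N) M (eb b) = eb b := by
  cases b
  · exact prj_e1 M
  · exact prj_e2 M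

lemma prj_zero : prj (N := N) M 0 = 0 := by
  unfold prj
  simp

lemma prj_nsmul (n : ℕ) (x : V (M * N)) : prj (N := N) M (n • x) = n • prj M x := by
  induction n with
  | zero => rw [zero_smul, zero_smul, prj_zero]
  | succ n ih => rw [succ_nsmul, succ_nsmul, prj_add, ih]

lemma pr1_eq (a : ZMod (M * N)) : pr1 N M a = ((a.valMinAbs : ℤ) : ZMod N) := by
  conv_lhs => rw [← ZMod.coe_valMinAbs a]
  rw [map_intCast]

variable {M}

lemma vma_pr1 {a : ZMod (M * N)} (h : 2 * a.valMinAbs.natAbs < N) :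
    (pr1 N M a).valMinAbs = a.valMinAbs := by
  refine (ZMod.valMinAbs_spec _ _).2 ⟨?_, ?_⟩
  · rw [pr1_eq]
  · rw [Set.mem_Ioc]
    omega

lemma sz_prj {x : V (M * N)} (h : 2 * sz x < N) : sz (prj (N := N) M x) = sz x := by
  unfold sz at h
  unfold sz prj
  simp only
  rw [vma_pr1 (by omega), vma_pr1 (by omega)]

lemma eq_zero_of_prj {x : V (M * N)} (h : sz x < N) (h0 : prj (N := N) M x = 0) : x = 0 := by
  have aux : ∀ a : ZMod (M * N), a.valMinAbs.natAbs < N → pr1 N M a = 0 → a = 0 := by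
    intro a ha h0
    rw [pr1_eq, ZMod.intCast_zmod_eq_zero_iff_dvd] at h0
    have h1 : a.valMinAbs = 0 := by
      rcases h0 with ⟨c, hc⟩
      rcases eq_or_ne c 0 with h2 | h2
      · rw [hc, h2, mul_zero]
      · exfalso
        have h3 : 1 ≤ c.natAbs := Int.natAbs_pos.2 h2
        have h4 : a.valMinAbs.natAbs = N * c.natAbs := by
          rw [hc, Int.natAbs_mul, Int.natAbs_natCast]
        nlinarith
    exact (ZMod.valMinAbs_eq_zero a).1 h1
  unfold sz at h
  unfold prj at h0
  rw [Prod.mk_eq_zero] at h0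
  exact Prod.ext (aux _ (by omega) h0.1) (aux _ (by omega) h0.2)

/-- difference of the two potential kernels -/
def HG (N M : ℕ) [NeZero N] [NeZero M] (x : V (M * N)) : ℝ := G0 (prj (N := N) M x) - G0 x

lemma lp_HG {x : V (M * N)} (h : sz x < N) :
    lp (HG N M) x = 1 / (N : ℝ) ^ 2 - 1 / ((M * N : ℕ) : ℝ) ^ 2 := by
  have h1 := lp_G0 (prj (N := N) M x)
  have h2 := lp_G0 x
  have h3 : (if prj (N := N) M x = 0 then (1 : ℝ) else 0) = if x = 0 then 1 else 0 := by
    by_cases hx : x = 0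
    · rw [if_pos hx, if_pos (by rw [hx, prj_zero])]
    · rw [if_neg hx, if_neg (fun h0 => hx (eq_zero_of_prj h h0))]
  rw [h3] at h1
  have h4 : lp (HG N M) x = lp (G0 (N := N)) (prj M x) - lp G0 x := by
    unfold lp HG
    rw [prj_add, prj_sub, prj_add, prj_sub, prj_e1, prj_e2]
    ring
  rw [h4, h1, h2]
  ring

lemma lp_D (e : V N) (f : V N → ℝ) (x : V N) : lp (D e f) x = lp f (x + e) - lp f x := by
  unfold lp D
  have a1 : x + e1 + e = x + e + e1 := add_right_comm _ _ _
  have a2 : x - e1 + e = x + e - e1 := sub_add_eq_add_sub _ _ _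
  have a3 : x + e2 + e = x + e + e2 := add_right_comm _ _ _
  have a4 : x - e2 + e = x + e - e2 := sub_add_eq_add_sub _ _ _
  rw [a1, a2, a3, a4]
  ring

/-- **gradient of the difference of the two kernels** -/
lemma D_HG {e : V (M * N)} (he : e = e1 ∨ e = e2) {K : ℕ} (hK : 4 * K + 4 ≤ N)
    {x : V (M * N)} (hx : sz x ≤ K) : |D e (HG N M) x| ≤ 2 * CG / (1 + K) := by
  have hMN : N ≤ M * N := Nat.le_mul_of_pos_left N (NeZero.pos M)
  refine max_abs (K := K) (by omega) ?_ ?_ hx
  · intro y hy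
    have h1 : sz (y + e) ≤ sz y + 1 := by
      rcases he with rfl | rfl
      · exact (sz_e1 y).2
      · exact (sz_e2 y).2
    rw [lp_D, lp_HG (by omega), lp_HG (by omega), sub_self]
  · intro y hy
    have h1 : D e (HG N M) y = D (prj (N := N) M e) G0 (prj M y) - D e G0 y := by
      unfold D HG
      rw [prj_add]
      ring
    have he' : prj (N := N) M e = e1 ∨ prj (N := N) M e = e2 := by
      rcases he with rfl | rfl
      · left; exact prj_e1 M
      · right; exact prj_e2 M
    have h2 := grad_G0 he' (prj M y)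
    have h3 := grad_G0 he y
    rw [sz_prj (by omega), pow_one] at h2
    rw [pow_one] at h3
    rw [hy] at h2 h3
    rw [h1]
    refine (abs_sub _ _).trans ?_
    have e4 : 2 * CG / (1 + (K : ℝ)) = CG / (1 + K) + CG / (1 + K) := by ring
    rw [e4]
    exact add_le_add h2 h3

end

end

end Vale.Agent.P159.H817
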