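import Vale.Agent.P159.H817.St8
import Vale.Agent.P159.H864.Fou0
import Mathlib.Analysis.SpecialFunctions.Trigonometric.Chebyshev.RootsExtrema

/-!
P159 / module STATG (helper817), part 9: a finite range quadratic form with the symbol
`a E (m + R(E)) / (m + E)`, `R` exponentially small (Chebyshev polynomials).
-/

set_option linter.unusedSectionVars false

namespace Vale.Agent.P159.H817

open Finset Polynomial
open Vale.Agent.P159.TM.Spec (V)

noncomputable section

/-! ### polynomials -/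

/-- Chebyshev polynomial of the interval `[0, 8]`, `Cb 0 = 1` -/
def Cb (n : ℕ) : ℝ[X] := (Chebyshev.T ℝ n).comp (1 - C (1 / 4) * X)

lemma Cb_eval (n : ℕ) (E : ℝ) : (Cb n).eval E = (Chebyshev.T ℝ n).eval (1 - E / 4) := by
  unfold Cb
  rw [eval_comp]
  congr 1
  simp
  ring

lemma Cb_zero (n : ℕ) : (Cb n).eval 0 = 1 := by
  rw [Cb_eval]
  simp [Chebyshev.T_eval_one]

lemma Cb_abs (n : ℕ) {E : ℝ} (h0 : 0 ≤ E) (h8 : E ≤ 8) : |(Cb n).eval E| ≤ 1 := by
  rw [Cb_eval]
  refine Chebyshev.abs_eval_T_real_le_one _ ?_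
  rw [abs_le]
  constructor <;> linarith

/-- the normalisation -/
def Db (n : ℕ) (m : ℝ) : ℝ := (Cb n).eval (-m) - 1

lemma Db_pos {n : ℕ} (hn : 1 ≤ n) {m : ℝ} (hm : 0 < m) : 0 < Db n m := by
  unfold Db
  rw [Cb_eval]
  have := Chebyshev.one_lt_eval_T_real (n := (n : ℤ)) (by omega) (x := 1 - -m / 4) (by linarith)
  linarith

/-- growth of the Chebyshev polynomials -/
lemma Db_ge (n : ℕ) {m : ℝ} (hm : 0 < m) (hm8 : m ≤ 8) :
    Real.exp (n * √(m / 8)) / 2 - 1 ≤ Db n m := by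
  set y : ℝ := √(m / 8) with hy
  have hy0 : 0 ≤ y := Real.sqrt_nonneg _
  have hy2 : y ^ 2 = m / 8 := Real.sq_sqrt (by positivity)
  have hy1 : y ≤ 1 := by
    rw [hy, Real.sqrt_le_left (by norm_num)]
    linarith
  set u : ℝ := 2 * Real.arsinh y with hu
  have hc : Real.cosh u = 1 - -m / 4 := by
    rw [hu, Real.cosh_two_mul, Real.cosh_sq, Real.sinh_arsinh]
    linarith
  have he : 1 + y ≤ Real.exp (Real.arsinh y) := by
    rw [Real.exp_arsinh]
    have : 1 ≤ √(1 + y ^ 2) := Real.one_le_sqrt.2 (by nlinarith)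
    linarith
  have h1 : Real.exp (y / 2) ≤ 1 + y := by
    have h2 : |y / 2| ≤ 1 := by rw [abs_of_nonneg (by positivity)]; linarith
    have h3 := Real.abs_exp_sub_one_sub_id_le h2
    rw [abs_le] at h3
    nlinarith [h3.2]
  have h4 : y ≤ u := by
    have h5 : Real.exp (y / 2) ≤ Real.exp (Real.arsinh y) := h1.trans he
    have h6 := Real.exp_le_exp.1 h5
    rw [hu]
    linarith
  have h7 : Real.exp (n * y) / 2 ≤ Real.cosh (n * u) := by
    have h8 : Real.exp (n * y) ≤ Real.exp (n * u) :=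
      Real.exp_le_exp.2 (mul_le_mul_of_nonneg_left h4 (Nat.cast_nonneg _))
    rw [Real.cosh_eq]
    have := Real.exp_pos (-(n * u))
    linarith
  unfold Db
  rw [Cb_eval, ← hc]
  have h9 := Chebyshev.T_real_cosh u (n : ℤ)
  rw [h9]
  push_cast
  linarith

/-- the residual polynomial -/
def Rb (n : ℕ) (m : ℝ) : ℝ[X] := C (-(m / Db n m)) * (Cb n - 1)

lemma Rb_eval (n : ℕ) (m E : ℝ) : (Rb n m).eval E = -(m / Db n m) * ((Cb n).eval E - 1) := by
  unfold Rb
  simp

lemma Rb_zero (n : ℕ) (m : ℝ) : (Rb n m).eval 0 = 0 := by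
  rw [Rb_eval, Cb_zero]
  ring

lemma Rb_neg {n : ℕ} (hn : 1 ≤ n) {m : ℝ} (hm : 0 < m) : (Rb n m).eval (-m) = -m := by
  rw [Rb_eval]
  have h := (Db_pos hn hm).ne'
  have e : (Cb n).eval (-m) - 1 = Db n m := rfl
  rw [e]
  field_simp

lemma Rb_abs {n : ℕ} (hn : 1 ≤ n) {m : ℝ} (hm : 0 < m) {E : ℝ} (h0 : 0 ≤ E) (h8 : E ≤ 8) :
    |(Rb n m).eval E| ≤ 2 / Db n m * m := by
  have hD := Db_pos hn hm
  rw [Rb_eval, abs_mul, abs_neg, abs_of_pos (by positivity)]
  have h1 := Cb_abs n h0 h8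
  have h2 : |(Cb n).eval E - 1| ≤ 2 := by
    rw [abs_le] at h1 ⊢
    constructor <;> linarith
  calc m / Db n m * |(Cb n).eval E - 1| ≤ m / Db n m * 2 :=
        mul_le_mul_of_nonneg_left h2 (by positivity)
    _ = 2 / Db n m * m := by ring

/-- `(m + R) / (m + E)` -/
def wb (n : ℕ) (m : ℝ) : ℝ[X] := (Rb n m + C m) /ₘ (X - C (-m))

lemma wb_mul {n : ℕ} (hn : 1 ≤ n) {m : ℝ} (hm : 0 < m) :
    (X - C (-m)) * wb n m = Rb n m + C m := by
  unfold wb
  rw [mul_divByMonic_eq_iff_isRoot]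
  unfold IsRoot
  rw [eval_add, Rb_neg hn hm, eval_C]
  ring

lemma wb_eval {n : ℕ} (hn : 1 ≤ n) {m : ℝ} (hm : 0 < m) (E : ℝ) :
    (m + E) * (wb n m).eval E = m + (Rb n m).eval E := by
  have h := congrArg (Polynomial.eval E) (wb_mul hn hm)
  rw [eval_mul, eval_add, eval_C, eval_sub, eval_X, eval_C] at h
  linarith

/-- `(1 - w) / E` -/
def pb (n : ℕ) (m : ℝ) : ℝ[X] := (1 - wb n m) /ₘ (X - C 0)

lemma pb_eval {n : ℕ} (hn : 1 ≤ n) {m : ℝ} (hm : 0 < m) (E : ℝ) :
    E * (pb n m).eval E = 1 - (wb n m).eval E := by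
  have h1 : (X - C 0) * pb n m = 1 - wb n m := by
    unfold pb
    rw [mul_divByMonic_eq_iff_isRoot]
    unfold IsRoot
    have h2 := wb_eval hn hm 0
    rw [Rb_zero] at h2
    have h3 : (wb n m).eval 0 = 1 := by
      have h4 : m * (wb n m).eval 0 = m * 1 := by linarith
      exact mul_left_cancel₀ hm.ne' h4
    rw [eval_sub, h3, eval_one]
    ring
  have h := congrArg (Polynomial.eval E) h1
  rw [eval_mul, eval_sub, eval_sub, eval_X, eval_C, eval_one] at h
  linarith

lemma pb_deg (n : ℕ) (m : ℝ) : (pb n m).natDegree ≤ n := by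
  have h1 : (Cb n).natDegree ≤ n := by
    unfold Cb
    refine natDegree_comp_le.trans ?_
    have h2 : (Chebyshev.T ℝ n).natDegree ≤ n := by
      rw [Chebyshev.natDegree_T]
      simp
    have h3 : (1 - C (1 / 4) * X : ℝ[X]).natDegree ≤ 1 := by
      refine (natDegree_sub_le _ _).trans ?_
      rw [natDegree_one]
      refine max_le (by omega) ?_
      exact (natDegree_C_mul_le _ _).trans natDegree_X_le
    calc _ ≤ n * 1 := Nat.mul_le_mul h2 h3
      _ = n := mul_one n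
  have h2 : (Rb n m).natDegree ≤ n := by
    unfold Rb
    refine (natDegree_C_mul_le _ _).trans ?_
    refine (natDegree_sub_le _ _).trans ?_
    rw [natDegree_one]
    exact max_le h1 (by omega)
  have h3 : (wb n m).natDegree ≤ n := by
    unfold wb
    refine (natDegree_le_natDegree (degree_divByMonic_le _ _)).trans ?_
    refine (natDegree_add_le _ _).trans ?_
    rw [natDegree_C]
    exact max_le h2 (by omega)
  unfold pb
  refine (natDegree_le_natDegree (degree_divByMonic_le _ _)).trans ?_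
  refine (natDegree_sub_le _ _).trans ?_
  rw [natDegree_one]
  exact max_le (by omega) h3

end

end Vale.Agent.P159.H817
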